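import Crest.Agent.N207.CB.St
import Crest.Agent.N207.CB.Lf1
import Crest.Agent.N207.K.Nem
import Crest.Agent.N207.I.Car3

/-!
# Row 207, block L, core side (helper67): `cut : CUT T`, geometry of the cells
-/

set_option autoImplicit false

open scoped ContDiff
open Metric Set Filter Topology
open Crest.Agent.NLib.Ell Crest.Agent.N207.I

noncomputable section

namespace Crest.Agent.N207.CB

namespace Cu

theorem stp_sm (a b : ℝ) : ContDiff ℝ ∞ (stp a b) :=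
  Real.smoothTransition.contDiff.comp ((contDiff_id.sub contDiff_const).div_const _)

theorem stp_zero' {a b τ : ℝ} (h : a < b) (hτ : τ ≤ a) : stp a b τ = 0 :=
  Real.smoothTransition.zero_of_nonpos (div_nonpos_of_nonpos_of_nonneg (by linarith) (by linarith))

theorem stp_one' {a b τ : ℝ} (h : a < b) (hτ : b ≤ τ) : stp a b τ = 1 :=
  Real.smoothTransition.one_of_one_le ((one_le_div (by linarith)).2 (by linarith))

theorem exists_cka_id (k : ℕ) : ∃ M, 0 ≤ M ∧ CKA (1 / 2) B1 k M fun y => y := by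
  obtain ⟨K, h0, h⟩ := K.exists_db (Φ := fun y : E4 => y) (W := B1) isOpen_univ contDiffOn_id
    (isCompact_closedBall 0 1) (subset_univ _) ball_subset_closedBall (k + 1)
  exact ⟨2 * K, by positivity, CKA.of_bounds isOpen_ball (convex_ball _ _) (by norm_num)
    (by norm_num) contDiffOn_id h.bd⟩

theorem nrm_cell {e y : E4} (he : ‖e‖ = 1) (hy : y ∈ B1) :
    7 / 8 ≤ ‖e + (1 / 8 : ℝ) • y‖ ∧ ‖e + (1 / 8 : ℝ) • y‖ ≤ 9 / 8 := by
  have h1 : ‖(1 / 8 : ℝ) • y‖ ≤ 1 / 8 := by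
    rw [norm_smul, Real.norm_of_nonneg (by norm_num)]
    have := mem_ball_zero_iff.1 hy; linarith
  have h2 := norm_add_le e ((1 / 8 : ℝ) • y)
  have h3 := norm_sub_le (e + (1 / 8 : ℝ) • y) ((1 / 8 : ℝ) • y)
  rw [add_sub_cancel_right] at h3
  constructor <;> linarith

/-- smooth functions on `ℝ⁴ ∖ 0` are uniformly bounded on the unit cells -/
theorem exists_cka_unit {G : Type} [NormedAddCommGroup G] [NormedSpace ℝ G] {Φ : E4 → G}
    (hΦ : ContDiffOn ℝ ∞ Φ {0}ᶜ) (k : ℕ) : ∃ C, 0 ≤ C ∧ ∀ e : E4, ‖e‖ = 1 →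
      CKA (1 / 2) B1 k C fun y => Φ (e + (1 / 8 : ℝ) • y) := by
  obtain ⟨M, -, hM⟩ := exists_cka_id k
  obtain ⟨C, hC⟩ := Crest.Agent.NLib.Ell.comp 4 k (1 / 2) (1 + |1 / 8| * M) (by norm_num)
    (by norm_num) E4 G Φ {0}ᶜ (closedBall 0 2 \ ball 0 (1 / 2)) isOpen_compl_singleton
    ((isCompact_closedBall 0 2).diff isOpen_ball)
    (fun x hx e => hx.2 (by rw [mem_singleton_iff.1 e]; exact mem_ball_self (by norm_num))) hΦ
  refine ⟨max C 0, le_max_right _ _, fun e he => (hC B1 _ isOpen_ball (fun y hy => ?_) ?_).mono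
    (le_max_left _ _)⟩
  · have := nrm_cell he hy
    exact ⟨mem_closedBall_zero_iff.2 (by linarith [this.2]),
      fun h => by have := mem_ball_zero_iff.1 h; linarith⟩
  · exact ((CKA.const e).mono he.le).add isOpen_ball (hM.smul isOpen_ball _)

/-- shifts of a function that is constant near `±∞` -/
theorem exists_cka_shift {Φ : ℝ → ℝ} (hΦ : ContDiff ℝ ∞ Φ) {a b : ℝ}
    (ha : ∀ t ≤ a, Φ t = Φ a) (hb : ∀ t, b ≤ t → Φ t = Φ b) (k : ℕ) (M : ℝ) :
    ∃ C, 0 ≤ C ∧ ∀ (c : ℝ) (f : E4 → ℝ), CKA (1 / 2) B1 k M f →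
      CKA (1 / 2) B1 k C fun y => Φ (c + f y) := by
  obtain ⟨C, hC⟩ := Crest.Agent.NLib.Ell.comp 4 k (1 / 2) (|a| + |b| + M + M) (by norm_num)
    (by norm_num) ℝ ℝ Φ univ (closedBall 0 (|a| + |b| + M + M)) isOpen_univ
    (isCompact_closedBall _ _) (subset_univ _) hΦ.contDiffOn
  refine ⟨max C (‖Φ a‖ + ‖Φ b‖), le_max_of_le_right (by positivity), fun c f hf => ?_⟩
  have h0 : ∀ y ∈ B1, |f y| ≤ M := fun y hy => hf.bdd hy
  by_cases h1 : c + M ≤ a
  · refine ((CKA.const (Φ a)).congr isOpen_ball fun y hy => ha _ ?_).mono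
      (le_max_of_le_right (by linarith [norm_nonneg (Φ b)]))
    linarith [(abs_le.1 (h0 y hy)).2]
  by_cases h2 : b ≤ c - M
  · refine ((CKA.const (Φ b)).congr isOpen_ball fun y hy => hb _ ?_).mono
      (le_max_of_le_right (by linarith [norm_nonneg (Φ a)]))
    linarith [(abs_le.1 (h0 y hy)).1]
  have h3 : ‖c‖ ≤ |a| + |b| + M := by
    rw [Real.norm_eq_abs, abs_le]
    constructor <;> linarith [neg_abs_le a, le_abs_self b, abs_nonneg a, abs_nonneg b]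
  have h4 : CKA (1 / 2) B1 k (|a| + |b| + M + M) fun y => c + f y :=
    ((CKA.const c).add isOpen_ball hf).mono (by linarith)
  exact (hC B1 _ isOpen_ball (fun y hy => mem_closedBall_zero_iff.2 (h4.bdd hy)) h4).mono
    (le_max_left _ _)

variable {M : Type*} {T : TD M} {v : T.V}

theorem cK_pos {u : T.V} {x : E4} (hx : x ∈ T.cK v (Sum.inr u)) : 0 < ‖x‖ := by
  by_cases h : u = v
  · subst h; rw [TD.mem_cK_out] at hx; linarith
  · rw [TD.mem_cK_inn h] at hx; exact hx.2.1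

theorem rad_pos' {s : T.S} {x : E4} (hx : x ∈ T.cK v s) : 0 < rad T s x := by
  cases s with
  | inl a => simp [rad]
  | inr u => have := cK_pos hx; simp only [rad, Sum.elim_inr]; positivity


theorem cell_eq {x : E4} (hx : 0 < ‖x‖) (y : E4) :
    x + (‖x‖ / 8) • y = ‖x‖ • (‖x‖⁻¹ • x + (1 / 8 : ℝ) • y) := by
  rw [smul_add, smul_smul, smul_smul, mul_inv_cancel₀ hx.ne', one_smul, mul_one_div]

theorem norm_unit {x : E4} (hx : 0 < ‖x‖) : ‖‖x‖⁻¹ • x‖ = 1 := by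
  rw [norm_smul, norm_inv, norm_norm, inv_mul_cancel₀ hx.ne']

theorem norm_cell {x y : E4} (hx : 0 < ‖x‖) (hy : y ∈ B1) :
    7 / 8 * ‖x‖ ≤ ‖x + (‖x‖ / 8) • y‖ ∧ ‖x + (‖x‖ / 8) • y‖ ≤ 9 / 8 * ‖x‖ := by
  have := nrm_cell (norm_unit hx) hy
  rw [cell_eq hx, norm_smul, norm_norm]
  constructor <;> nlinarith [this.1, this.2]

/-- the collar coordinate on a cell -/
theorem tau_cell (u : T.V) (T0 : ℝ) {x y : E4} (hx : 0 < ‖x‖) (hy : y ∈ B1) :
    tau T v u T0 (x + (‖x‖ / 8) • y) = tau T v u T0 x +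
      (if u = v then 1 else -1 : ℝ) * Real.log ‖‖x‖⁻¹ • x + (1 / 8 : ℝ) • y‖ := by
  have := (nrm_cell (norm_unit hx) hy).1
  rw [tau, tau, cell_eq hx, norm_smul, norm_norm, Real.log_mul hx.ne' (by linarith)]
  split_ifs <;> ring

theorem abs_log_cell {e y : E4} (he : ‖e‖ = 1) (hy : y ∈ B1) :
    |Real.log ‖e + (1 / 8 : ℝ) • y‖| ≤ 1 / 7 := by
  have h := nrm_cell he hy
  have h0 : 0 < ‖e + (1 / 8 : ℝ) • y‖ := by linarith [h.1]
  have h1 := Real.log_le_sub_one_of_pos h0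
  have h2 := Real.one_sub_inv_le_log_of_pos h0
  have h3 : ‖e + (1 / 8 : ℝ) • y‖⁻¹ ≤ 8 / 7 := by
    rw [inv_le_comm₀ h0 (by norm_num)]; linarith [h.1]
  rw [abs_le]; constructor <;> linarith [h.2]

/-- `tau` varies by at most `1/7` on a cell -/
theorem tau_cell_le (u : T.V) (T0 : ℝ) {x y : E4} (hx : 0 < ‖x‖) (hy : y ∈ B1) :
    |tau T v u T0 (x + (‖x‖ / 8) • y) - tau T v u T0 x| ≤ 1 / 7 := by
  rw [tau_cell u T0 hx hy, add_sub_cancel_left, abs_mul]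
  have := abs_log_cell (norm_unit hx) hy
  split_ifs <;> simpa using this

/-- functions of `tau` on the cells, uniformly -/
theorem exists_cka_tau {Φ : ℝ → ℝ} (hΦ : ContDiff ℝ ∞ Φ) {a b : ℝ}
    (ha : ∀ t ≤ a, Φ t = Φ a) (hb : ∀ t, b ≤ t → Φ t = Φ b) (k : ℕ) :
    ∃ C, 0 ≤ C ∧ ∀ (v u : T.V) (T0 : ℝ) (x : E4), 0 < ‖x‖ →
      CKA (1 / 2) B1 k C fun y => Φ (tau T v u T0 (x + (‖x‖ / 8) • y)) := by
  obtain ⟨M, -, hM⟩ := exists_cka_unit (Φ := fun x : E4 => Real.log ‖x‖)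
    (fun x hx => ((contDiffAt_norm ℝ hx).log (norm_ne_zero_iff.2 hx)).contDiffWithinAt) k
  obtain ⟨C, h0, hC⟩ := exists_cka_shift hΦ ha hb k M
  refine ⟨C, h0, fun v u T0 x hx => (hC (tau T v u T0 x) (fun y => (if u = v then 1 else -1 : ℝ) *
    Real.log ‖‖x‖⁻¹ • x + (1 / 8 : ℝ) • y‖) ?_).congr isOpen_ball fun y hy => ?_⟩
  · refine ((hM _ (norm_unit hx)).const_mul isOpen_ball _).mono (le_of_eq ?_)
    split_ifs <;> simp
  · rw [tau_cell u T0 hx hy]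

theorem exists_cka_stp {a b : ℝ} (h : a < b) (k : ℕ) :
    ∃ C, 0 ≤ C ∧ ∀ (v u : T.V) (T0 : ℝ) (x : E4), 0 < ‖x‖ →
      CKA (1 / 2) B1 k C fun y => stp a b (tau T v u T0 (x + (‖x‖ / 8) • y)) :=
  exists_cka_tau (stp_sm a b) (fun _ ht => by rw [stp_zero' h ht, stp_zero' h le_rfl])
    (fun _ ht => by rw [stp_one' h ht, stp_one' h le_rfl]) k

end Cu

open Cu in
/-- **CUT** -/
theorem cut {M : Type*} {T : TD M} : CUT T := by
  intro _ a b k hab
  obtain ⟨C, h0, hC⟩ := exists_cka_stp (T := T) hab k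
  refine ⟨2 ^ (k + 1) * C, fun v u T0 => ?_⟩
  have h1 : ∀ i : CI T v, CKA (1 / 2) B1 k C fun y => rad T i.1.1 i.1.2 ^ 0 *
      (if i.1.1 = Sum.inr u then stp a b (tau T v u T0 (cpt T i y)) else 0) := by
    rintro ⟨⟨s, x⟩, hx⟩
    by_cases e : s = Sum.inr u
    · subst e
      simpa [cpt, rad] using hC v u T0 x (cK_pos hx)
    · simpa [e] using CKA.zero.mono h0
  obtain ⟨W, hW⟩ := exists_rp h0 h1
  exact ⟨W, hW.norm_le h0 h1, hW⟩

end Crest.Agent.N207.CB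

end
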