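import Crest.Agent.N207.CB.St4
import Crest.Agent.N250.H.Fix
import Crest.Agent.N207.CB.Lf3
import Crest.Agent.N207.CB.Cut
import Crest.Agent.N207.Ga.Glue
import Crest.Agent.N207.I.Cal5

-- ▼ part N207/CB/St5
section

/-!
# Row 207, block L (helper92): the core step `CORE` and the global assembly `GLB`
-/

set_option autoImplicit false

open scoped ContDiff
open Metric Set Filter Topology MeasureTheory
open Crest.GeometryTopology.CoordMetric
open Crest.Agent.NLib.Ell Crest.Agent.N207.I Crest.Agent.N207.Lg Crest.Agent.N207.J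

noncomputable section

namespace Crest.Agent.N207.CB

variable {M : Type*} (T : TD M)

/-- the arguments `((W, μ), a, b, θ)` of the core step -/
abbrev Zc (v : T.V) (κ : Type) : Type :=
  (XC T v 8 0 × (κ → ℂ)) × (∀ u, SC T u) × XC T v 8 0 × (κ → ℂ)

/-- `(1 + a)² - 1` -/
def cA (a : Mt) : Mt := 2 • a + a * a

/-- the constant mode of the parent is cut on the outer end of `v` -/
def cutA (v : T.V) (T0 : ℝ) (a : Mt) : Fam T :=
  onE T v fun x => stp (17 / 20) (19 / 20) (tau T v v T0 x) • cA a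

/-- the real points -/
structure ZR {v : T.V} {κ : Type} (z : Zc T v κ) (μ : κ → ℝ) (a : T.V → Mt) (θ : κ → ℝ) : Prop where
  hW : z.1.1.1 ∈ XR T v 8 0
  hμ : z.1.2 = cv μ
  ha : ∀ u, Adm T u (a u) ∧ (z.2.1 u).1 = cm (a u)
  hb : z.2.2.1.1 ∈ XR T v 8 0
  hθ : z.2.2.2 = cv θ

/-- what a real fixed point of the core step means -/
structure CoM (g : T.V → Fam T) (T0 : ℝ) {κ : Type} [Fintype κ] (v : T.V) (ψ : κ → Fam T)
    (a : T.V → Mt) (δ : ℝ) (θ μ : κ → ℝ) (β w G : Fam T) : Prop where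
  cos : CoS T g T0 v ψ a δ θ (fun j => -(μ j / 2)) G
  outP : ∀ p q k, pm (cf (unit T v v T0 w) p q) k 3 = 0
  outE : ∀ x ∈ An (Ioo 1 3), (1 - rho (Real.log ‖x‖)) • Pop fl1 (unit T v v T0 w) x +
    (2 * rho (Real.log ‖x‖)) • redM fl1 (fl1 + unit T v v T0 β + unit T v v T0 w) x = 0
  outG : ∀ x ∈ An (Ioo 1 2), G (Sum.inr v) (Real.exp T0 • x) = 1 + unit T v v T0 w x
  innQ : ∀ u, T.kid v u → ∀ p q k, qm (cf (unit T v u T0 w) p q) k (-3) = 0
  innE : ∀ u, T.kid v u → ∀ x ∈ An (Ioo (-3) (-1)),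
    (1 - rho (-Real.log ‖x‖)) • Pop fl1 (fun x => unit T v u T0 w x + cA (a u)) x +
      (2 * rho (-Real.log ‖x‖)) •
        redM fl1 (fl1 + unit T v u T0 β + fun x => unit T v u T0 w x + cA (a u)) x = 0
  innG : ∀ u, T.kid v u → ∀ x ∈ An (Ioo (-2) (-1)),
    G (Sum.inr u) (Real.exp (-T0) • x) = 1 + (unit T v u T0 w x + cA (a u))

/-- **one step of the iteration on `core v`**, and the action of the core -/
structure CoreStep (g : T.V → Fam T) {κ : Type} [Fintype κ] (ψ : κ → Fam T) (v : T.V)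
    (T0 ε K η : ℝ) where
  Φ : Zc T v κ → XC T v 8 0 × (κ → ℂ)
  S : Zc T v κ → ℂ
  B : ℝ
  hΦ : DifferentiableOn ℂ Φ (ball 0 ε)
  hS : DifferentiableOn ℂ S (ball 0 ε)
  bΦ : ∀ z ∈ ball (0 : Zc T v κ) ε,
    ‖Φ z‖ ≤ K * (η + ‖z.2.2.2‖ + ‖z.2.1 v‖ + ‖z.2.2.1‖ + ‖z‖ ^ 2)
  bS : ∀ z ∈ ball (0 : Zc T v κ) ε, ‖S z‖ ≤ B
  real : ∀ z ∈ ball (0 : Zc T v κ) ε, ∀ μ a θ, ZR T z μ a θ →
    (Φ z).1.1 ∈ XR T v 8 0 ∧ ∃ μ', (Φ z).2 = cv μ'
  fix : ∀ z ∈ ball (0 : Zc T v κ) ε, ∀ μ a θ, ZR T z μ a θ → Φ z = z.1 → ∀ β w : Fam T,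
    Sec T v β → Lf T 0 β z.2.2.1.1 →
    (∀ s, ∀ x ∈ UR T v T0 (22 / 10) s, β s x = 0) → SecN T v 8 w → Lf T 0 w z.1.1.1 →
    ∃ G, CoM T g T0 v ψ a (K * (η + ‖z‖)) θ μ β w G ∧
      S z = (actC T v T0 (fun s => fgfF (gbA T g T0 a v s) (G s)) : ℝ)

/-- **CORE (helper92)** -/
def CORE : Prop :=
  ∀ (g : T.V → Fam T) (γ σ : ℝ), 0 < γ → 0 < σ → σ < 1 → T.Ok → T.Lim g γ →
    ∀ (κ : T.V → Type) [∀ v, Fintype (κ v)] (ψ : ∀ v, κ v → Fam T), KLin T g κ ψ σ →
      ∃ ε C T1 : ℝ, 0 < ε ∧ 1 ≤ C ∧ Psi T κ ψ T1 ∧ ∀ T0, T1 ≤ T0 → ∀ v,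
        Nonempty (CoreStep T g (ψ v) v T0 ε (C * Real.exp (2 * σ * T0)) (Real.exp (-(γ * T0))))

/-- **GLB**: the global fixed point -/
def GLB : Prop :=
  CORE T → XNS → XHS → ANX T → TRN T → REG T → GLU T → PB T → DSH → LStmt T

end Crest.Agent.N207.CB

end
end

-- ▼ part N207/CB/Co0
section

/-!
# Row 207, block L (helper92): abstract tools for the global fixed point
-/

set_option autoImplicit false

open Metric Set Filter Topology

noncomputable section

namespace Crest.Agent.N207.CB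

open Crest.Agent.N250.H

variable {P X Y : Type*} [NormedAddCommGroup P] [NormedSpace ℂ P] [NormedAddCommGroup X]
  [NormedSpace ℂ X] [NormedAddCommGroup Y] [NormedSpace ℂ Y]

/-- holomorphy into a closed subspace -/
theorem diffOn_sub [CompleteSpace X] {S : Submodule ℂ X} (hS : IsClosed (S : Set X)) {f : P → S}
    {U : Set P} (hU : IsOpen U) {M : ℝ} (hM : ∀ z ∈ U, ‖f z‖ ≤ M)
    (hd : DifferentiableOn ℂ (fun z => (f z : X)) U) : DifferentiableOn ℂ f U := by
  have : CompleteSpace S := hS.completeSpace_coe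
  exact diffOn_of_norming (ι := Unit) (Y := fun _ => X) (fun _ => S.subtypeL) (fun _ _ => le_rfl)
    (fun v c _ h => h ()) hU hM fun _ => hd

/-- the fixed point on the unit ball -/
theorem fp0 [CompleteSpace X] {T : P → X → X} {U : Set P} (hU : IsOpen U)
    (hd : DifferentiableOn ℂ (fun p : P × X => T p.1 p.2) (U ×ˢ ball 0 4))
    (hb : ∀ p ∈ U, ∀ x ∈ ball (0 : X) 4, ‖T p x‖ ≤ 1) :
    ∃ x : P → X, DifferentiableOn ℂ x U ∧ ∀ p ∈ U, ‖x p‖ ≤ 1 ∧ T p (x p) = x p ∧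
      ∀ R : Set X, IsClosed R → 0 ∈ R → (∀ y ∈ R, ‖y‖ ≤ 1 → T p y ∈ R) → x p ∈ R := by
  have hc : ∀ p ∈ U, Ctr (T p) (closedBall 0 1) (2 * 1 / 3) := fun p hp => by
    refine ctr_of_small (by norm_num) ?_ ?_ le_rfl
    · rw [show (1 : ℝ) + 3 = 4 by norm_num]
      exact hd.comp (f := fun x : X => (p, x)) (by fun_prop) fun x hx => ⟨hp, hx⟩
    · rw [show (1 : ℝ) + 3 = 4 by norm_num]
      intro x hx
      simpa using hb p hp x hx
  obtain ⟨x, h1, h2⟩ := exists_fix_hol (V := U ×ˢ ball 0 4) hU (by norm_num) (by norm_num)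
    zero_le_one hc (fun z hz x hx => ⟨hz, closedBall_subset_ball (by norm_num) hx⟩) hd
  refine ⟨x, h1, fun p hp => ⟨by simpa using (h2 p hp).1, (h2 p hp).2, fun R hR h0 hT => ?_⟩⟩
  have hc' : Ctr (T p) (closedBall 0 1 ∩ R) (2 * 1 / 3) :=
    ⟨fun y hy => ⟨(hc p hp).maps hy.1, hT y hy.2 (by simpa using hy.1)⟩,
      fun y hy z hz => (hc p hp).lip y hy.1 z hz.1⟩
  obtain ⟨y, hy, ey⟩ := hc'.exists_fix (isClosed_closedBall.inter hR) (by norm_num) (by norm_num)
    ⟨0, by simp, h0⟩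
  rw [(hc p hp).uniq (by norm_num) (h2 p hp).1 hy.1 (h2 p hp).2 ey]
  exact hy.2

/-- the quadratic estimate for the source -/
theorem quad [CompleteSpace Y] {R : X × X → Y} {ε C : ℝ} (hε : 0 < ε)
    (hd : DifferentiableOn ℂ R (ball 0 ε)) (hb : ∀ p ∈ ball (0 : X × X) ε, ‖R p‖ ≤ C) :
    ∃ K : ℝ, 0 < K ∧ (∀ b : X, ‖b‖ < ε / 2 → ‖fderiv ℂ R (b, 0)‖ ≤ K) ∧
      (∀ p : X × X, ‖p‖ < ε → ‖R p - R 0‖ ≤ K * ‖p‖) ∧
      ∀ b0 b h : X, ‖b0‖ < ε / 2 → ‖(b, h)‖ < ε →
        ‖R (b, h) - R (b, 0) - fderiv ℂ R (b0, 0) (0, h)‖ ≤ K * (‖(b, h)‖ ^ 2 + ‖b0‖ * ‖h‖) := by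
  have C0 : 0 ≤ C := (norm_nonneg _).trans (hb 0 (mem_ball_self hε))
  have h2 : 0 < ε / 2 := by positivity
  have fb : ∀ p ∈ ball (0 : X × X) (ε / 2), ‖fderiv ℂ R p‖ ≤ 2 * C / (ε / 2) := fun p hp => by
    have hs : ball p (ε / 2) ⊆ ball 0 ε := ball_subset_ball' (by
      have := mem_ball.1 hp; linarith)
    exact fd_le h2 (hd.mono hs) fun z hz => hb z (hs hz)
  have fd : DifferentiableOn ℂ (fderiv ℂ R) (ball 0 (ε / 2)) :=
    (diffOn_fderiv isOpen_ball hb hd).mono (ball_subset_ball (by linarith))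
  set K := 2 * C / (ε / 2) + 2 * C / ε + 8 * C / ε ^ 2 + 2 * (2 * C / (ε / 2)) / (ε / 2) + 1
    with hK
  have a1 : 0 ≤ 2 * C / (ε / 2) := by positivity
  have a2 : 0 ≤ 2 * C / ε := by positivity
  have a3 : 0 ≤ 8 * C / ε ^ 2 := by positivity
  have a4 : 0 ≤ 2 * (2 * C / (ε / 2)) / (ε / 2) := by positivity
  refine ⟨K, by positivity, fun b hb' => (fb _ (by simpa using hb')).trans (by linarith),
    fun p hp => ?_, fun b0 b h h0 hp => ?_⟩
  · have := lip_le hd hb (z := p) (by simpa using hp)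
    rw [sub_zero] at this
    exact this.trans (mul_le_mul_of_nonneg_right (by linarith) (norm_nonneg _))
  · have n1 : ‖((b, 0) : X × X)‖ ≤ ‖(b, h)‖ := by simp [Prod.norm_def]
    have t1 := tay2 hd hb (z := (b, h)) (by simpa using hp)
    have t2 := tay2 hd hb (z := (b, 0)) (mem_ball_zero_iff.2 (n1.trans_lt hp))
    have t3 := lip_le fd fb (z := (b0, 0)) (by simpa using h0)
    simp only [sub_zero] at t1 t2 t3
    have e : R (b, h) - R (b, 0) - fderiv ℂ R (b0, 0) (0, h) =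
        (R (b, h) - R 0 - fderiv ℂ R 0 (b, h)) - (R (b, 0) - R 0 - fderiv ℂ R 0 (b, 0)) -
          (fderiv ℂ R (b0, 0) - fderiv ℂ R 0) (0, h) := by
      have : ((b, h) : X × X) = (b, 0) + (0, h) := by simp
      rw [sub_apply]
      conv_rhs => rw [this, map_add, ← this]
      abel
    have t4 : ‖(fderiv ℂ R (b0, 0) - fderiv ℂ R 0) (0, h)‖ ≤
        2 * (2 * C / (ε / 2)) / (ε / 2) * (‖b0‖ * ‖h‖) := by
      refine ((ContinuousLinearMap.le_opNorm _ _).trans
        (mul_le_mul_of_nonneg_right t3 (norm_nonneg _))).trans (le_of_eq ?_)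
      simp [Prod.norm_def, mul_assoc]
    have t5 : 4 * C * (‖((b, 0) : X × X)‖ / ε) ^ 2 ≤ 4 * C * (‖(b, h)‖ / ε) ^ 2 := by gcongr
    have t6 : 4 * C * (‖(b, h)‖ / ε) ^ 2 + 4 * C * (‖(b, h)‖ / ε) ^ 2 =
        8 * C / ε ^ 2 * ‖(b, h)‖ ^ 2 := by field_simp; ring
    rw [e]
    refine (norm_sub_le _ _).trans ((add_le_add (norm_sub_le _ _) t4).trans ?_)
    have b1 : 8 * C / ε ^ 2 * ‖(b, h)‖ ^ 2 ≤ K * ‖(b, h)‖ ^ 2 := by gcongr; linarith
    have b2 : 2 * (2 * C / (ε / 2)) / (ε / 2) * (‖b0‖ * ‖h‖) ≤ K * (‖b0‖ * ‖h‖) := by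
      gcongr; linarith
    linarith

end Crest.Agent.N207.CB

end
end

-- ▼ part N207/CB/Co1

/-!
# Row 207, block L (helper92): lifts, sections, cut-offs
-/

set_option autoImplicit false

open scoped ContDiff
open Metric Set Filter Topology MeasureTheory
open Crest.GeometryTopology.CoordMetric
open Crest.Agent.NLib.Ell Crest.Agent.N207.I Crest.Agent.N207.Lg Crest.Agent.R202.Tens

noncomputable section

namespace Crest.Agent.N207.CB

section Op

variable {I : Type} {k : ℕ}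

/-- multiplication by a scalar family -/
def mulC (c : Cel I k) : (Fin 4 → Fin 4 → Cel I k) →L[ℂ] (Fin 4 → Fin 4 → Cel I k) :=
  LinearMap.mkContinuous
    { toFun := fun W a b => c * W a b
      map_add' := fun W W' => by ext a b; simp [mul_add]
      map_smul' := fun t W => by ext a b; simp } ‖c‖ fun W => by
    refine (pi_norm_le_iff_of_nonneg (by positivity)).2 fun a =>
      (pi_norm_le_iff_of_nonneg (by positivity)).2 fun b => (norm_mul_le _ _).trans ?_
    gcongr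
    exact (norm_le_pi_norm (W a) b).trans (norm_le_pi_norm W a)

theorem mulC_apply (c : Cel I k) (W : Fin 4 → Fin 4 → Cel I k) (a b : Fin 4) :
    mulC c W a b = c * W a b := rfl

theorem norm_mulC (c : Cel I k) : ‖mulC c‖ ≤ ‖c‖ := LinearMap.mkContinuous_norm_le _ (norm_nonneg _) _

/-- a constant matrix times a scalar family -/
def cstC (c : Cel I k) : MtC →L[ℂ] (Fin 4 → Fin 4 → Cel I k) :=
  LinearMap.mkContinuous
    { toFun := fun A a b => A a b • c
      map_add' := fun W W' => by ext a b; simp [add_smul]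
      map_smul' := fun t W => by ext a b; simp [mul_smul] } ‖c‖ fun W => by
    refine (pi_norm_le_iff_of_nonneg (by positivity)).2 fun a =>
      (pi_norm_le_iff_of_nonneg (by positivity)).2 fun b => ?_
    show ‖W a b • c‖ ≤ _
    rw [norm_smul, mul_comm]
    gcongr
    exact (norm_le_pi_norm (W a) b).trans (norm_le_pi_norm W a)

theorem cstC_apply (c : Cel I k) (A : MtC) (a b : Fin 4) : cstC c A a b = A a b • c := rfl

theorem norm_cstC (c : Cel I k) : ‖cstC c‖ ≤ ‖c‖ := LinearMap.mkContinuous_norm_le _ (norm_nonneg _) _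

/-- `2 a + a²` -/
def cAc (a : MtC) : MtC := fun p q => 2 * a p q + ∑ r, a p r * a r q

theorem cAc_cm (a : Mt) : cAc (cm a) = cm (cA a) := by
  ext p q
  simp [cAc, cm, cA, Matrix.mul_apply, two_smul, two_mul]

theorem norm_cAc {a : MtC} (h : ‖a‖ ≤ 1) : ‖cAc a‖ ≤ 6 * ‖a‖ := by
  have e : ∀ p q, ‖a p q‖ ≤ ‖a‖ := fun p q => (norm_le_pi_norm (a p) q).trans (norm_le_pi_norm a p)
  refine (pi_norm_le_iff_of_nonneg (by positivity)).2 fun p =>
    (pi_norm_le_iff_of_nonneg (by positivity)).2 fun q => (norm_add_le _ _).trans ?_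
  have h1 : ‖2 * a p q‖ ≤ 2 * ‖a‖ := by rw [norm_mul]; simpa using e p q
  have h2 : ‖∑ r, a p r * a r q‖ ≤ 4 * ‖a‖ := by
    refine (norm_sum_le _ _).trans ((Finset.sum_le_card_nsmul _ _ ‖a‖ fun r _ => ?_).trans (by simp))
    rw [norm_mul]
    exact (mul_le_mul (e p r) ((e r q).trans h) (norm_nonneg _) (norm_nonneg _)).trans (by simp)
  linarith

theorem diff_cAc : Differentiable ℂ cAc := by
  unfold cAc
  fun_prop

end Op

variable {M : Type*} {T : TD M} {v : T.V} {k j : ℕ}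

section Lf

variable {i : CI T v} {w w' : MetricField 4} {W W' : MC T v k}

theorem LfAt.congr (h : LfAt T i j w W) (e : ∀ y ∈ B1, w' (cpt T i y) = w (cpt T i y)) :
    LfAt T i j w' W := fun a b y hy => by rw [h a b y hy]; simp only [e y hy]

theorem LfAt.add (h : LfAt T i j w W) (h' : LfAt T i j w' W') : LfAt T i j (w + w') (W + W') :=
  fun a b y hy => by
    simp only [Pi.add_apply, Cel.val_add, h a b y hy, h' a b y hy, Matrix.add_apply]
    push_cast; ring

theorem LfAt.sub (h : LfAt T i j w W) (h' : LfAt T i j w' W') : LfAt T i j (w - w') (W - W') :=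
  fun a b y hy => by
    simp only [Pi.sub_apply, Cel.val_sub, h a b y hy, h' a b y hy, Matrix.sub_apply]
    push_cast; ring

theorem LfAt.smul (c : ℝ) (h : LfAt T i j w W) : LfAt T i j (c • w) ((c : ℂ) • W) :=
  fun a b y hy => by
    simp only [Pi.smul_apply, Cel.val_smul, h a b y hy, Matrix.smul_apply, smul_eq_mul]
    push_cast; ring

theorem LfAt.zero : LfAt T i j 0 (0 : MC T v k) := fun a b y _ => by simp

theorem LfAt.sum {ι : Type*} (s : Finset ι) {w : ι → MetricField 4} {W : ι → MC T v k}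
    (h : ∀ l ∈ s, LfAt T i j (w l) (W l)) : LfAt T i j (∑ l ∈ s, w l) (∑ l ∈ s, W l) := by
  classical
  induction s using Finset.induction_on with
  | empty => simpa using LfAt.zero
  | insert a s ha ih =>
    rw [Finset.sum_insert ha, Finset.sum_insert ha]
    exact (h a (by simp)).add (ih fun l hl => h l (by simp [hl]))

theorem LfAt.mulC {f : E4 → ℝ} {c : Cel (CI T v) k} (hc : LfS T i 0 f c) (h : LfAt T i j w W) :
    LfAt T i j (fun x => f x • w x) (mulC c W) := fun a b y hy => by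
  simp only [mulC_apply, Cel.val_mul, hc y hy, h a b y hy, Matrix.smul_apply, smul_eq_mul]
  push_cast; ring

theorem LfAt.cstC {f : E4 → ℝ} {c : Cel (CI T v) k} (hc : LfS T i 0 f c) (A : Mt) :
    LfAt T i 0 (fun x => f x • A) (cstC c (cm A)) := fun a b y hy => by
  simp only [cstC_apply, Cel.val_smul, Pi.smul_apply, hc y hy, Matrix.smul_apply, smul_eq_mul, cm]
  push_cast; ring

/-- the lift determines the values -/
theorem LfAt.eq (h : LfAt T i j w W) (h' : LfAt T i j w' W) {y : E4} (hy : y ∈ B1) :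
    w (cpt T i y) = w' (cpt T i y) := by
  ext a b
  have := (h a b y hy).symm.trans (h' a b y hy)
  exact mul_left_cancel₀ (pow_pos (rad_pos i) j).ne' (Complex.ofReal_injective this)

end Lf

variable {w w' : Fam T} {W W' : MC T v k}

theorem Lf.uniq (h : Lf T j w W) (h' : Lf T j w W') : W = W' := by
  funext a b
  exact Cel.ext fun i y hy => (h i a b y hy).trans (h' i a b y hy).symm

theorem Lf.congr (h : Lf T j w W) (e : ∀ s, ∀ x ∈ (T.core v).U s, w' s x = w s x) :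
    Lf T j w' W := fun i => (h i).congr fun _ hy => e _ _ (cpt_mem i hy)

theorem exists_lf {N : ℝ} (h0 : 0 ≤ N) (h : CBd T v univ k j N w) : ∃ W : MC T v k, Lf T j w W := by
  have : ∀ a b, ∃ x : Cel (CI T v) k,
      Rp x fun i y => rad T i.1.1 i.1.2 ^ j * w i.1.1 (cpt T i y) a b := fun a b =>
    exists_rp h0 fun i => h _ _ i.2 trivial a b
  choose W hW using this
  exact ⟨W, fun i a b y hy => hW a b i y hy⟩

theorem cpt_zero (i : CI T v) : cpt T i 0 = i.1.2 := by simp [cpt]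

theorem zero_B1 : (0 : E4) ∈ B1 := mem_ball_self one_pos

theorem exists_cpt (i : CI T v) {x : E4} (hx : x ∈ ball i.1.2 (rad T i.1.1 i.1.2)) :
    ∃ y ∈ B1, cpt T i y = x := by
  have hr := rad_pos i
  refine ⟨(rad T i.1.1 i.1.2)⁻¹ • (x - i.1.2), ?_, ?_⟩
  · rw [mem_ball_zero_iff, norm_smul, norm_inv, Real.norm_of_nonneg hr.le, inv_mul_lt_iff₀ hr]
    simpa [dist_eq_norm] using hx
  · simp [cpt, smul_smul, hr.ne']

/-! ### sections -/

theorem Sec.secN (h : Sec T v w) (m : ℕ) : SecN T v m w :=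
  ⟨fun s a b => (h.sec.sm s ![a, b]).of_le (by exact_mod_cast le_top), h.sec.compat, h.symm⟩

theorem Sec.add (h : Sec T v w) (h' : Sec T v w') : Sec T v (w + w') :=
  ⟨h.sec.add h'.sec, fun s x hx => (h.symm s x hx).add (h'.symm s x hx)⟩

theorem Sec.sub (h : Sec T v w) (h' : Sec T v w') : Sec T v (w - w') :=
  ⟨h.sec.sub h'.sec, fun s x hx => (h.symm s x hx).sub (h'.symm s x hx)⟩

theorem Sec.smul (c : ℝ) (h : Sec T v w) : Sec T v (c • w) :=
  ⟨h.sec.smul c, fun s x hx => (h.symm s x hx).smul c⟩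

theorem Sec.zero : Sec T v 0 := ⟨Atl.Sec.zero, fun _ _ _ => Matrix.isSymm_zero⟩

theorem Sec.congr (h : Sec T v w) (e : ∀ s, ∀ x ∈ (T.core v).U s, w' s x = w s x) : Sec T v w' :=
  ⟨h.sec.congr fun s x hx => by funext I; simp only [matT, e s x hx],
    fun s x hx => by rw [e s x hx]; exact h.symm s x hx⟩

theorem Sec.sum {ι : Type*} (s : Finset ι) {w : ι → Fam T} (h : ∀ l ∈ s, Sec T v (w l)) :
    Sec T v (∑ l ∈ s, w l) := by
  classical
  induction s using Finset.induction_on with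
  | empty => simpa using Sec.zero
  | insert a s ha ih =>
    rw [Finset.sum_insert ha]
    exact (h a (by simp)).add (ih fun l hl => h l (by simp [hl]))

theorem Sec.met {G : Fam T} (h : (T.core v).IsMet G) : Sec T v G :=
  ⟨Atl.Sec.met h, fun s x hx => ((h.riem s).posDef x hx).isHermitian⟩

theorem SecN.add {m : ℕ} (h : SecN T v m w) (h' : SecN T v m w') : SecN T v m (w + w') :=
  ⟨fun s a b => (h.sm s a b).add (h'.sm s a b), h.compat.add h'.compat,
    fun s x hx => (h.symm s x hx).add (h'.symm s x hx)⟩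

theorem SecN.sub {m : ℕ} (h : SecN T v m w) (h' : SecN T v m w') : SecN T v m (w - w') :=
  ⟨fun s a b => (h.sm s a b).sub (h'.sm s a b), h.compat.sub h'.compat,
    fun s x hx => (h.symm s x hx).sub (h'.symm s x hx)⟩

theorem end_ne {u : T.V} {x : E4} (hx : x ∈ (T.core v).U (Sum.inr u)) : x ≠ 0 := by
  rintro rfl
  by_cases h : u = v
  · subst h
    have := TD.mem_core_out.1 hx
    norm_num at this
  · simpa using ((TD.mem_core_inn h).1 hx).2.1

theorem tau_sm (v u : T.V) (T0 : ℝ) {x : E4} (hx : x ≠ 0) : ContDiffAt ℝ ∞ (tau T v u T0) x := by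
  have : ContDiffAt ℝ ∞ (fun x : E4 => Real.log ‖x‖) x :=
    (contDiffAt_norm ℝ hx).log (norm_ne_zero_iff.2 hx)
  unfold tau
  split_ifs
  · exact this.sub contDiffAt_const
  · exact this.neg.sub contDiffAt_const

/-- points of an end that are seen in `base v` have negative collar coordinate -/
theorem tau_neg (h : T.Ok) {T0 : ℝ} (hT : Real.log (4 / T.r) ≤ T0) {u : T.V} {x : E4}
    (hx : x ∈ (T.base v).U (Sum.inr u)) : tau T v u T0 x < 0 := by
  have hr := h.r_pos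
  have hr1 := h.r_lt
  unfold tau
  by_cases e : u = v
  · subst e
    obtain ⟨h1, h2⟩ := TD.mem_base_out.1 hx
    have : Real.log ‖x‖ < Real.log (4 / T.r) :=
      Real.log_lt_log (by linarith) (h2.trans (by rw [lt_div_iff₀ hr]; nlinarith))
    simp only [if_true]
    linarith
  · obtain ⟨-, h1, -⟩ := (TD.mem_base_inn e).1 hx
    have : Real.log (T.r / 4) < Real.log ‖x‖ := Real.log_lt_log (by positivity) h1
    rw [← inv_div, Real.log_inv] at this
    simp only [e, if_false]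
    linarith

/-- functions of the collar coordinate are compatible -/
theorem compF_tau (h : T.Ok) {T0 : ℝ} (hT : Real.log (4 / T.r) ≤ T0) {Y : Type*} (c0 : Y)
    (c : T.V → ℝ → Y) (hc : ∀ u τ, τ < 0 → c u τ = c0) :
    (T.core v).CompF (Sum.elim (fun _ _ => c0) fun u x => c u (tau T v u T0 x)) := by
  intro a b x hx y hy e
  rcases (h.str_core v).rel hx hy e with ⟨v', rfl, h1, h2, -⟩ | ⟨rfl, γ, -, rfl⟩
  · have k : ∀ s z, TD.sc (T := T) (fun _ _ => 1) s v' • z ∈ (T.base v').U s →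
        Sum.elim (fun _ _ => c0) (fun u x => c u (tau T v' u T0 x)) s z = c0 := by
      rintro (s | s) z hz
      · rfl
      · exact hc _ _ (tau_neg h hT (by simpa [TD.sc] using hz))
    rw [k _ _ h1, k _ _ h2]
  · rcases a with a | a
    · rfl
    · simp [tau]

theorem Sec.tau (h : T.Ok) {T0 : ℝ} (hT : Real.log (4 / T.r) ≤ T0) (c0 : ℝ) (c : T.V → ℝ → ℝ)
    (hc : ∀ u τ, τ < 0 → c u τ = c0) (hs : ∀ u, ContDiff ℝ ∞ (c u)) (hw : Sec T v w) :
    Sec T v fun s x =>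
      (Sum.elim (fun _ _ => c0) (fun u x => c u (tau T v u T0 x)) s x : ℝ) • w s x := by
  refine ⟨Atl.Sec.smT (compF_tau h hT c0 c hc) ?_ hw.sec, fun s x hx => (hw.symm s x hx).smul _⟩
  rintro (s | s)
  · exact contDiffOn_const
  · exact fun x hx => ((hs s).contDiffAt.comp x (tau_sm v s T0 (end_ne hx))).contDiffWithinAt

/-- the collar coordinate is preserved by the changes of charts -/
theorem tr_UR (h : T.Ok) {T0 c : ℝ} (hT : Real.log (4 / T.r) ≤ T0) (hc : 0 ≤ c) {a b : T.S}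
    {x : E4} {F : E4 → E4} (t : (T.core v).Tr a b x F) (hx : x ∈ UR T v T0 c a) :
    F x ∈ UR T v T0 c b := by
  have := (compF_tau (v := v) h hT True (fun _ τ => τ < c)
    fun _ τ hτ => by simp [hτ.trans_le hc]).tr t
  refine ⟨t.mem', ?_⟩
  rintro u rfl
  rcases a with a | a
  · simpa using this
  · simpa [hx.2 a rfl] using this

theorem UR_open (h : T.Ok) (T0 c : ℝ) (s : T.S) : IsOpen (UR T v T0 c s) := by
  have ho := (h.core_ok v).isOpen s
  rcases s with s | s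
  · simpa [UR] using ho
  · refine isOpen_iff_mem_nhds.2 fun x hx => ?_
    filter_upwards [ho.mem_nhds hx.1,
      (tau_sm v s T0 (end_ne hx.1)).continuousAt.eventually_lt continuousAt_const (hx.2 s rfl)]
      with z h1 h2
    exact ⟨h1, fun u e => by cases e; exact h2⟩

theorem UR_ok (h : T.Ok) (T0 c : ℝ) : (Ga.res (T.core v) (UR T v T0 c)).Ok :=
  Ga.res_ok (h.core_ok v) (UR_open h T0 c) (fun _ _ hx => hx.1) fun a γ hγ x hx =>
    ⟨(h.core_ok v).inv a γ hγ x hx.1, fun u e => by simpa [tau] using hx.2 u e⟩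

/-- local to global for metrics -/
theorem isMet_of_loc {X : Type*} {α : Type} {A : Atl X α} {G : α → MetricField 4} (h : A.Ok)
    (hc : A.Compat fun s => matT (G s))
    (hl : ∀ a, ∀ x ∈ A.U a, ∃ b F W, A.Tr a b x F ∧ F x ∈ W ∧ IsRiemannianOn (G b) W) :
    A.IsMet G := by
  have key : ∀ a, ∀ x ∈ A.U a, ∃ V, x ∈ V ∧ IsRiemannianOn (G a) V := fun a x hx => by
    obtain ⟨b, F, W, t, hW, hG⟩ := hl a x hx
    obtain ⟨V, hV, hxV, ht, -⟩ := t.exists_nbhd h
    have hs : ContDiffOn ℝ ∞ F V := fun z hz => (ht z hz).cda.contDiffWithinAt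
    have ho : IsOpen (V ∩ F ⁻¹' W) := hs.continuousOn.isOpen_inter_preimage hV hG.isOpen
    refine ⟨V ∩ F ⁻¹' W, ⟨hxV, hW⟩, Pull.riem' (g := G b) (Φ := F) (W := W)
      ⟨ho, hG, fun z hz => hz.2, hs.mono inter_subset_left, fun z hz p q => ?_,
        fun z hz => (ht z hz.1).inj h⟩⟩
    have := congrFun (hc a b z F (ht z hz.1)) ![p, q]
    rw [pullT, AI.evT_two] at this
    refine this.trans (Finset.sum_congr rfl fun p _ => Finset.sum_congr rfl fun q _ => ?_)
    simp [matT]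
    ring
  refine ⟨fun a => ⟨h.isOpen a, fun p q x hx => ?_, fun x hx => ?_⟩, hc⟩
  · obtain ⟨V, hV, hG⟩ := key a x hx
    exact ((hG.contDiffOn p q).contDiffAt (hG.isOpen.mem_nhds hV)).contDiffWithinAt
  · obtain ⟨V, hV, hG⟩ := key a x hx
    exact hG.posDef x hV

/-- a section which is positive on the cells is a metric -/
theorem Sec.isMet (h : T.Ok) (hw : Sec T v w)
    (hp : ∀ i : CI T v, ∀ y ∈ B1, (w i.1.1 (cpt T i y)).PosDef) : (T.core v).IsMet w := by
  refine isMet_of_loc (h.core_ok v) hw.sec.compat fun a x hx => ?_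
  obtain ⟨b, F, t, hF⟩ := Ga.pou_cover (h.core_ok v) (h.core_pou v) hx
  refine ⟨b, F, ball (F x) (rad T b (F x)), t, mem_ball_self (Cu.rad_pos' hF), isOpen_ball,
    fun p q => (hw.sec.sm b ![p, q]).mono fun z hz => ?_, fun z hz => ?_⟩
  · obtain ⟨y, hy, rfl⟩ := exists_cpt ⟨(b, F x), hF⟩ hz
    exact cpt_mem ⟨(b, F x), hF⟩ hy
  · obtain ⟨y, hy, rfl⟩ := exists_cpt ⟨(b, F x), hF⟩ hz
    exact hp ⟨(b, F x), hF⟩ y hy

end Crest.Agent.N207.CB

end
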