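import Crest.Agent.N207.CB.St4
import Crest.Agent.N207.CB.Lf1
import Crest.Agent.N207.CB.Co1

-- ▼ part N207/CB/Popl
section

/-!
# Row 207 (helper17): `popl : POPL T`
-/

set_option autoImplicit false

open Metric Set Filter Topology
open Crest.GeometryTopology.CoordMetric
open Crest.Agent.NLib.Ell Crest.Agent.N207.I Crest.Agent.N207.Lg

noncomputable section

namespace Crest.Agent.N207.CB

variable {M : Type*} (T : TD M)

/-- a complex derivative of a real function is real -/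
theorem deriv_real {F : ℝ → ℂ} {φ : ℝ → ℝ} {d : ℂ} (h : HasDerivAt F d 0)
    (e : ∀ᶠ s in 𝓝 (0 : ℝ), F s = φ s) : d = (deriv φ 0 : ℝ) := by
  have h1 : HasDerivAt (fun s => (φ s : ℂ)) d 0 := h.congr_of_eventuallyEq (e.mono fun _ h => h.symm)
  have h2 : HasDerivAt φ d.re 0 := Complex.reCLM.hasFDerivAt.comp_hasDerivAt 0 h1
  rw [h2.deriv]
  exact h1.unique h2.ofReal_comp

/-- **POPL** -/
theorem popl : POPL T := by
  intro g v k Λ B hB i β η W hβ hη hs a b y hy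
  have hm : ((B, 0) : MC T v (k + 2) × MC T v (k + 2)) ∈ ball 0 Λ.ε := by
    simpa [Prod.norm_def, Λ.ε_pos] using hB
  have hd := (Λ.hR.differentiableAt (isOpen_ball.mem_nhds hm)).hasFDerivAt
  have hl : HasDerivAt (fun s : ℝ => ((B, (s : ℂ) • W) : MC T v (k + 2) × MC T v (k + 2)))
      (0, W) 0 := by
    have := (Complex.ofRealCLM.hasDerivAt (x := (0 : ℝ))).smul_const W
    simpa using (hasDerivAt_const (0 : ℝ) B).prodMk this
  have hd' : HasFDerivAt Λ.R ((fderiv ℂ Λ.R (B, 0)).restrictScalars ℝ)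
      ((fun s : ℝ => ((B, (s : ℂ) • W) : MC T v (k + 2) × MC T v (k + 2))) 0) := by
    simpa using hd.restrictScalars ℝ
  have h1 := hd'.comp_hasDerivAt (0 : ℝ) hl
  have h2 := (hasDerivAt_pi.1 (hasDerivAt_pi.1 h1 a) b)
  have h3 := ((Cel.evL (k := k) i y).restrictScalars ℝ).hasFDerivAt.comp_hasDerivAt (0 : ℝ) h2
  have he : ∀ᶠ s : ℝ in 𝓝 0, ((B, (s : ℂ) • W) : MC T v (k + 2) × MC T v (k + 2)) ∈ ball 0 Λ.ε :=
    hl.continuousAt.eventually (isOpen_ball.mem_nhds (by simpa using hm))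
  have h4 := deriv_real h3 (φ := fun s => rad T i.1.1 i.1.2 ^ 2 *
    redT (g v i.1.1 + β) (fun z => (g v i.1.1 + β) z + s • η z) (cpt T i y) ![a, b])
    (he.mono fun s hs' => (Λ.real _ hs' i β (s • η) hβ
      (fun p q z hz => by
        have := RpA.smul s (hη p q) z hz
        exact this.trans (congrArg _ (by simp [mul_left_comm])))
      (fun z hz => ⟨(hs z hz).1, (hs z hz).2.smul s⟩)).2.1 a b y hy)
  rw [deriv_const_mul_field] at h4
  show (2 : ℂ) * ((fderiv ℂ Λ.R (B, 0) (0, W)) a b).val i y = _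
  rw [show ((fderiv ℂ Λ.R (B, 0) (0, W)) a b).val i y = _ from h4]
  simp only [Pop, Matrix.of_apply]
  push_cast
  ring

end Crest.Agent.N207.CB

end
end

-- ▼ part N207/CB/Co2
section

/-!
# Row 207, block L (helper92): the data of the core step, the source, real meaning
-/

set_option autoImplicit false

open scoped ContDiff
open Metric Set Filter Topology MeasureTheory
open Crest.GeometryTopology.CoordMetric
open Crest.Agent.NLib.Ell Crest.Agent.N207.I Crest.Agent.N207.Lg Crest.Agent.N207.J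

noncomputable section

namespace Crest.Agent.N207.CB

variable {M : Type*} (T : TD M)

/-- the lifts needed for the core step -/
structure CD (g : T.V → Fam T) {κ : Type} [Fintype κ] (ψ : κ → Fam T) (v : T.V) (T0 : ℝ) where
  ok : T.Ok
  hT : Real.log (4 / T.r) ≤ T0
  met : (T.core v).IsMet (g v)
  ric : ∀ s, ∀ x ∈ (T.core v).U s, ∀ i j, ricci (g v s) x i j = 0
  sψ : ∀ j, Sec T v (ψ j)
  vψ : ∀ j, Van T v T0 0 (ψ j)
  Λ : Lift T g v 6
  β0 : MC T v 8
  hβ0 : Lf T 0 (gb T g T0 v - g v) β0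
  sβ0 : Sec T v (gb T g T0 v - g v)
  nβ0 : ‖β0‖ < Λ.ε / 4
  B₁ : T.V → MtC →L[ℂ] MC T v 8
  B₂ : T.V → MtC →L[ℂ] MtC →L[ℂ] MC T v 8
  hB : ∀ u (a : Mt), Lf T 0 (onE T u (pullM (PsiA (etC T v u T0) a) fl1 - fl1))
    (B₁ u (cm a) + B₂ u (cm a) (cm a))
  sB : ∀ u a, Adm T u a → Sec T v (onE T u (pullM (PsiA (etC T v u T0) a) fl1 - fl1))
  hsq : ∀ u (a : Mt), a.IsSymm → ∀ x : E4, x ≠ 0 → 4 / 5 ≤ tau T v u T0 x →
    pullM (PsiA (etC T v u T0) a) fl1 x = (1 + a) * (1 + a)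
  hfl : ∀ (a : T.V → Mt) s, ∀ x ∈ (T.core v).U s, (gbA T g T0 a v s x).PosDef →
    redM (gbA T g T0 a v s) (gbA T g T0 a v s) x = redM (gb T g T0 v s) (gb T g T0 v s) x
  ρ : Cel (CI T v) 6
  hρ : ∀ i : CI T v, LfS T i 0 (cutF T v T0 1 rho i.1.1) ρ
  χ : Cel (CI T v) 8
  hχ : ∀ i : CI T v, LfS T i 0
    (fun x => if i.1.1 = Sum.inr v then stp (17 / 20) (19 / 20) (tau T v v T0 x) else 0) χ
  ψh : κ → MC T v 6
  hψ : ∀ j, Lf T 2 (ψ j) (ψh j)

variable {T}

namespace CD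

variable {g : T.V → Fam T} {κ : Type} [Fintype κ] {ψ : κ → Fam T} {v : T.V} {T0 : ℝ}
  (D : CD T g ψ v T0)

/-- background minus `g` -/
def β (a : ∀ u, SC T u) : MC T v 8 := D.β0 + ∑ u, (D.B₁ u (a u).1 + D.B₂ u (a u).1 (a u).1)

/-- metric minus background -/
def h (z : Zc T v κ) : MC T v 8 := z.2.2.1.1 + z.1.1.1 - cstC D.χ (cAc (z.2.1 v).1)

def p (z : Zc T v κ) : MC T v 8 × MC T v 8 := (D.β z.2.1, D.h z)

/-- the lift of `Pop gb` -/
def P : MC T v 8 →L[ℂ] MC T v 6 :=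
  (2 : ℂ) • (fderiv ℂ D.Λ.R (D.β0, 0)).comp (ContinuousLinearMap.inr ℂ _ _)

def Ψ (j : κ) : MC T v 6 := D.Λ.Ps (D.β0, 0) (D.ψh j)

/-- the source -/
def src (z : Zc T v κ) : MC T v 6 :=
  mulC D.ρ (D.P z.1.1.1 - (2 : ℂ) • D.Λ.R (D.p z)) + ∑ j, z.1.2 j • (D.Λ.Ps (D.p z) (D.ψh j) - D.Ψ j)

omit [Fintype κ] in
theorem gbA_eq (a : T.V → Mt) : gbA T g T0 a v - g v =
    gb T g T0 v - g v + ∑ u, onE T u (pullM (PsiA (etC T v u T0) (a u)) fl1 - fl1) := by
  funext s x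
  rcases s with s | s
  · simp [gbA, gb, onE, Finset.sum_apply]
  · simp only [gbA, onE, Finset.sum_apply, Pi.add_apply, Pi.sub_apply, Sum.elim_inr,
      Sum.inr.injEq, Finset.sum_ite_eq, Finset.mem_univ, if_true]
    abel

theorem lf_β {a' : ∀ u, SC T u} {a : T.V → Mt} (ha : ∀ u, (a' u).1 = cm (a u)) :
    Lf T 0 (gbA T g T0 a v - g v) (D.β a') := fun i => by
  rw [gbA_eq, β, Pi.add_apply, Finset.sum_apply]
  exact (D.hβ0 i).add (LfAt.sum _ fun u _ => by rw [ha u]; exact D.hB u (a u) i)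

include D in
theorem sec_β {a : T.V → Mt} (ha : ∀ u, Adm T u (a u)) : Sec T v (gbA T g T0 a v - g v) := by
  rw [gbA_eq]
  exact D.sβ0.add (Sec.sum _ fun u _ => D.sB u _ (ha u))

include D in
theorem sec_gbA {a : T.V → Mt} (ha : ∀ u, Adm T u (a u)) : Sec T v (gbA T g T0 a v) := by
  simpa using (Sec.met D.met).add (D.sec_β ha)

include D in
theorem sec_gb : Sec T v (gb T g T0 v) := by simpa using (Sec.met D.met).add D.sβ0

theorem lf_cut (a : Mt) : Lf T 0 (cutA T v T0 a) (cstC D.χ (cAc (cm a))) := fun i => by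
  rw [cAc_cm]
  refine (LfAt.cstC (D.hχ i) (cA a)).congr fun y _ => ?_
  simp only [cutA, onE]
  split_ifs <;> simp

theorem lf_h {z : Zc T v κ} {a : Mt} (ha : (z.2.1 v).1 = cm a) {β w : Fam T}
    (hb : Lf T 0 β z.2.2.1.1) (hw : Lf T 0 w z.1.1.1) :
    Lf T 0 (β + w - cutA T v T0 a) (D.h z) := fun i => by
  rw [h, ha]
  exact ((hb i).add (hw i)).sub (D.lf_cut a i)

theorem mem0 : ((D.β0, 0) : MC T v 8 × MC T v 8) ∈ ball 0 D.Λ.ε := by
  have := D.nβ0
  have := D.Λ.ε_pos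
  simp only [mem_ball_zero_iff, Prod.norm_def, norm_zero, max_lt_iff]
  constructor <;> linarith

theorem real0 (i : CI T v) : (∀ y ∈ B1, (gb T g T0 v i.1.1 (cpt T i y)).PosDef) ∧
    LfAt T i 2 (redM (gb T g T0 v i.1.1) (gb T g T0 v i.1.1)) (D.Λ.R (D.β0, 0)) ∧
    ∀ j, LfAt T i 2 (PsT (gb T g T0 v i.1.1) (gb T g T0 v i.1.1) (ψ j i.1.1)) (D.Ψ j) := by
  have := D.Λ.real _ D.mem0 i _ 0 (D.hβ0 i) LfAt.zero fun y hy =>
    ⟨D.sβ0.symm _ _ (cpt_mem i hy), Matrix.isSymm_zero⟩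
  simp only [Pi.sub_apply, add_sub_cancel, add_zero] at this
  exact ⟨fun y hy => (this.1 y hy).1, this.2.1, fun j => this.2.2.2 _ _ (D.hψ j i)⟩

include D in
theorem met_gb : (T.core v).IsMet (gb T g T0 v) := D.sec_gb.isMet D.ok fun i => (D.real0 i).1

theorem lf_P {w : Fam T} {W : MC T v 8} (hs : ∀ s, ∀ x ∈ (T.core v).U s, (w s x).IsSymm)
    (hw : Lf T 0 w W) : Lf T 2 (fun s => Pop (gb T g T0 v s) (w s)) (D.P W) := fun i => by
  have := popl T g v 6 D.Λ D.β0 (D.nβ0.trans (by linarith [D.Λ.ε_pos])) i _ _ W (D.hβ0 i) (hw i)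
    fun y hy => ⟨D.sβ0.symm _ _ (cpt_mem i hy), hs _ _ (cpt_mem i hy)⟩
  simp only [Pi.sub_apply, add_sub_cancel] at this
  exact this

theorem psT_self {G φ : MetricField 4} {x : E4} (h : (G x).PosDef) :
    PsT G G φ x = TRg (G x) (φ x) := by
  have hd : IsUnit (G x).det := h.det_pos.ne'.isUnit
  have hs : sq G x ≠ 0 := (Real.sqrt_pos.2 h.det_pos).ne'
  simp only [PsT, div_self hs, one_smul, Matrix.mul_nonsing_inv _ hd, one_mul,
    Matrix.nonsing_inv_mul_cancel_right _ _ hd]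

omit [Fintype κ] in
theorem gb_of_le {u : T.V} {x : E4} (h : tau T v u T0 x ≤ 0) :
    gb T g T0 v (Sum.inr u) x = g v (Sum.inr u) x := by
  simp only [gb, Sum.elim_inr, Cu.stp_zero' (by norm_num : (0 : ℝ) < 1 / 10) h]
  simp

omit [Fintype κ] in
theorem gb_of_ge {u : T.V} {x : E4} (h : 1 / 10 ≤ tau T v u T0 x) :
    gb T g T0 v (Sum.inr u) x = 1 := by
  simp only [gb, Sum.elim_inr, Cu.stp_one' (by norm_num : (0 : ℝ) < 1 / 10) h]
  simp

include D in
theorem trg_eq (j : κ) {s : T.S} {x : E4} (hx : x ∈ (T.core v).U s) :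
    TRg (gb T g T0 v s x) (ψ j s x) = TRg (g v s x) (ψ j s x) := by
  rcases s with s | s
  · rfl
  · rcases le_total (tau T v s T0 x) 0 with h | h
    · rw [gb_of_le h]
    · simp [D.vψ j s x hx h, TRg, tr2]

theorem lf_Ψ (j : κ) : Lf T 2 (fun s x => TRg (g v s x) (ψ j s x)) (D.Ψ j) := fun i =>
  ((D.real0 i).2.2 j).congr fun y hy => by
    rw [psT_self ((D.real0 i).1 y hy), D.trg_eq j (cpt_mem i hy)]

/-- the real meaning of the lifts at a real point -/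
theorem realp {z : Zc T v κ} (hz : D.p z ∈ ball 0 D.Λ.ε) {a : T.V → Mt}
    (ha : ∀ u, Adm T u (a u) ∧ (z.2.1 u).1 = cm (a u)) {η : Fam T}
    (hs : ∀ s, ∀ x ∈ (T.core v).U s, (η s x).IsSymm) (hη : Lf T 0 η (D.h z)) (i : CI T v) :
    (∀ y ∈ B1, (gbA T g T0 a v i.1.1 (cpt T i y)).PosDef ∧
      ((gbA T g T0 a v + η) i.1.1 (cpt T i y)).PosDef) ∧
    LfAt T i 2 (redM (gbA T g T0 a v i.1.1) ((gbA T g T0 a v + η) i.1.1)) (D.Λ.R (D.p z)) ∧
    LfS T i 2 (fgfF (gbA T g T0 a v i.1.1) ((gbA T g T0 a v + η) i.1.1)) (D.Λ.Lg (D.p z)) ∧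
    ∀ j, LfAt T i 2 (PsT (gbA T g T0 a v i.1.1) ((gbA T g T0 a v + η) i.1.1) (ψ j i.1.1))
      (D.Λ.Ps (D.p z) (D.ψh j)) := by
  have := D.Λ.real _ hz i _ _ (D.lf_β (fun u => (ha u).2) i) (hη i) fun y hy =>
    ⟨(D.sec_β fun u => (ha u).1).symm _ _ (cpt_mem i hy), hs _ _ (cpt_mem i hy)⟩
  simp only [Pi.sub_apply, add_sub_cancel] at this
  exact ⟨this.1, this.2.1, this.2.2.1, fun j => this.2.2.2 _ _ (D.hψ j i)⟩

end CD

variable (T) in
/-- **leaf FIXM**: the meaning of a real fixed point -/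
def FIXM : Prop :=
  ∃ C : ℝ, 0 < C ∧ ∀ (g : T.V → Fam T) (κ : Type) [Fintype κ] (ψ : κ → Fam T) (v : T.V) (T0 : ℝ)
    (D : CD T g ψ v T0) (z : Zc T v κ) (μ : κ → ℝ) (a : T.V → Mt) (θ : κ → ℝ) (β w : Fam T)
    (δ : ℝ), D.p z ∈ ball 0 D.Λ.ε → ZR T z μ a θ → Sec T v β → Lf T 0 β z.2.2.1.1 →
    (∀ s, ∀ x ∈ UR T v T0 (22 / 10) s, β s x = 0) → SecN T v 8 w → Lf T 0 w z.1.1.1 →
    (∀ (i : CI T v), ∀ y ∈ B1, (∀ u, i.1.1 = Sum.inr u → tau T v u T0 (cpt T i y) < 4) → ∀ p q,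
      (D.P z.1.1.1 p q).val i y = (D.src z p q).val i y + ∑ j, μ j * (D.Ψ j p q).val i y) →
    (∀ j, pair T g v (ψ j) w = θ j) → (∀ p q k, pm (cf (unit T v v T0 w) p q) k 3 = 0) →
    (∀ u, T.kid v u → ∀ p q k, qm (cf (unit T v u T0 w) p q) k (-3) = 0) →
    C * ‖D.β z.2.1 - D.β0 + D.h z‖ ≤ δ → ‖μ‖ ≤ δ →
    CoM T g T0 v ψ a δ θ μ β w (gbA T g T0 a v + (β + w - cutA T v T0 (a v)))

end Crest.Agent.N207.CB

end
end

-- ▼ part N207/CB/Co3

/-!
# Row 207, block L (helper92): real structures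
-/

set_option autoImplicit false

open scoped ContDiff
open Metric Set Filter Topology MeasureTheory
open Crest.GeometryTopology.CoordMetric
open Crest.Agent.NLib.Ell Crest.Agent.N207.I Crest.Agent.N207.Lg Crest.Agent.N207.J

noncomputable section

namespace Crest.Agent.N207.CB

variable {M : Type*} {T : TD M} {v u : T.V} {k j : ℕ} {T0 : ℝ}

/-- invariant fields on one end are sections -/
theorem sec_onE' (h : T.Ok) (hT : Real.log (4 / T.r) ≤ T0) {β : MetricField 4}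
    (hβ : Inv (T.Γ u) ∞ {x | x ≠ 0} β) (h0 : ∀ x, tau T v u T0 x < 0 → β x = 0) :
    Sec T v (onE T u β) := by
  refine ⟨⟨fun s I => ?_, fun a b x F t => ?_⟩, fun s x hx => ?_⟩
  · simp only [onE, matT]
    split_ifs with e
    · subst e
      exact (hβ.sm _ _).mono fun x hx => end_ne hx
    · exact contDiffOn_const
  · rcases (h.str_core v).rel t.mem t.mem' t.eq0.symm with ⟨v', rfl, h1, h2, -⟩ | ⟨rfl, γ, hγ, e⟩
    · have k : ∀ s z, TD.sc (T := T) (fun _ _ => 1) s v' • z ∈ (T.base v').U s →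
          onE T u β s z = 0 := by
        intro s z hz
        simp only [onE]
        split_ifs with e
        · subst e
          exact h0 _ (tau_neg h hT (by simpa [TD.sc] using hz))
        · rfl
      funext I
      simp [matT, pullT, evT, k _ _ h1, k _ _ h2]
    · have e' := t.uniq (h.core_ok v) ((h.core_ok v).tr_deck hγ t.mem) e.symm
      funext I
      simp only [onE]
      split_ifs with e1
      · subst e1
        have := hβ.eqv γ hγ x (end_ne t.mem)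
        rw [pullT, e'.fderiv_eq, e'.eq_of_nhds]
        simp only [matT]
        rw [this]
        simp only [pullM, Matrix.of_apply, pullT]
        congr 1
        funext s
        fin_cases s <;> rfl
      · simp [matT, pullT, evT]
  · simp only [onE]
    split_ifs with e
    · subst e
      exact hβ.symm x (end_ne hx)
    · exact Matrix.isSymm_zero

theorem Adm.add {a b : Mt} (ha : Adm T u a) (hb : Adm T u b) : Adm T u (a + b) :=
  ⟨ha.symm.add hb.symm, fun γ hγ y => by simp [ha.comm γ hγ, hb.comm γ hγ],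
    fun e => by simp [ha.root e, hb.root e]⟩

theorem Adm.smul (t : ℝ) {a : Mt} (ha : Adm T u a) : Adm T u (t • a) :=
  ⟨ha.symm.smul t, fun γ hγ y => by simp [ha.comm γ hγ], fun e => by simp [ha.root e]⟩

theorem Adm.zero : Adm T u 0 := ⟨Matrix.isSymm_zero, fun γ _ y => by simp, fun _ => rfl⟩

/-- the Jordan product -/
theorem Adm.jor {a b : Mt} (ha : Adm T u a) (hb : Adm T u b) : Adm T u (a * b + b * a) := by
  refine ⟨?_, fun γ hγ y => ?_, fun e => by simp [ha.root e]⟩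
  · simp only [Matrix.IsSymm, Matrix.transpose_add, Matrix.transpose_mul, ha.symm.eq, hb.symm.eq]
    exact add_comm _ _
  · simp only [map_add, Matrix.toLpLin_mul_same, LinearMap.add_apply, LinearMap.comp_apply,
      ha.comm γ hγ, hb.comm γ hγ]

theorem Adm.sq {a : Mt} (ha : Adm T u a) : Adm T u (a * a) := by
  have := (ha.jor ha).smul (1 / 2)
  rwa [← two_smul ℝ, smul_smul, show (1 / 2 * 2 : ℝ) = 1 by norm_num, one_smul] at this

theorem Adm.cA {a : Mt} (ha : Adm T u a) : Adm T u (cA a) := by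
  have := (ha.add ha).add ha.sq
  rwa [← two_smul ℕ] at this

theorem Adm.pull {a : Mt} (ha : Adm T u a) {γ : Iso4} (hγ : γ ∈ T.Γ u) (p q : Fin 4) :
    ∑ i, ∑ l, γ (EuclideanSpace.single p 1) i * γ (EuclideanSpace.single q 1) l * a i l = a p q := by
  have h1 : inner ℝ (γ (EuclideanSpace.single p 1))
      (Matrix.toEuclideanLin a (γ (EuclideanSpace.single q 1))) = a p q := by
    rw [ha.comm γ hγ, γ.inner_map_map]
    simp [EuclideanSpace.inner_single_left, Matrix.toLpLin_apply]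
  rw [← h1]
  simp only [PiLp.inner_apply, Matrix.toLpLin_apply, Matrix.mulVec, dotProduct, conj_trivial,
    RCLike.inner_apply, Finset.sum_mul]
  exact Finset.sum_congr rfl fun i _ => Finset.sum_congr rfl fun l _ => by ring

theorem sec_cutA (h : T.Ok) (hT : Real.log (4 / T.r) ≤ T0) {a : Mt} (ha : Adm T v a) :
    Sec T v (cutA T v T0 a) := by
  refine sec_onE' h hT ⟨fun p q x hx => ?_, fun x _ => ha.cA.symm.smul _, fun γ hγ x _ => ?_⟩
    fun x hx => by rw [Cu.stp_zero' (by norm_num) (by linarith), zero_smul]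
  · exact (((Cu.stp_sm _ _).contDiffAt.comp x (tau_sm v v T0 hx)).mul
      contDiffAt_const).contDiffWithinAt
  · ext p q
    simp only [pullM, Matrix.of_apply, pullT, AI.evT_two, matT, Matrix.smul_apply, smul_eq_mul]
    rw [← ha.cA.pull hγ p q, Finset.mul_sum]
    refine Finset.sum_congr rfl fun i _ => ?_
    rw [Finset.mul_sum]
    refine Finset.sum_congr rfl fun l _ => ?_
    have : fderiv ℝ γ x = γ.toContinuousLinearEquiv := γ.toContinuousLinearEquiv.fderiv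
    simp [this, tau]
    ring

theorem cm_add (a b : Mt) : cm (a + b) = cm a + cm b := by ext p q; simp [cm]

theorem cm_smul (t : ℝ) (a : Mt) : cm (t • a) = (t : ℂ) • cm a := by ext p q; simp [cm]

theorem cm_mem {a : Mt} (ha : Adm T u a) : cm a ∈ SC T u := Submodule.subset_span ⟨a, ha, rfl⟩

/-- real and imaginary parts of admissible complex matrices -/
theorem SC_re_im {a : MtC} (ha : a ∈ SC T u) :
    Adm T u (Matrix.of fun p q => (a p q).re) ∧ Adm T u (Matrix.of fun p q => (a p q).im) := by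
  induction ha using Submodule.span_induction with
  | mem x hx =>
    obtain ⟨b, hb, rfl⟩ := hx
    refine ⟨hb, ?_⟩
    convert Adm.zero
    ext p q; simp [cm]
  | zero => constructor <;> (convert Adm.zero; ext p q; simp)
  | add x y _ _ hx hy =>
    constructor
    · convert hx.1.add hy.1 using 1
      ext p q; simp
    · convert hx.2.add hy.2 using 1
      ext p q; simp
  | smul c x _ hx =>
    constructor
    · convert (hx.1.smul c.re).add (hx.2.smul (-c.im)) using 1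
      ext p q; simp; ring
    · convert (hx.2.smul c.re).add (hx.1.smul c.im) using 1
      ext p q; simp

theorem norm_cm_le {a : MtC} {b : Mt} (h : ∀ p q, |b p q| ≤ ‖a p q‖) : ‖cm b‖ ≤ ‖a‖ :=
  (pi_norm_le_iff_of_nonneg (norm_nonneg _)).2 fun p =>
    (pi_norm_le_iff_of_nonneg (norm_nonneg _)).2 fun q => by
      simpa [cm] using (h p q).trans ((norm_le_pi_norm (a p) q).trans (norm_le_pi_norm a p))

theorem norm_cv_le {κ : Type} [Fintype κ] {a : κ → ℂ} {b : κ → ℝ} (h : ∀ p, |b p| ≤ ‖a p‖) :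
    ‖cv b‖ ≤ ‖a‖ := (pi_norm_le_iff_of_nonneg (norm_nonneg _)).2 fun p => by
  simpa [cv] using (h p).trans (norm_le_pi_norm a p)

theorem norm_cv {κ : Type} [Fintype κ] (b : κ → ℝ) : ‖cv b‖ = ‖b‖ := by
  simp [Pi.norm_def, cv]

theorem XR_comb {a b : MC T v k} (ha : a ∈ XR T v k j) (hb : b ∈ XR T v k j) (t : ℝ) :
    a + (t : ℂ) • b ∈ XR T v k j := by
  refine map_mem_closure₂ (f := fun a b : MC T v k => a + (t : ℂ) • b) (by fun_prop) ha hb ?_
  rintro _ ⟨w, hw, e⟩ _ ⟨w', hw', e'⟩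
  exact ⟨w + t • w', hw.add (hw'.smul t), fun i => (e i).add ((e' i).smul t)⟩

theorem XR_zero : (0 : MC T v k) ∈ XR T v k j :=
  subset_closure ⟨0, Sec.zero, fun _ => LfAt.zero⟩

theorem XR_sub {W : MC T v k} (h : W ∈ XR T v k j) : W ∈ XC T v k j := Submodule.subset_span h

variable (T v) in
/-- the real points of `Zc` -/
def ZRs (κ : Type) : Set (Zc T v κ) := {z | ∃ μ a θ, ZR T z μ a θ}

theorem ZRs_comb {κ : Type} : ∀ a ∈ ZRs T v κ, ∀ b ∈ ZRs T v κ, ∀ t : ℝ,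
    a + (t : ℂ) • b ∈ ZRs T v κ := by
  rintro z ⟨μ, a, θ, h⟩ z' ⟨μ', a', θ', h'⟩ t
  refine ⟨μ + t • μ', a + t • a', θ + t • θ', XR_comb h.hW h'.hW t, ?_, fun u => ⟨?_, ?_⟩,
    XR_comb h.hb h'.hb t, ?_⟩
  · show z.1.2 + (t : ℂ) • z'.1.2 = _
    rw [h.hμ, h'.hμ]; ext j; simp [cv]
  · exact (h.ha u).1.add ((h'.ha u).1.smul t)
  · show (z.2.1 u).1 + (t : ℂ) • (z'.2.1 u).1 = _
    rw [(h.ha u).2, (h'.ha u).2, Pi.add_apply, cm_add, Pi.smul_apply, cm_smul]
  · show z.2.2.2 + (t : ℂ) • z'.2.2.2 = _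
    rw [h.hθ, h'.hθ]; ext j; simp [cv]

theorem ZRs_dec {κ : Type} [Fintype κ]
    (hd : ∀ W ∈ XC T v 8 0, ∃ a ∈ XR T v 8 0, ∃ b ∈ XR T v 8 0,
      W = a + Complex.I • b ∧ ‖a‖ ≤ ‖W‖ ∧ ‖b‖ ≤ ‖W‖) (z : Zc T v κ) :
    ∃ a ∈ ZRs T v κ, ∃ b ∈ ZRs T v κ, z = a + Complex.I • b ∧ ‖a‖ ≤ 1 * ‖z‖ ∧ ‖b‖ ≤ 1 * ‖z‖ := by
  obtain ⟨⟨W, μ⟩, a, b, θ⟩ := z
  obtain ⟨W1, h1, W2, h2, e1, n1, n2⟩ := hd W.1 W.2
  obtain ⟨b1, h3, b2, h4, e2, n3, n4⟩ := hd b.1 b.2
  refine ⟨((⟨W1, XR_sub h1⟩, cv fun j => (μ j).re), fun u => ⟨_, cm_mem (SC_re_im (a u).2).1⟩,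
      ⟨b1, XR_sub h3⟩, cv fun j => (θ j).re),
    ⟨_, _, _, h1, rfl, fun u => ⟨(SC_re_im (a u).2).1, rfl⟩, h3, rfl⟩,
    ((⟨W2, XR_sub h2⟩, cv fun j => (μ j).im), fun u => ⟨_, cm_mem (SC_re_im (a u).2).2⟩,
      ⟨b2, XR_sub h4⟩, cv fun j => (θ j).im),
    ⟨_, _, _, h2, rfl, fun u => ⟨(SC_re_im (a u).2).2, rfl⟩, h4, rfl⟩, ?_, ?_, ?_⟩
  · refine Prod.ext (Prod.ext (Subtype.ext e1) ?_) (Prod.ext ?_ (Prod.ext (Subtype.ext e2) ?_))
    · ext j; simp [cv, Complex.ext_iff]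
    · ext u p q; simp [cm, Complex.ext_iff]
    · ext j; simp [cv, Complex.ext_iff]
  · rw [one_mul]
    refine max_le_max (max_le_max n1 (norm_cv_le fun j => Complex.abs_re_le_norm _))
      (max_le_max ?_ (max_le_max n3 (norm_cv_le fun j => Complex.abs_re_le_norm _)))
    exact (pi_norm_le_iff_of_nonneg (norm_nonneg _)).2 fun u =>
      (norm_cm_le fun p q => Complex.abs_re_le_norm _).trans (norm_le_pi_norm a u)
  · rw [one_mul]
    refine max_le_max (max_le_max n2 (norm_cv_le fun j => Complex.abs_im_le_norm _))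
      (max_le_max ?_ (max_le_max n4 (norm_cv_le fun j => Complex.abs_im_le_norm _)))
    exact (pi_norm_le_iff_of_nonneg (norm_nonneg _)).2 fun u =>
      (norm_cm_le fun p q => Complex.abs_im_le_norm _).trans (norm_le_pi_norm a u)

end Crest.Agent.N207.CB

end
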