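import Crest.Agent.N207.CB.Trn1
import Crest.Agent.N207.CB.Bg0
import Crest.Agent.N207.CB.Cut
import Crest.Agent.N207.CB.Glu1
import Crest.Agent.N207.Lg.Flat
import Crest.Agent.N207.CB.St3
import Crest.Agent.N207.CB.Lf3
import Crest.Agent.N207.CB.St4
import Crest.Agent.N207.I.Cal3
import Crest.Agent.N207.CB.Anx1
import Crest.Agent.N207.I.Lim1
import Crest.Agent.N207.I.Car3
import Crest.Agent.N207.I.Car4
import Crest.Agent.N207.I.Cal1

-- ▼ part N207/CB/Trn2
section

/-!
# Row 207, block L (helper78): the leaf `TRN`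
-/

set_option autoImplicit false

open scoped ContDiff Matrix
open Metric Set Filter Topology MeasureTheory
open Crest.GeometryTopology.CoordMetric
open Crest.Agent.NLib.Ell Crest.Agent.N207.I Crest.Agent.N207.Lg Crest.Agent.N207.J
open Crest.Agent.N207.I.TD

noncomputable section

namespace Crest.Agent.N207.CB

variable {M : Type*} {T : TD M}

/-- a `Γ`-invariant field supported in the far part of the end `u` is a section -/
theorem sec_onE (h : T.Ok) {v u : T.V} {β : MetricField 4} (hβ : Inv (T.Γ u) ∞ {x | x ≠ 0} β)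
    (h0 : ∀ x ∈ (T.base v).U (Sum.inr u), β x = 0) : Sec T v (onE T u β) := by
  have hS := h.str_core v
  have z : ∀ (F : E4 → E4) (S : Tn 4 2) (x : E4), S (F x) = 0 → pullT F S x = 0 :=
    fun F S x h => by funext I; simp [pullT, evT, h]
  have key : ∀ s, ∀ x : E4, sc (fun _ _ => 1) s v • x ∈ (T.base v).U s →
      matT (onE T u β s) x = 0 := by
    intro s x hx
    unfold onE
    split_ifs with e
    · subst e
      simp only [sc, Sum.elim_inr, one_smul] at hx
      funext I; simp [matT, h0 x hx]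
    · rfl
  refine ⟨⟨fun s I => ?_, hS.compat_of h (fun a b x F w hw _ e => ?_) fun w γ hγ x hx => ?_⟩,
    fun s x hx => ?_⟩
  · unfold onE
    split_ifs with e
    · subst e; exact (hβ.sm _ _).mono fun x hx => hS.ne u x hx
    · exact contDiffOn_const
  · subst hw
    rw [key a x e.self_of_nhds.1, z _ _ _ (key b _ e.self_of_nhds.2.1)]
  · unfold onE
    split_ifs with e
    · obtain rfl := Sum.inr.inj e
      rw [← Trn.matT_pullM]
      funext I
      exact congrFun (congrFun (hβ.eqv γ hγ x (hS.ne w x hx)) _) _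
    · exact (z _ _ _ rfl).symm
  · unfold onE
    split_ifs with e
    · subst e; exact hβ.symm x (hS.ne u x hx)
    · exact Matrix.isSymm_zero

namespace Trn

theorem inv_scale {Γ : Subgroup Iso4} {β : MetricField 4} (h : Inv Γ ∞ {x | x ≠ 0} β) {c : ℝ}
    (hc : c ≠ 0) : Inv Γ ∞ {x | x ≠ 0} fun x => β (c • x) := by
  have hm : ∀ x : E4, x ≠ 0 → c • x ≠ 0 := fun x hx => smul_ne_zero hc hx
  refine ⟨fun a b => (h.sm a b).comp (contDiff_id.const_smul c).contDiffOn hm,
    fun x hx => h.symm _ (hm x hx), fun γ hγ x hx => ?_⟩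
  rw [h.eqv γ hγ _ (hm x hx), pullM_iso, pullM_iso, map_smul]

theorem sec_endF (h : T.Ok) {v u : T.V} {T0 : ℝ} (h1 : 4 ≤ T0) (h2 : 4 / T.r ≤ T0)
    {β : MetricField 4} (hβ : Inv (T.Γ u) ∞ {x | x ≠ 0} β)
    (h0 : ∀ x : E4, sgn T v u * Real.log ‖x‖ ≤ 22 / 10 → β x = 0) : Sec T v (endF T v u T0 β) := by
  refine sec_onE h (inv_scale hβ (Real.exp_pos _).ne') fun x hx => h0 _ ?_
  have hr := h.r_pos
  have key : ∀ c : ℝ, 0 < ‖x‖ → Real.log ‖Real.exp c • x‖ = c + Real.log ‖x‖ := fun c hx => by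
    rw [norm_smul, Real.norm_of_nonneg (Real.exp_pos c).le,
      Real.log_mul (Real.exp_pos c).ne' hx.ne', Real.log_exp]
  by_cases e : u = v
  · subst e
    obtain ⟨a, b⟩ := mem_base_out.1 hx
    have := Real.log_le_sub_one_of_pos (zero_lt_one.trans a)
    rw [key _ (zero_lt_one.trans a)]
    simp only [sgn, if_true]; linarith
  · obtain ⟨-, a, -⟩ := (mem_base_inn e).1 hx
    have x0 : 0 < ‖x‖ := lt_trans (by positivity) a
    have h3 := Real.log_le_sub_one_of_pos (inv_pos.2 x0)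
    have h4 : ‖x‖⁻¹ ≤ 4 / T.r := by
      rw [← inv_div]; exact inv_anti₀ (by positivity) a.le
    rw [Real.log_inv] at h3
    rw [key _ x0]
    simp only [sgn, if_neg e]; linarith

open Classical in
/-- the cell of `ℝ⁴ \ 0` attached to a cell of the end `u` -/
def idx (v u : T.V) {c : ℝ} (hc : c ≠ 0) (γ : Iso4) (i : CI T v) : Option J0 :=
  if h : i.1.1 = Sum.inr u ∧ i.1.2 ≠ 0 then
    some ⟨γ (c • i.1.2), by simpa [hc] using h.2⟩ else none

/-- the transport -/
def th (v u : T.V) [Fintype (T.Γ u)] {c : ℝ} (hc : c ≠ 0) (k : ℕ) : MJ k →L[ℂ] MC T v k :=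
  ContinuousLinearMap.pi fun a => ContinuousLinearMap.pi fun b =>
    (((2 * Fintype.card (T.Γ u) : ℝ)⁻¹ : ℝ) : ℂ) • ∑ γ : T.Γ u, ∑ p, ∑ q,
      ((mat γ p a * mat γ q b : ℝ) : ℂ) • (rot (idx v u hc γ) γ).comp
        ((ContinuousLinearMap.proj q).comp (ContinuousLinearMap.proj p : MJ k →L[ℂ] _) +
          (ContinuousLinearMap.proj p).comp (ContinuousLinearMap.proj q : MJ k →L[ℂ] _))

variable {v u : T.V} [Fintype (T.Γ u)] {c : ℝ} {k : ℕ}

theorem th_apply (hc : c ≠ 0) (W : MJ k) (a b : Fin 4) : th v u hc k W a b =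
    (((2 * Fintype.card (T.Γ u) : ℝ)⁻¹ : ℝ) : ℂ) • ∑ γ : T.Γ u, ∑ p, ∑ q,
      ((mat γ p a * mat γ q b : ℝ) : ℂ) • rot (idx v u hc γ) γ (W p q + W q p) := by
  simp only [th, ContinuousLinearMap.pi_apply, smul_apply,
    sum_apply, ContinuousLinearMap.comp_apply, add_apply,
    ContinuousLinearMap.proj_apply]

theorem norm_th (hc : c ≠ 0) : ‖th v u hc k‖ ≤ 16 * 4 ^ k := by
  refine ContinuousLinearMap.opNorm_le_bound _ (by positivity) fun W => ?_
  refine (pi_norm_le_iff_of_nonneg (by positivity)).2 fun a =>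
    (pi_norm_le_iff_of_nonneg (by positivity)).2 fun b => ?_
  have hW : ∀ p q, ‖W p q‖ ≤ ‖W‖ := fun p q => (norm_le_pi_norm _ q).trans (norm_le_pi_norm _ p)
  have h1 : ∀ (γ : T.Γ u) p q, ‖((mat γ p a * mat γ q b : ℝ) : ℂ) •
      rot (idx v u hc γ) γ (W p q + W q p)‖ ≤ 4 ^ k * (2 * ‖W‖) := fun γ p q => by
    rw [norm_smul, Complex.norm_real, Real.norm_eq_abs, abs_mul]
    refine (mul_le_of_le_one_left (norm_nonneg _)
      (mul_le_one₀ (abs_mat _ _ _) (abs_nonneg _) (abs_mat _ _ _))).trans ((norm_rot _ _ _).trans ?_)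
    gcongr
    linarith [norm_add_le (W p q) (W q p), hW p q, hW q p]
  have hN : (0 : ℝ) < Fintype.card (T.Γ u) := by positivity
  rw [th_apply, norm_smul, Complex.norm_real, Real.norm_of_nonneg (by positivity),
    inv_mul_le_iff₀ (by positivity)]
  refine (norm_sum_le_of_le _ fun γ _ => norm_sum_le_of_le _ fun p _ =>
    norm_sum_le_of_le _ fun q _ => h1 γ p q).trans (le_of_eq ?_)
  simp; ring

theorem lf_th (hc : 0 < c) {β : MetricField 4} {W : MJ k} (h : LfJ β W) :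
    Lf T 0 (onE T u fun x => av (T.Γ u) β (c • x)) (th v u hc.ne' k W) := by
  intro i a b y hy
  rw [th_apply]
  simp only [Cel.val_smul, Pi.smul_apply, Cel.val_sum, val_rot _ _ _ _ hy, pow_zero, one_mul,
    smul_eq_mul]
  obtain ⟨⟨s, x⟩, hx⟩ := i
  by_cases e : s = Sum.inr u
  · subst e
    have x0 : x ≠ 0 := by
      rw [← norm_pos_iff]
      by_cases hv : u = v
      · subst hv; linarith [mem_cK_out.1 hx]
      · exact ((mem_cK_inn hv).1 hx).2.1
    have hm : ∀ γ : Iso4, γ y ∈ B1 := fun γ => by simpa using hy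
    have pt : ∀ γ : Iso4, γ (c • x) + (‖γ (c • x)‖ / 8) • γ y = γ (c • (x + (‖x‖ / 8) • y)) :=
      fun γ => by
        rw [γ.norm_map, norm_smul, Real.norm_of_nonneg hc.le, ← map_smul, ← map_add, smul_add,
          smul_smul, mul_div_assoc]
    simp only [idx, x0, ne_eq, not_false_eq_true, and_self, dite_true, Option.elim_some,
      Cel.val_add, Pi.add_apply, h _ _ _ _ (hm _), pt, onE, if_true, av_apply, cpt, rad,
      Sum.elim_inr]
    push_cast
    rfl
  · simp [idx, e, onE]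

end Trn

open Trn in
/-- **leaf TRN** -/
theorem trn (T : TD M) : TRN T := by
  intro h k
  refine ⟨16 * 4 ^ k, max 4 (4 / T.r), by positivity, fun v u T0 hT => ?_⟩
  have := h.fin u
  let _ : Fintype (T.Γ u) := Fintype.ofFinite _
  have h1 : 4 ≤ T0 := (le_max_left _ _).trans hT
  have h2 : 4 / T.r ≤ T0 := (le_max_right _ _).trans hT
  have hc := Real.exp_pos (-(sgn T v u * T0))
  refine ⟨th v u hc.ne' k, norm_th _, fun W hW => ?_, fun β W hW hβ h0 =>
    ⟨sec_endF h h1 h2 hβ h0, fun i a b y hy => ?_⟩⟩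
  · obtain ⟨β₁, β₂, W₁, W₂, s1, s2, z1, z2, l1, l2, rfl⟩ := cpx_split hW
    have key : ∀ (β : MetricField 4) (W : MJ k),
        (∀ a b, ContDiffOn ℝ ∞ (fun x => β x a b) {x | x ≠ 0}) →
        (∀ x : E4, sgn T v u * Real.log ‖x‖ ≤ 22 / 10 → β x = 0) → LfJ β W →
        th v u hc.ne' k W ∈ XC T v k 0 := fun β W s z l =>
      Submodule.subset_span (subset_closure ⟨endF T v u T0 (av (T.Γ u) β),
        sec_endF h h1 h2 (av_inv s) fun x hx => av_zero fun w hw => z w (hw ▸ hx), lf_th hc l⟩)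
    rw [map_add, map_smul]
    exact add_mem (key _ _ s1 z1 l1) (Submodule.smul_mem _ _ (key _ _ s2 z2 l2))
  · rw [lf_th hc hW i a b y hy]
    obtain ⟨⟨s, x⟩, hx⟩ := i
    simp only [endF, onE]
    split_ifs with e
    · subst e
      have x0 : 0 < ‖x‖ := by
        by_cases hv : u = v
        · subst hv; linarith [mem_cK_out.1 hx]
        · exact ((mem_cK_inn hv).1 hx).2.1
      have ne : x + (‖x‖ / 8) • y ≠ 0 := fun e => by
        have h3 : ‖x‖ = ‖(‖x‖ / 8) • y‖ := by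
          rw [← norm_neg ((‖x‖ / 8) • y), ← eq_neg_of_add_eq_zero_left e]
        rw [norm_smul, Real.norm_of_nonneg (by positivity)] at h3
        have : ‖y‖ < 1 := by simpa using hy
        nlinarith
      exact congrArg (fun m : Mt => ((rad T (Sum.inr u) x ^ 0 * m a b : ℝ) : ℂ))
        (av_eq hβ (smul_ne_zero hc.ne' ne))
    · rfl

end Crest.Agent.N207.CB

end
end

-- ▼ part N207/CB/Bga
section

/-!
# Row 207 (helper17): `bga : BGA T`
-/

set_option autoImplicit false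

open scoped ContDiff Matrix
open Metric Set Filter Topology
open Crest.GeometryTopology.CoordMetric Crest.Agent.R202.Tens
open Crest.Agent.NLib.Ell Crest.Agent.N207.I Crest.Agent.N207.Lg Crest.Agent.N207.Ga

noncomputable section

namespace Crest.Agent.N207.CB

namespace Ba

/-- `η + y ⊗ dη` -/
def cA (η : E4 → ℝ) (y : E4) : Mt :=
  Matrix.of fun m i => η y * (1 : Mt) m i + y m * pderiv i η y

variable {η : E4 → ℝ} {a : Mt} {y : E4}

theorem sm_psi (h : ContDiffAt ℝ ∞ η y) : ContDiffAt ℝ ∞ (PsiA η a) y :=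
  contDiffAt_id.add (h.smul
    (LinearMap.toContinuousLinearMap (Matrix.toEuclideanLin a)).contDiff.contDiffAt)

theorem fd_psi (h : DifferentiableAt ℝ η y) (w : E4) (l : Fin 4) :
    fderiv ℝ (PsiA η a) y w l = ((1 + a * cA η y) *ᵥ w.ofLp) l := by
  have h2 := (hasFDerivAt_id y).add (h.hasFDerivAt.smul
    (LinearMap.toContinuousLinearMap (Matrix.toEuclideanLin a)).hasFDerivAt)
  rw [show fderiv ℝ (PsiA η a) y = _ from h2.fderiv]
  show w l + (η y * (a *ᵥ w.ofLp) l + fderiv ℝ η y w * (a *ᵥ y.ofLp) l) = _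
  rw [fderiv_eq_sum]
  simp only [Matrix.mulVec, dotProduct, Matrix.add_apply, Matrix.mul_apply, cA, Matrix.of_apply,
    Matrix.one_apply, Fin.sum_univ_four]
  fin_cases l <;> simp <;> ring

theorem pull_sum (Φ : E4 → E4) (y : E4) (p q : Fin 4) : pullM Φ fl1 y p q =
    ∑ l, fderiv ℝ Φ y (EuclideanSpace.single p 1) l * fderiv ℝ Φ y (EuclideanSpace.single q 1) l := by
  simp only [pullM, Matrix.of_apply, pullT, AI.evT_matT, bil_apply, Matrix.one_apply]
  simp

theorem pull_psi (h : DifferentiableAt ℝ η y) :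
    pullM (PsiA η a) fl1 y = (1 + a * cA η y)ᵀ * (1 + a * cA η y) := by
  ext p q
  rw [pull_sum, Matrix.mul_apply]
  simp [fd_psi h]

theorem sm_cA (h : ContDiffAt ℝ ∞ η y) (m i : Fin 4) : ContDiffAt ℝ ∞ (fun z => cA η z m i) y :=
  (h.mul contDiffAt_const).add ((EuclideanSpace.proj m : E4 →L[ℝ] ℝ).contDiff.contDiffAt.mul
    ((h.fderiv_right (m := ∞) le_rfl).clm_apply contDiffAt_const))

theorem sm_N (h : ContDiffAt ℝ ∞ η y) (l p : Fin 4) :
    ContDiffAt ℝ ∞ (fun z => (1 + a * cA η z) l p) y :=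
  contDiffAt_const.add (ContDiffAt.sum (s := Finset.univ) fun m _ =>
    (contDiffAt_const (c := a l m)).mul (sm_cA h m p))

theorem sm_pull (h : ContDiffAt ℝ ∞ η y) (h' : ∀ᶠ z in 𝓝 y, DifferentiableAt ℝ η z) (p q : Fin 4) :
    ContDiffAt ℝ ∞ (fun z => pullM (PsiA η a) fl1 z p q) y :=
  (ContDiffAt.sum (s := Finset.univ) fun l _ => (sm_N (a := a) h l p).mul
    (sm_N (a := a) h l q)).congr_of_eventuallyEq (h'.mono fun z hz => by
      show pullM _ _ _ p q = _
      rw [pull_psi hz, Matrix.mul_apply]; rfl)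

theorem cA_min (h0 : ∀ z, 0 ≤ η z) (h : η y = 0) : cA η y = 0 := by
  have : IsLocalMin η y := Eventually.of_forall fun z => h ▸ h0 z
  ext m i
  simp [cA, h, pderiv, this.fderiv_eq_zero]

theorem cA_max (h0 : ∀ z, η z ≤ 1) (h : η y = 1) : cA η y = 1 := by
  have : IsLocalMax η y := Eventually.of_forall fun z => h ▸ h0 z
  ext m i
  simp [cA, h, pderiv, this.fderiv_eq_zero]

theorem pull_inv {γ : Iso4} (h : DifferentiableAt ℝ η y) (h' : DifferentiableAt ℝ η (γ y))
    (e : ∀ z, η (γ z) = η z)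
    (ha : ∀ z : E4, Matrix.toEuclideanLin a (γ z) = γ (Matrix.toEuclideanLin a z)) :
    PM (γ.toContinuousLinearEquiv : E4 →L[ℝ] E4) (pullM (PsiA η a) fl1 y)
      (pullM (PsiA η a) fl1 (γ y)) := by
  have d : ∀ {z : E4}, DifferentiableAt ℝ η z → DifferentiableAt ℝ (PsiA η a) z := fun h =>
    differentiableAt_id.add (h.smul
      (LinearMap.toContinuousLinearMap (Matrix.toEuclideanLin a)).differentiableAt)
  have e1 : PsiA η a ∘ γ = γ ∘ PsiA η a := funext fun z => by simp [PsiA, e, ha]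
  have e2 : ∀ w, fderiv ℝ (PsiA η a) (γ y) (γ w) = γ (fderiv ℝ (PsiA η a) y w) := fun w => by
    have h1 := ((d h').hasFDerivAt.comp y γ.toContinuousLinearEquiv.hasFDerivAt).fderiv
    have h2 := (γ.toContinuousLinearEquiv.hasFDerivAt.comp y (d h).hasFDerivAt).fderiv
    have h3 := h1.symm.trans ((congrArg (fun f => fderiv ℝ f y) e1).trans h2)
    exact congrArg (fun f : E4 →L[ℝ] E4 => f w) h3
  have b : ∀ {z : E4}, DifferentiableAt ℝ η z → ∀ u w : E4, bil (pullM (PsiA η a) fl1 z) u w =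
      inner ℝ (fderiv ℝ (PsiA η a) z u) (fderiv ℝ (PsiA η a) z w) := fun {z} hz u w => by
    rw [pull_psi hz, bil_apply, PiLp.inner_apply]
    simp only [fd_psi hz, Matrix.mul_apply, Matrix.transpose_apply, Matrix.mulVec, dotProduct,
      RCLike.inner_apply, conj_trivial]
    generalize 1 + a * cA η z = N
    simp only [Fin.sum_univ_four]
    ring
  intro i j
  rw [b h']
  show _ = inner ℝ (fderiv ℝ (PsiA η a) (γ y) (γ _)) (fderiv ℝ (PsiA η a) (γ y) (γ _))
  rw [e2, e2, γ.inner_map_map, ← b h, bil_apply]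
  simp

variable {M : Type*} {T : TD M} {v u : T.V} {T0 : ℝ}

theorem etC_sm {x : E4} (hx : x ≠ 0) : ContDiffAt ℝ ∞ (etC T v u T0) x :=
  (Gl.stp_sm _ _).contDiffAt.comp x (Gl.tau_sm v u T0 hx)

theorem etC_d {x : E4} (hx : x ≠ 0) : DifferentiableAt ℝ (etC T v u T0) x :=
  (etC_sm hx).differentiableAt (by simp)

theorem pull_sm {x : E4} (hx : x ≠ 0) (p q : Fin 4) :
    ContDiffAt ℝ ∞ (fun z => pullM (PsiA (etC T v u T0) a) fl1 z p q) x :=
  sm_pull (etC_sm hx) ((isOpen_ne.eventually_mem hx).mono fun _ hz => etC_d hz) p q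

theorem pull_lo {x : E4} (hx : x ≠ 0) (h : tau T v u T0 x ≤ 1 / 5) :
    pullM (PsiA (etC T v u T0) a) fl1 x = 1 := by
  rw [pull_psi (etC_d hx), cA_min (η := etC T v u T0) (fun _ => Real.smoothTransition.nonneg _)
    (Gl.stp_zero (by norm_num) h)]
  simp

theorem pull_hi {x : E4} (hx : x ≠ 0) (h : 4 / 5 ≤ tau T v u T0 x) :
    pullM (PsiA (etC T v u T0) a) fl1 x = (1 + a)ᵀ * (1 + a) := by
  rw [pull_psi (etC_d hx), cA_max (η := etC T v u T0) (fun _ => Real.smoothTransition.le_one _)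
    (Gl.stp_one (by norm_num) h), mul_one]

theorem inv_psi (ha : Adm T u a) :
    Inv (T.Γ u) ∞ {x | x ≠ 0} (pullM (PsiA (etC T v u T0) a) fl1 - fl1) := by
  refine ⟨fun p q x hx => ((pull_sm hx p q).sub contDiffAt_const).contDiffWithinAt,
    fun x hx => ?_, fun γ hγ x hx => ?_⟩
  · rw [Pi.sub_apply, pull_psi (etC_d hx)]
    exact (Matrix.isSymm_transpose_mul_self _).sub Matrix.isSymm_one
  · have h1 := (pull_inv (etC_d (T := T) (v := v) (u := u) (T0 := T0) hx)
      (etC_d (by simpa using hx)) (fun z => by simp [etC, tau]) (ha.comm γ hγ)).sub (pm_one γ)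
    have h2 := (pm_iff (F := γ) (G := pullM (PsiA (etC T v u T0) a) fl1 - fl1)
      (G' := pullM (PsiA (etC T v u T0) a) fl1 - fl1)).2 (by
        rw [LinearIsometryEquiv.fderiv]; exact h1)
    ext p q
    exact congrFun h2 ![p, q]

theorem red_flat {x : E4} (hx : x ≠ 0) (hp : (pullM (PsiA (etC T v u T0) a) fl1 x).PosDef) :
    redT (pullM (PsiA (etC T v u T0) a) fl1) (pullM (PsiA (etC T v u T0) a) fl1) x = 0 := by
  have h0 : (1 + a * cA (etC T v u T0) x).det ≠ 0 := fun h0 => by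
    have := hp.det_pos
    rw [pull_psi (etC_d hx), Matrix.det_mul, h0, mul_zero] at this
    exact lt_irrefl _ this
  have h1 : ∀ᶠ z in 𝓝 x, z ≠ 0 ∧ (1 + a * cA (etC T v u T0) z).det ≠ 0 :=
    (isOpen_ne.eventually_mem hx).and
      ((cA_det fun l p => sm_N (etC_sm hx) l p).continuousAt.eventually_ne h0)
  obtain ⟨V, hV, hO, hxV⟩ := _root_.eventually_nhds_iff.1 h1
  have P : Pull (pullM (PsiA (etC T v u T0) a) fl1) fl1 (PsiA (etC T v u T0) a) V univ := by
    refine ⟨hO, riem_one isOpen_univ, fun _ _ => trivial,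
      fun y hy => (sm_psi (etC_sm (hV y hy).1)).contDiffWithinAt, fun y _ i j => ?_,
      fun y hy => (injective_iff_map_eq_zero _).2 fun w hw => ?_⟩
    · simp only [pullM, Matrix.of_apply, pullT, AI.evT_matT, bil_apply]
      rfl
    · have := Matrix.eq_zero_of_mulVec_eq_zero (hV y hy).2 (v := w.ofLp) (funext fun l => by
        rw [← fd_psi (etC_d (hV y hy).1), hw]; rfl)
      ext l
      exact congrFun this l
  rw [(C2.of_riem P.riem' hxV).redT_self, AI.ricT_pull P hxV]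
  funext I
  simp [pullT, evT, ricT, ricci_const]

/-- the coefficients `cA` on the cells -/
theorem lift_cA (k : ℕ) : ∃ C : ℝ, 0 < C ∧ ∀ (v u : T.V) (T0 : ℝ), ∃ W : MC T v k,
    Lf T 0 (onE T u (cA (etC T v u T0))) W ∧ ‖W‖ ≤ C := by
  obtain ⟨C, hC0, hC⟩ := Cu.exists_cka_stp (T := T) (a := 1 / 5) (b := 4 / 5) (by norm_num) (k + 1)
  obtain ⟨K, hK0, hK⟩ := Cu.exists_cka_id k
  refine ⟨2 ^ (k + 1) * (C + 2 ^ (k + 1) * ((8 + K) * C)) + 1, by positivity, fun v u T0 => ?_⟩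
  obtain ⟨W, hW, hn⟩ := lift_of_cka (v := v) (k := k) (j := 0) (w := onE T u (cA (etC T v u T0)))
    (N := C + 2 ^ (k + 1) * ((8 + K) * C)) (by positivity) (by
      rintro ⟨⟨s, x⟩, hx⟩ m i
      by_cases hs : s = Sum.inr u
      · subst hs
        have h0 := Cu.cK_pos hx
        have h1 := hC v u T0 x h0
        have h2 : CKA (1 / 2) B1 k (8 + K) fun y : E4 => x m / (‖x‖ / 8) + y m := by
          refine ((CKA.const _).mono ?_).add isOpen_ball (hK.clm1 isOpen_ball
            (EuclideanSpace.proj m : E4 →L[ℝ] ℝ) (ContinuousLinearMap.opNorm_le_bound _ zero_le_one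
              fun z => by simpa using PiLp.norm_apply_le z m))
          rw [norm_div, Real.norm_of_nonneg (r := ‖x‖ / 8) (by positivity),
            div_le_iff₀ (by positivity)]
          linarith [PiLp.norm_apply_le x m]
        have h3 : |(1 : Mt) m i| ≤ 1 := by
          rw [Matrix.one_apply]
          split_ifs <;> simp
        refine (((h1.pred.const_mul isOpen_ball ((1 : Mt) m i)).mono
          (mul_le_of_le_one_left hC0 h3)).add isOpen_ball
            (h2.mul isOpen_ball (h1.pd i))).congr isOpen_ball fun y _ => ?_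
        have h4 := Ctx.fderiv_aff (etC T v u T0) x y (ei i) (r := ‖x‖ / 8) (by positivity) 0
        simp only [pow_zero, one_mul, zero_add, pow_one, etC] at h4
        rw [h4]
        simp only [onE, if_true, cA, cpt, rad, Sum.elim_inr, Matrix.of_apply, pow_zero, one_mul,
          pderiv, etC, PiLp.add_apply, PiLp.smul_apply, smul_eq_mul]
        field_simp
      · exact (CKA.zero.mono (by positivity)).congr isOpen_ball fun y _ => by simp [onE, hs])
  exact ⟨W, hW, by linarith⟩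

section Alg

variable {A : Type} [NormedCommRing A] [NormedAlgebra ℂ A]

/-- `a * W` -/
def mW (W : Fin 4 → Fin 4 → A) (a : MtC) : Fin 4 → Fin 4 → A := fun l i => ∑ m, a l m • W m i

theorem mW_add (W : Fin 4 → Fin 4 → A) (a b : MtC) (l i : Fin 4) :
    mW W (a + b) l i = mW W a l i + mW W b l i := by
  simp [mW, add_smul, Finset.sum_add_distrib]

theorem mW_smul (W : Fin 4 → Fin 4 → A) (c : ℂ) (a : MtC) (l i : Fin 4) :
    mW W (c • a) l i = c • mW W a l i := by
  simp [mW, Finset.smul_sum, mul_smul]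

theorem norm_mW (W : Fin 4 → Fin 4 → A) (a : MtC) (l i : Fin 4) :
    ‖mW W a l i‖ ≤ 4 * ‖W‖ * ‖a‖ := by
  refine (norm_sum_le_of_le _ (n := fun _ => ‖a‖ * ‖W‖) fun m _ => (norm_smul_le _ _).trans
    (mul_le_mul ((norm_le_pi_norm (a l) m).trans (norm_le_pi_norm a l))
      ((norm_le_pi_norm (W m) i).trans (norm_le_pi_norm W m)) (norm_nonneg _)
      (norm_nonneg _))).trans (le_of_eq ?_)
  simp; ring

theorem exists_B (W : Fin 4 → Fin 4 → A) : ∃ (B₁ : MtC →L[ℂ] (Fin 4 → Fin 4 → A))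
    (B₂ : MtC →L[ℂ] MtC →L[ℂ] (Fin 4 → Fin 4 → A)), ‖B₁‖ ≤ 8 * ‖W‖ ∧ ‖B₂‖ ≤ 64 * ‖W‖ ^ 2 ∧
      (∀ a p q, B₁ a p q = mW W a p q + mW W a q p) ∧
      ∀ a b p q, B₂ a b p q = ∑ l, mW W a l p * mW W b l q := by
  refine ⟨LinearMap.mkContinuous
      { toFun := fun a p q => mW W a p q + mW W a q p
        map_add' := fun a b => by funext p q; simp only [mW_add, Pi.add_apply]; ring
        map_smul' := fun c a => by
          funext p q; simp only [mW_smul, Pi.smul_apply, RingHom.id_apply, smul_add] }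
      (8 * ‖W‖) fun a => ?_,
    LinearMap.mkContinuous₂ (LinearMap.mk₂ ℂ (fun a b p q => ∑ l, mW W a l p * mW W b l q)
      (fun a a' b => by funext p q; simp [mW_add, add_mul, Finset.sum_add_distrib])
      (fun c a b => by funext p q; simp [mW_smul, Finset.smul_sum])
      (fun a b b' => by funext p q; simp [mW_add, mul_add, Finset.sum_add_distrib])
      (fun c a b => by funext p q; simp [mW_smul, Finset.smul_sum])) (64 * ‖W‖ ^ 2) fun a b => ?_,
    LinearMap.mkContinuous_norm_le _ (by positivity) _,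
    LinearMap.mkContinuous₂_norm_le _ (by positivity) _, fun _ _ _ => rfl, fun _ _ _ _ => rfl⟩
  · refine (pi_norm_le_iff_of_nonneg (by positivity)).2 fun p =>
      (pi_norm_le_iff_of_nonneg (by positivity)).2 fun q => (norm_add_le _ _).trans ?_
    linarith [norm_mW W a p q, norm_mW W a q p]
  · refine (pi_norm_le_iff_of_nonneg (by positivity)).2 fun p =>
      (pi_norm_le_iff_of_nonneg (by positivity)).2 fun q => ?_
    refine (norm_sum_le_of_le Finset.univ (n := fun _ => 4 * ‖W‖ * ‖a‖ * (4 * ‖W‖ * ‖b‖)) fun l _ =>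
      (norm_mul_le _ _).trans (mul_le_mul (norm_mW W a l p) (norm_mW W b l q) (norm_nonneg _)
        (by positivity))).trans (le_of_eq ?_)
    simp; ring

end Alg

end Ba

open Ba in
/-- **BGA** -/
theorem bga {M : Type*} (T : TD M) : BGA T := by
  intro h k
  obtain ⟨C, hC0, hC⟩ := lift_cA (T := T) k
  refine ⟨8 * C + 64 * C ^ 2, 4 / T.r, by positivity, fun v T0 hT => ⟨fun u => ?_,
    fun u a ha => sec_onE h (inv_psi ha) fun x hx => ?_, fun u a ha x hx h1 => ?_,
    fun g a s x hx hp => ?_⟩⟩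
  · obtain ⟨W, hW, hn⟩ := hC v u T0
    obtain ⟨B₁, B₂, h1, h2, e1, e2⟩ := exists_B W
    have h3 : ‖W‖ ^ 2 ≤ C ^ 2 := by gcongr
    refine ⟨B₁, B₂, by nlinarith, by nlinarith, fun a i p q y hy => ?_⟩
    have r : ∀ l j, RpA (mW W (cm a) l j) i fun y =>
        (a * onE T u (cA (etC T v u T0)) i.1.1 (cpt T i y)) l j := fun l j =>
      (RpA.sum Finset.univ fun m _ => RpA.smul (a l m) (hW i m j)).congr fun y _ => by
        simp [Matrix.mul_apply]
    have := ((r p q).add (r q p)).add (RpA.sum Finset.univ fun l _ => (r l p).mul (r l q)) y hy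
    rw [Pi.add_apply, Pi.add_apply, e1, e2]
    refine this.trans (congrArg _ ?_)
    by_cases hs : i.1.1 = Sum.inr u
    · have hm := cpt_mem i hy
      rw [hs] at hm
      simp only [onE, hs, if_true, pow_zero, one_mul, Pi.sub_apply, pull_psi (etC_d (core_ne hm))]
      generalize a * cA (etC T v u T0) (cpt T i y) = N
      simp [Matrix.add_mul, Matrix.mul_add, Matrix.mul_apply]
      ring
    · simp [onE, hs]
  · have h1 := (tau_base h hT hx).1
    have h2 : x ≠ 0 := by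
      rintro rfl
      by_cases hu : u = v
      · subst hu
        have := (TD.mem_base_out.1 hx).1
        norm_num at this
      · have := ((TD.mem_base_inn hu).1 hx).2.1
        have := h.r_pos
        rw [norm_zero] at *
        linarith
    rw [Pi.sub_apply, pull_lo h2 (by linarith), sub_self]
  · rw [pull_hi hx h1, Matrix.transpose_add, Matrix.transpose_one, ha.eq]
  · rcases s with b | u
    · rfl
    have h0 := core_ne hx
    have hc := tau_cont (v := v) (u := u) (T0 := T0) h0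
    ext p q
    simp only [redM, Matrix.of_apply]
    by_cases ht : tau T v u T0 x < 1 / 5
    · have e : gbA T g T0 a v (Sum.inr u) =ᶠ[𝓝 x] gb T g T0 v (Sum.inr u) := by
        filter_upwards [hc.eventually (gt_mem_nhds ht), isOpen_ne.eventually_mem h0] with z h1 h2
        simp [gbA, pull_lo h2 h1.le]
      rw [(redT_congr e e).eq_of_nhds]
    · have h1 := hc.eventually (lt_mem_nhds (show 1 / 10 < tau T v u T0 x by linarith))
      have e : gb T g T0 v (Sum.inr u) =ᶠ[𝓝 x] fl1 := h1.mono fun z hz => gb_one hz.le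
      have e' : gbA T g T0 a v (Sum.inr u) =ᶠ[𝓝 x] pullM (PsiA (etC T v u T0) (a u)) fl1 :=
        h1.mono fun z hz => by simp [gbA, gb_one hz.le]
      rw [e'.eq_of_nhds] at hp
      rw [(redT_congr e e).eq_of_nhds, (redT_congr e' e').eq_of_nhds, red_flat h0 hp,
        (c2_one x).redT_self]
      simp [ricT, ricci_const]

end Crest.Agent.N207.CB

end
end

-- ▼ part N207/CB/Int
section

/-!
# Row 207, block L (helper19): the leaf `INT` (the action integral as a bounded functional)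
-/

set_option autoImplicit false

open scoped ContDiff
open Metric Set Filter Topology MeasureTheory
open Crest.Agent.NLib.Ell Crest.Agent.N207.I

noncomputable section

namespace Crest.Agent.N207.CB

namespace Ig

variable {M : Type*} {T : TD M} {v : T.V} {k : ℕ} {s : T.S} {x : E4}

theorem cK_norm {y : E4} (e : ‖x‖ = ‖y‖) (hx : x ∈ T.cK v s) : y ∈ T.cK v s := by
  rcases s with a | w
  · rw [TD.mem_cK_inl] at hx ⊢; rwa [← e]
  · by_cases hw : w = v
    · subst hw; rw [TD.mem_cK_out] at hx ⊢; rwa [← e]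
    · rw [TD.mem_cK_inn hw] at hx ⊢; rwa [← e]

theorem chi_zero (h : T.Ok) (hx : x ∈ (T.core v).U s) (hK : x ∉ T.cK v s) :
    T.χ s ((T.core v).c s x) = 0 := by
  by_contra h0
  obtain ⟨y, hy, e⟩ := (h.core_pou v).supp s s x hx h0
  obtain ⟨γ, -, rfl⟩ := ((h.core_ok v).fib s y ((h.core_pou v).sub s hy) x hx).1 e
  exact hK (cK_norm (γ.norm_map y).symm hy)

theorem chi_le (h : T.Ok) (hx : x ∈ (T.core v).U s) : T.χ s ((T.core v).c s x) ≤ 1 := by
  rw [← (h.core_pou v).sum s x hx]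
  exact Finset.single_le_sum (f := fun a => T.χ a ((T.core v).c s x))
    (fun a _ => TD.χ_nonneg _ _) (Finset.mem_univ s)

theorem meas_cK (v : T.V) (s : T.S) : MeasurableSet (T.cK v s) := by
  rcases s with a | w <;> simp only [TD.cK, Sum.elim_inl, Sum.elim_inr] <;> split_ifs
  · exact measurableSet_closedBall
  · exact MeasurableSet.empty
  · exact measurableSet_le measurable_const measurable_norm
  · exact (measurableSet_lt measurable_const measurable_norm).inter
      (measurableSet_le measurable_norm measurable_const)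
  · exact MeasurableSet.empty

theorem meas_tau (v w : T.V) (T0 : ℝ) : Measurable (tau T v w T0) := by
  have h : Measurable fun x : E4 => Real.log ‖x‖ := Real.measurable_log.comp measurable_norm
  unfold tau
  split_ifs
  · exact h.sub_const _
  · exact h.neg.sub_const _

theorem meas_UR (h : T.Ok) (v : T.V) (T0 c : ℝ) (s : T.S) : MeasurableSet (UR T v T0 c s) := by
  have e : UR T v T0 c s =
      (T.core v).U s ∩ ⋂ u, {x | s = Sum.inr u → tau T v u T0 x < c} := by
    ext x; simp [UR]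
  rw [e]
  refine ((h.core_ok v).isOpen s).measurableSet.inter (MeasurableSet.iInter fun u => ?_)
  by_cases hs : s = Sum.inr u
  · simp only [hs, forall_const]
    exact measurableSet_lt (meas_tau v u T0) measurable_const
  · simp [hs]

variable (T) in
/-- the effective domain of integration -/
def D (v : T.V) (T0 c : ℝ) (s : T.S) : Set E4 := UR T v T0 c s ∩ T.cK v s

theorem meas_D (h : T.Ok) (v : T.V) (T0 c : ℝ) (s : T.S) : MeasurableSet (D T v T0 c s) :=
  (meas_UR h v T0 c s).inter (meas_cK v s)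

theorem D_bd (v : T.V) (T0 c : ℝ) (s : T.S) :
    ∃ ρ R : ℝ, 0 < ρ ∧ ∀ x ∈ D T v T0 c s, ρ ≤ rad T s x ∧ ‖x‖ ≤ R := by
  rcases s with a | w
  · exact ⟨1 / 8, 3 / 2, by norm_num, fun x hx => ⟨le_rfl, (TD.mem_cK_inl.1 hx.2).2⟩⟩
  · by_cases hw : w = v
    · subst hw
      refine ⟨3 / 16, Real.exp (c + T0), by norm_num, fun x hx => ?_⟩
      have h1 := TD.mem_cK_out.1 hx.2
      have h2 := hx.1.2 w rfl
      simp only [tau, if_true] at h2
      exact ⟨show 3 / 16 ≤ ‖x‖ / 8 by linarith,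
        ((Real.log_lt_iff_lt_exp (by linarith)).1 (by linarith)).le⟩
    · refine ⟨Real.exp (-(c + T0)) / 8, 3 / 4 * T.r, by positivity, fun x hx => ?_⟩
      obtain ⟨-, h1, h3⟩ := (TD.mem_cK_inn hw).1 hx.2
      have h2 := hx.1.2 w rfl
      simp only [tau, if_neg hw] at h2
      have := (Real.lt_log_iff_exp_lt h1).1 (show -(c + T0) < Real.log ‖x‖ by linarith)
      exact ⟨show _ ≤ ‖x‖ / 8 by linarith, h3⟩

theorem cont_rad (s : T.S) : Continuous (rad T s) := by
  rcases s with a | w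
  · exact continuous_const
  · exact continuous_norm.div_const _

variable (T) in
/-- the weight -/
def wt (v : T.V) (s : T.S) (x : E4) : ℂ := ((T.χ s ((T.core v).c s x) / rad T s x ^ 2 : ℝ) : ℂ)

theorem wt_int (h : T.Ok) (v : T.V) (T0 c : ℝ) (s : T.S) :
    IntegrableOn (wt T v s) (D T v T0 c s) := by
  obtain ⟨ρ, R, hρ, hb⟩ := D_bd v T0 c s
  have hD := meas_D h v T0 c s
  refine IntegrableOn.of_bound ((measure_mono (t := closedBall 0 R) fun x hx =>
    mem_closedBall_zero_iff.2 (hb x hx).2).trans_lt measure_closedBall_lt_top) ?_ (1 / ρ ^ 2) ?_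
  · refine ContinuousOn.aestronglyMeasurable ?_ hD
    exact Complex.continuous_ofReal.comp_continuousOn
      ((((h.core_pou v).sm s s).continuousOn.mono fun x hx => hx.1.1).div
        ((cont_rad s).pow 2).continuousOn fun x hx => (pow_pos (rad_pos1 hx.2) 2).ne')
  · filter_upwards [ae_restrict_mem hD] with x hx
    have h0 := TD.χ_nonneg s ((T.core v).c s x)
    have h1 := chi_le h hx.1.1
    have h2 := (hb x hx).1
    rw [wt, Complex.norm_real, Real.norm_of_nonneg (by positivity)]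
    gcongr

open Classical in
variable (T) in
/-- the value at the centre of a cell -/
def evc (v : T.V) (k : ℕ) (s : T.S) (x : E4) : Cel (CI T v) k →L[ℂ] ℂ :=
  if h : x ∈ T.cK v s then Cel.evL (I := CI T v) ⟨(s, x), h⟩ 0 else 0

theorem evc_in (hx : x ∈ T.cK v s) (W : Cel (CI T v) k) :
    evc T v k s x W = W.val ⟨(s, x), hx⟩ 0 := by rw [evc, dif_pos hx]; rfl

theorem evc_le (W : Cel (CI T v) k) : ‖evc T v k s x W‖ ≤ ‖W‖ := by
  by_cases hx : x ∈ T.cK v s
  · rw [evc_in hx]; exact W.norm_val_le _ _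
  · rw [evc, dif_neg hx]; simp

variable (T) in
/-- families whose central values are measurable -/
def Sub (v : T.V) (k : ℕ) (T0 c : ℝ) : Submodule ℂ (Cel (CI T v) k) where
  carrier := {W | ∀ s, AEStronglyMeasurable (fun x => evc T v k s x W)
    (volume.restrict (D T v T0 c s))}
  add_mem' ha hb s := by simp only [map_add]; exact (ha s).add (hb s)
  zero_mem' s := by simpa only [map_zero] using aestronglyMeasurable_const
  smul_mem' a W hW s := by simp only [map_smul]; exact (hW s).const_smul a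

theorem sub_closed (v : T.V) (k : ℕ) (T0 c : ℝ) :
    IsClosed (Sub T v k T0 c : Set (Cel (CI T v) k)) :=
  IsSeqClosed.isClosed fun _ _ hu hW s => aestronglyMeasurable_of_tendsto_ae atTop
    (fun n => hu n s) (Eventually.of_forall fun x =>
      ((evc T v k s x).continuous.tendsto _).comp hW)

theorem int_sub (h : T.Ok) {T0 c : ℝ} (W : Sub T v k T0 c) (s : T.S) :
    IntegrableOn (fun x => wt T v s x * evc T v k s x W.1) (D T v T0 c s) :=
  (wt_int h v T0 c s).mul_bdd (W.2 s) (Eventually.of_forall fun _ => evc_le W.1)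

/-- the integral over one chart -/
def one (h : T.Ok) (v : T.V) (k : ℕ) (T0 c : ℝ) (s : T.S) : Sub T v k T0 c →L[ℂ] ℂ :=
  LinearMap.mkContinuous
    { toFun := fun W => ∫ x in D T v T0 c s, wt T v s x * evc T v k s x W.1
      map_add' := fun W W' => by
        simp only [Submodule.coe_add, map_add, mul_add]
        exact integral_add (int_sub h W s) (int_sub h W' s)
      map_smul' := fun a W => by
        simp only [Submodule.coe_smul, map_smul, smul_eq_mul, RingHom.id_apply, mul_left_comm _ a,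
          integral_const_mul] }
    (∫ x in D T v T0 c s, ‖wt T v s x‖) fun W => by
      rw [← integral_mul_const]
      refine norm_integral_le_of_norm_le ((wt_int h v T0 c s).norm.mul_const _)
        (Eventually.of_forall fun x => ?_)
      rw [norm_mul]
      exact mul_le_mul_of_nonneg_left (evc_le W.1) (norm_nonneg _)

variable {f : T.S → E4 → ℝ} {W : Cel (CI T v) k}

theorem evc_lf (hW : ∀ i : CI T v, LfS T i 2 (f i.1.1) W) (hx : x ∈ T.cK v s) :
    evc T v k s x W = ((rad T s x ^ 2 * f s x : ℝ) : ℂ) := by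
  have := hW ⟨(s, x), hx⟩ 0 (mem_ball_self one_pos)
  simp only [cpt, smul_zero, add_zero] at this
  rw [evc_in hx, this]

theorem cont_lf (hW : ∀ i : CI T v, LfS T i 2 (f i.1.1) W) (hx : x ∈ T.cK v s) :
    ContinuousAt (f s) x := by
  have hr := rad_pos1 hx
  have h0 : (rad T s x)⁻¹ • (x - x) ∈ B1 := by simp
  have hφ : ContinuousAt (fun z : E4 => (rad T s x)⁻¹ • (z - x)) x := by fun_prop
  have h1 : ContinuousAt (W.val ⟨(s, x), hx⟩) ((rad T s x)⁻¹ • (x - x)) :=
    (W.contDiffOn _).continuousOn.continuousAt (isOpen_ball.mem_nhds h0)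
  have h2 : ContinuousAt
      (fun z : E4 => (W.val ⟨(s, x), hx⟩ ((rad T s x)⁻¹ • (z - x))).re / rad T s x ^ 2) x :=
    (Complex.continuous_re.continuousAt.comp
      (ContinuousAt.comp (f := fun z : E4 => (rad T s x)⁻¹ • (z - x)) h1 hφ)).div_const _
  refine h2.congr ?_
  filter_upwards [hφ (isOpen_ball.mem_nhds h0)] with z hz
  have := hW ⟨(s, x), hx⟩ _ hz
  simp only [cpt, smul_inv_smul₀ hr.ne', add_sub_cancel] at this
  rw [this, Complex.ofReal_re, mul_div_cancel_left₀ _ (pow_pos hr 2).ne']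

theorem lf_mem (h : T.Ok) (T0 c : ℝ) (hW : ∀ i : CI T v, LfS T i 2 (f i.1.1) W) :
    W ∈ Sub T v k T0 c := fun s => by
  have hD := meas_D h v T0 c s
  refine (ContinuousOn.aestronglyMeasurable
    (f := fun x => ((rad T s x ^ 2 * f s x : ℝ) : ℂ)) (fun x hx => ?_) hD).congr ?_
  · exact (Complex.continuous_ofReal.continuousAt.comp
      (((cont_rad s).pow 2).continuousAt.mul (cont_lf hW hx.2))).continuousWithinAt
  · filter_upwards [ae_restrict_mem hD] with x hx using (evc_lf hW hx.2).symm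

theorem one_lf (h : T.Ok) (T0 c : ℝ) (hW : ∀ i : CI T v, LfS T i 2 (f i.1.1) W) (s : T.S) :
    one h v k T0 c s ⟨W, lf_mem h T0 c hW⟩ =
      ((∫ x in UR T v T0 c s, T.χ s ((T.core v).c s x) * f s x : ℝ) : ℂ) := by
  rw [setIntegral_eq_of_subset_of_forall_sdiff_eq_zero (meas_UR h v T0 c s)
    (inter_subset_left (t := T.cK v s)) fun x hx => by
      rw [chi_zero h hx.1.1 fun hK => hx.2 ⟨hx.1, hK⟩, zero_mul], ← integral_complex_ofReal]
  refine setIntegral_congr_fun (meas_D h v T0 c s) fun x hx => ?_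
  have hr := (rad_pos1 hx.2).ne'
  show wt T v s x * evc T v k s x W = ((T.χ s ((T.core v).c s x) * f s x : ℝ) : ℂ)
  rw [evc_lf hW hx.2, wt, ← Complex.ofReal_mul]
  congr 1
  field_simp

end Ig

open Ig in
/-- **leaf INT** -/
theorem int {M : Type*} (T : TD M) : INT T := fun h v k T0 =>
  ⟨Sub T v k T0 1, ∑ s, (((Nat.card (T.grp s) : ℝ)⁻¹ : ℝ) : ℂ) • one h v k T0 1 s,
    sub_closed v k T0 1, fun f W hW => ⟨lf_mem h T0 1 hW, by
      simp only [sum_apply, smul_apply, one_lf h T0 1 hW,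
        smul_eq_mul, actC, Complex.ofReal_sum, Complex.ofReal_mul]⟩⟩

end Crest.Agent.N207.CB

end
end

-- ▼ part N207/CB/Grc1
section

/-!
# Row 207, block L (helper45): tools for `GRC`
-/

set_option autoImplicit false

open scoped ContDiff
open Metric Set Filter Topology MeasureTheory
open Crest.GeometryTopology.CoordMetric
open Crest.Agent.NLib.Ell Crest.Agent.N207.I Crest.Agent.N207.Lg Crest.Agent.N207.J

noncomputable section

namespace Crest.Agent.N207.CB.Gr

theorem Pop_congr {gb gb' w w' : MetricField 4} {y : E4} (hb : gb =ᶠ[𝓝 y] gb')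
    (h : w =ᶠ[𝓝 y] w') : Pop gb w y = Pop gb' w' y := by
  ext a b
  simp only [Pop, Matrix.of_apply]
  congr 2
  funext s
  refine congrFun (redT_congr hb ?_).eq_of_nhds _
  filter_upwards [hb, h] with z h1 h2
  rw [h1, h2]

/-- `Pop` for the flat background -/
theorem pop_flat {w : MetricField 4} {y : E4} (hw : ∀ a b, ContDiffAt ℝ 2 (fun z => w z a b) y)
    (sy : ∀ᶠ z in 𝓝 y, (w z).IsSymm) (a b : Fin 4) :
    Pop fl1 w y a b = -∑ c, pderiv c (pderiv c fun z => w z a b) y := by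
  set G : ℝ → MetricField 4 := fun s z => fl1 z + s • w z with hG
  have j1 : ∀ s, jet (G s) = fun z => s • jet w z := fun s => by
    funext z c p q
    simp only [jet, hG, Matrix.add_apply, Matrix.smul_apply, smul_eq_mul, Pi.smul_apply]
    rw [← pd_cmul, pderiv, pderiv, fderiv_const_add]
  have j2 : ∀ s, jet2 (G s) y = s • jet2 w y := fun s => by
    funext c d p q
    simp only [jet2, j1, smul_eq_mul, Pi.smul_apply, pd_cmul]
  have cG : ∀ i j, ContDiffAt ℝ 1 (fun s => G s y i j) 0 := fun i j => by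
    simp only [hG, Matrix.add_apply, Matrix.smul_apply, smul_eq_mul]; fun_prop
  have g0 : G 0 y = 1 := by simp [hG]
  have dp : ∀ᶠ s in 𝓝 (0 : ℝ), 0 < (G s y).det :=
    (cA_det cG).continuousAt.eventually (lt_mem_nhds (by simp [g0]))
  have dH : DifferentiableAt ℝ (fun s => iv (G s) y) 0 := differentiableAt_pi.2 fun i =>
    differentiableAt_pi.2 fun j => (cA_inv cG (by simp [g0]) i j).differentiableAt one_ne_zero
  have e : (fun s => redT fl1 (G s) y ![a, b]) =ᶠ[𝓝 0] fun s => s * (-(1 / 2) *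
      lapJ (iv (G s) y) (jet2 w y) a b + s * qd (iv (G s) y) (jet w y) a b) := by
    filter_upwards [dp] with s hs
    have c2 : C2 (G s) y := ⟨fun p q => by
      simp only [hG, Matrix.add_apply, Matrix.smul_apply, smul_eq_mul]
      exact contDiffAt_const.add (contDiffAt_const.mul (hw p q)), sy.mono fun z hz p q => by
      simp only [hG, Matrix.add_apply, Matrix.smul_apply, Matrix.one_apply, eq_comm (a := p),
        hz.apply p q], hs⟩
    rw [redT_one c2, j2, j1, lapJ_smul, qd_hom]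
    simp only [Pi.smul_apply, smul_eq_mul]; ring
  have d1 : DifferentiableAt ℝ (fun s => -(1 / 2) * lapJ (iv (G s) y) (jet2 w y) a b +
      s * qd (iv (G s) y) (jet w y) a b) 0 := by
    have l1 := differentiableAt_pi.1 (differentiableAt_pi.1
      (dA_lapJ dH (differentiableAt_const (jet2 w y))) a) b
    have l2 := differentiableAt_pi.1 (differentiableAt_pi.1
      (dA_qd dH (differentiableAt_const (jet w y))) a) b
    exact (l1.const_mul _).add (differentiableAt_id.mul l2)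
  have d2 := ((hasDerivAt_id (0 : ℝ)).mul d1.hasDerivAt).deriv
  simp only [Pop, Matrix.of_apply]
  rw [e.deriv_eq, show deriv (fun s => s * (-(1 / 2) * lapJ (iv (G s) y) (jet2 w y) a b +
    s * qd (iv (G s) y) (jet w y) a b)) 0 = _ from d2]
  simp [lapJ, iv, g0, Matrix.one_apply, jet2, jet]

theorem fderiv_ofReal {f : E4 → ℝ} {y : E4} (hf : DifferentiableAt ℝ f y) (v : E4) :
    fderiv ℝ (fun z => (f z : ℂ)) y v = (fderiv ℝ f y v : ℝ) := by
  rw [show fderiv ℝ (fun z => (f z : ℂ)) y = _ from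
    (Complex.ofRealCLM.hasFDerivAt.comp y hf.hasFDerivAt).fderiv]
  rfl

theorem cd_ofReal {f : E4 → ℝ} {y : E4} {m : WithTop ℕ∞} (hf : ContDiffAt ℝ m f y) :
    ContDiffAt ℝ m (fun z => (f z : ℂ)) y := Complex.ofRealCLM.contDiff.contDiffAt.comp y hf

theorem Lp2_ofReal {f : E4 → ℝ} {x : E4} (hf : ContDiffAt ℝ 2 f x) :
    Lp2 (fun z => (f z : ℂ)) x = ((‖x‖ ^ 2 * ∑ i, pderiv i (pderiv i f) x : ℝ) : ℂ) := by
  rw [Lp2]
  push_cast
  congr 1
  refine Finset.sum_congr rfl fun i _ => ?_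
  have e : (fun y => fderiv ℝ (fun z => (f z : ℂ)) y (ee i)) =ᶠ[𝓝 x]
      fun y => ((pderiv i f y : ℝ) : ℂ) := by
    filter_upwards [hf.eventually (by simp)] with y hy
    exact fderiv_ofReal (hy.differentiableAt (by simp)) _
  rw [e.fderiv_eq]
  exact fderiv_ofReal (((hf.fderiv_right (m := 1) le_rfl).clm_apply
    contDiffAt_const).differentiableAt one_ne_zero) _

theorem pd_scale (f : E4 → ℝ) (c : ℝ) (i : Fin 4) :
    pderiv i (fun z => f (c • z)) = fun z => c * pderiv i f (c • z) := by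
  funext z
  rw [pderiv, fderiv_comp_smul]; rfl

section Amp

variable {U V : E4 → ℂ} {t : ℝ}

theorem mdU_sub (hU : ∀ o : S3, ContinuousAt U (Real.exp t • (o : E4)))
    (hV : ∀ o : S3, ContinuousAt V (Real.exp t • (o : E4))) (k : ℕ) :
    mdU (fun x => U x - V x) k t = mdU U k t - mdU V k t := by
  rw [mdU, mdU, mdU, ← map_sub, ← map_sub]
  congr 2
  ext o
  rw [ContinuousMap.sub_apply, rst_apply' hU, rst_apply' hV,
    rst_apply' (U := fun x => U x - V x) fun o => (hU o).sub (hV o)]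

theorem amp_congr (h : ∀ o : S3, U =ᶠ[𝓝 (Real.exp t • (o : E4))] V) (k : ℕ) :
    pm U k t = pm V k t ∧ qm U k t = qm V k t := by
  have e1 : mdU U k t = mdU V k t := by rw [mdU, mdU, rst_congr fun o => (h o).eq_of_nhds]
  have e2 : mdU (Eu U) k t = mdU (Eu V) k t := by
    rw [mdU, mdU, rst_congr (U := Eu U) (U' := Eu V) fun o => by simp only [Du, (h o).fderiv_eq]]
  exact ⟨by rw [pm, pm, e1, e2], by rw [qm, qm, e1, e2]⟩

theorem amp_le (hU : ∀ o : S3, ContDiffAt ℝ (0 + 1 : ℕ) U (Real.exp t • (o : E4)))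
    (hV : ∀ o : S3, ContDiffAt ℝ (0 + 1 : ℕ) V (Real.exp t • (o : E4))) {M : ℝ}
    (h0 : ∀ o : S3, ‖U (Real.exp t • (o : E4)) - V (Real.exp t • (o : E4))‖ ≤ M)
    (h1 : ∀ o : S3, ‖Eu (fun x => U x - V x) (Real.exp t • (o : E4))‖ ≤ 32 * M) (k : ℕ) :
    ‖pm U k t - pm V k t‖ ≤ 165 * M ∧ ‖qm U k t - qm V k t‖ ≤ 165 * M := by
  have e1 := mdU_sub (fun o => (hU o).continuousAt) (fun o => (hV o).continuousAt) k
  have e2 : mdU (Eu fun x => U x - V x) k t = mdU (Eu U) k t - mdU (Eu V) k t := by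
    rw [← mdU_sub (fun o => (contDiffAt_Du _ (hU o)).continuousAt)
      (fun o => (contDiffAt_Du _ (hV o)).continuousAt), mdU, mdU, rst_congr fun o => ?_]
    simp only [Du]
    rw [fderiv_fun_sub ((hU o).differentiableAt (by simp)) ((hV o).differentiableAt (by simp))]
    rfl
  have p1 : pm U k t - pm V k t = pm (fun x => U x - V x) k t := by
    rw [pm, pm, pm, e1, e2]; module
  have p2 : qm U k t - qm V k t = qm (fun x => U x - V x) k t := by
    rw [qm, qm, qm, e1, e2]; module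
  have b1 := norm_mdU_le (U := fun x => U x - V x) h0 k
  have b2 := norm_mdU_le h1 k
  have b3 : ((k : ℝ) + 1)⁻¹ * ‖mdU (Eu fun x => U x - V x) k t‖ ≤
      ‖mdU (Eu fun x => U x - V x) k t‖ := mul_le_of_le_one_left (norm_nonneg _)
    (inv_le_one_of_one_le₀ (by linarith [(Nat.cast_nonneg k : (0 : ℝ) ≤ k)]))
  rw [p1, p2]
  exact ⟨(norm_pm_le k t).trans (by linarith), (norm_qm_le k t).trans (by linarith)⟩

end Amp

variable {M : Type*} {T : TD M} {v u : T.V} {T0 : ℝ}

/-- value and radial derivative at the centre of a cell -/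
theorem cell_bd {k : ℕ} {X : E4} (hX : X ∈ T.cK v (Sum.inr u)) {f : E4 → ℝ}
    {W : Cel (CI T v) (k + 1)} (h : LfS T ⟨(Sum.inr u, X), hX⟩ 0 f W) :
    |f X| ≤ ‖W‖ ∧ |fderiv ℝ f X X| ≤ 32 * ‖W‖ := by
  have h0 : (0 : E4) ∈ B1 := mem_ball_self one_pos
  have hp := Cu.cK_pos hX
  have r : RpA W ⟨(Sum.inr u, X), hX⟩ fun y => (‖X‖ / 8) ^ 0 * f (X + (‖X‖ / 8) • y) := h
  refine ⟨by simpa using r.abs_le h0, ?_⟩
  have d : ∀ a, |X a * pderiv a f X| ≤ 8 * ‖W‖ := fun a => by
    have h1 := ((r.D a).abs_le h0).trans ((Cel.D a).le_of_opNorm_le (Cel.norm_D_le a) W)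
    rw [Ctx.fderiv_aff f X 0 _ (by positivity), smul_zero, add_zero, zero_add, pow_one, abs_mul,
      abs_of_pos (by positivity), one_mul] at h1
    have h2 : |X a| ≤ ‖X‖ := PiLp.norm_apply_le X a
    rw [abs_mul]
    calc _ ≤ ‖X‖ * |pderiv a f X| := by gcongr
      _ = 8 * (‖X‖ / 8 * |fderiv ℝ f X (ei a)|) := by rw [pderiv]; ring
      _ ≤ _ := by gcongr
  rw [R202.Tens.fderiv_eq_sum]
  exact (Finset.abs_sum_le_sum_abs _ _).trans ((Finset.sum_le_sum fun a _ => d a).trans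
    (by simp; linarith))

theorem tau_eq (x : E4) : tau T v u T0 x = sgn T v u * Real.log ‖x‖ - T0 := by
  unfold tau sgn; split_ifs <;> ring

theorem sgn_sq : sgn T v u * sgn T v u = 1 := by unfold sgn; split_ifs <;> ring

theorem tau_unit {x : E4} (hx : x ≠ 0) :
    tau T v u T0 (Real.exp (sgn T v u * T0) • x) = sgn T v u * Real.log ‖x‖ := by
  rw [tau_eq, norm_smul, Real.norm_eq_abs, Real.abs_exp,
    Real.log_mul (Real.exp_pos _).ne' (norm_ne_zero_iff.2 hx), Real.log_exp, mul_add, ← mul_assoc,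
    sgn_sq]
  ring

theorem cda_tau {x : E4} (hx : x ≠ 0) : ContDiffAt ℝ ∞ (tau T v u T0) x := by
  rw [show tau T v u T0 = _ from funext tau_eq]
  exact (contDiffAt_const.mul ((contDiffAt_norm ℝ hx).log (norm_ne_zero_iff.2 hx))).sub
    contDiffAt_const

theorem core_ne {x : E4} (hx : x ∈ (T.core v).U (Sum.inr u)) : x ≠ 0 := by
  by_cases h : u = v
  · subst h; rw [TD.mem_core_out] at hx; exact norm_pos_iff.1 (by linarith)
  · rw [TD.mem_core_inn h] at hx; exact norm_pos_iff.1 hx.2.1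

/-- `T0` is large -/
structure Big (T : TD M) (T0 : ℝ) : Prop where
  h0 : 0 ≤ T0
  h1 : -Real.log (T.r / 4) ≤ T0

theorem unit_mem (h : T.Ok) (b : Big T T0) (hu : u = v ∨ T.kid v u) {x : E4} (hx : x ≠ 0)
    (h1 : 1 ≤ sgn T v u * Real.log ‖x‖) : Real.exp (sgn T v u * T0) • x ∈ T.cK v (Sum.inr u) := by
  have hp := norm_pos_iff.2 hx
  have e : ‖Real.exp (sgn T v u * T0) • x‖ = Real.exp (sgn T v u * T0 + Real.log ‖x‖) := by
    rw [norm_smul, Real.norm_eq_abs, Real.abs_exp, Real.exp_add, Real.exp_log hp]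
  rcases hu with rfl | hk
  · rw [TD.mem_cK_out, e]
    simp only [sgn, if_true, one_mul] at h1 ⊢
    linarith [Real.add_one_le_exp (T0 + Real.log ‖x‖), b.h0]
  · have hne := h.kid_ne hk
    rw [TD.mem_cK_inn hne, e]
    refine ⟨hk, Real.exp_pos _, ?_⟩
    simp only [sgn, if_neg hne] at h1 ⊢
    have hr := h.r_pos
    calc _ ≤ Real.exp (Real.log (T.r / 4)) := Real.exp_le_exp.2 (by linarith [b.h1])
      _ ≤ _ := by rw [Real.exp_log (by positivity)]; linarith

theorem tau_base (h : T.Ok) (b : Big T T0) {x : E4} (hx : x ∈ (T.base v).U (Sum.inr u)) :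
    tau T v u T0 x ≤ 3 := by
  by_cases e : u = v
  · subst e
    rw [TD.mem_base_out] at hx
    simp only [tau, if_true]
    linarith [Real.log_le_sub_one_of_pos (show 0 < ‖x‖ by linarith [hx.1]), b.h0, hx.2]
  · rw [TD.mem_base_inn e] at hx
    simp only [tau, if_neg e]
    have hr := h.r_pos
    linarith [Real.log_le_log (by positivity) hx.2.1.le, b.h1]

theorem zt_one {s : T.S} {x : E4} (hx : ∀ u, s = Sum.inr u → tau T v u T0 x ≤ 4) :
    zt T v T0 s x = 1 := by
  cases s with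
  | inl a => rfl
  | inr u => simp [zt, cutF, Cu.stp_zero' (by norm_num : (4 : ℝ) < 9 / 2) (hx u rfl)]

theorem zt_ev {s : T.S} {x : E4} (hU : x ∈ (T.core v).U s)
    (hx : ∀ u, s = Sum.inr u → tau T v u T0 x < 4) : ∀ᶠ z in 𝓝 x, zt T v T0 s z = 1 := by
  cases s with
  | inl a => exact Eventually.of_forall fun _ => rfl
  | inr u =>
    filter_upwards [(cda_tau (core_ne hU)).continuousAt.eventually (gt_mem_nhds (hx u rfl))]
      with z hz
    exact zt_one fun u' e => by cases e; exact hz.le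

theorem compF_zt (h : T.Ok) (b : Big T T0) : (T.core v).CompF (zt T v T0) := by
  intro s s' x hx y hy e
  rcases (h.str_core v).rel hx hy e with ⟨v', rfl, h1, h2, -⟩ | ⟨rfl, γ, -, rfl⟩
  · have k : ∀ (s : T.S) (x : E4), TD.sc (T := T) (fun _ _ => 1) s v' • x ∈ (T.base v').U s →
        zt T v' T0 s x = 1 := fun s x hx => zt_one fun u e => by
      subst e
      linarith [tau_base h b (x := x) (by simpa [TD.sc] using hx)]
    rw [k s x h1, k s' y h2]
  · cases s with
    | inl a => rfl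
    | inr u => simp [zt, cutF, tau]

theorem sec_zt (h : T.Ok) (b : Big T T0) {w : Fam T} (hw : Sec T v w) :
    Sec T v fun s x => zt T v T0 s x • w s x := by
  refine ⟨hw.sec.smT (compF_zt h b) fun s => ?_, fun s x hx => (hw.symm s x hx).smul _⟩
  cases s with
  | inl a => exact contDiffOn_const
  | inr u =>
    exact fun x hx => (contDiffAt_const.sub ((Cu.stp_sm _ _).contDiffAt.comp x
      (cda_tau (core_ne hx)))).contDiffWithinAt

theorem sec_cda (h : T.Ok) {w : Fam T} (hw : Sec T v w) {s : T.S} {x : E4}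
    (hx : x ∈ (T.core v).U s) (a b : Fin 4) : ContDiffAt ℝ ∞ (fun z => w s z a b) x :=
  (hw.sec.sm s ![a, b]).contDiffAt (((h.core_ok v).isOpen s).mem_nhds hx)

theorem secN_of_sec {w : Fam T} (hw : Sec T v w) (m : ℕ) : SecN T v m w :=
  ⟨fun s a b => (hw.sec.sm s ![a, b]).of_le (by exact_mod_cast le_top), hw.sec.compat, hw.symm⟩

theorem secN_sub {w w' : Fam T} {m : ℕ} (hw : SecN T v m w) (hw' : SecN T v m w') :
    SecN T v m (w - w') :=
  ⟨fun s a b => (hw.sm s a b).sub (hw'.sm s a b), hw.compat.sub hw'.compat,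
    fun s x hx => (hw.symm s x hx).sub (hw'.symm s x hx)⟩

theorem secN_zero {w : Fam T} {m : ℕ} (hw : SecN T v m w) : SecN T v 0 w :=
  ⟨fun s a b => (hw.sm s a b).of_le (by exact_mod_cast Nat.zero_le m), hw.compat, hw.symm⟩

theorem lf_sub {k j : ℕ} {w w' : Fam T} {W W' : MC T v k} (h : Lf T j w W) (h' : Lf T j w' W') :
    Lf T j (w - w') (W - W') := fun i a b y hy => by
  have h1 := h i a b y hy
  have h2 := h' i a b y hy
  simp only [Pi.sub_apply, Cel.val_sub, Matrix.sub_apply, h1, h2]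
  push_cast; ring

end Crest.Agent.N207.CB.Gr

end
end

-- ▼ part N207/CB/Grc
section

/-!
# Row 207, block L (helper45): `grc : REG T → GRC T`
-/

set_option autoImplicit false

open scoped ContDiff
open Metric Set Filter Topology MeasureTheory
open Crest.GeometryTopology.CoordMetric
open Crest.Agent.NLib.Ell Crest.Agent.N207.I Crest.Agent.N207.Lg Crest.Agent.N207.J

noncomputable section

namespace Crest.Agent.N207.CB

namespace Gr

theorem clos_eq {Z E F : Type*} [TopologicalSpace Z] [NormedAddCommGroup E] [NormedAddCommGroup F]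
    {S : Set Z} {z : Z} (hz : z ∈ closure S) {e : E} {f : Z → E} {p : Z → F} (hf : Continuous f)
    (hp : Continuous p) {C : ℝ} (h : ∀ z' ∈ S, ‖e - f z'‖ ≤ C * ‖p z - p z'‖) : e = f z := by
  have := le_on_closure h (by fun_prop) (by fun_prop) hz
  rwa [sub_self, norm_zero, mul_zero, norm_le_zero_iff, sub_eq_zero] at this

variable {M : Type*} {T : TD M} {v u : T.V} {T0 T1 : ℝ} {g : T.V → Fam T}

theorem cK_sub {s : T.S} {x : E4} (hx : x ∈ T.cK v s) : x ∈ (T.core v).U s := by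
  simpa using cell_mem hx (mem_ball_self one_pos)

theorem cd_unit {w : Fam T} {m : WithTop ℕ∞} {x : E4} {a b : Fin 4}
    (h : ContDiffAt ℝ m (fun z => w (Sum.inr u) z a b) (Real.exp (sgn T v u * T0) • x)) :
    ContDiffAt ℝ m (fun z => unit T v u T0 w z a b) x :=
  h.comp x (contDiffAt_id.const_smul (Real.exp (sgn T v u * T0)))

/-- the amplitudes depend continuously on the lift -/
theorem amp_near (h : T.Ok) (hb : Big T T0) (hu : u = v ∨ T.kid v u) {w w' : Fam T}
    (hw : SecN T v 8 w) (hw' : Sec T v w') {W W' : MC T v 8} (l : Lf T 0 w W)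
    (l' : Lf T 0 (fun s x => zt T v T0 s x • w' s x) W') (a b : Fin 4) (k : ℕ) :
    ‖pm (cf (unit T v u T0 w) a b) k (sgn T v u * 3) -
      pm (cf (unit T v u T0 w') a b) k (sgn T v u * 3)‖ ≤ 165 * ‖W - W'‖ ∧
    ‖qm (cf (unit T v u T0 w) a b) k (sgn T v u * 3) -
      qm (cf (unit T v u T0 w') a b) k (sgn T v u * 3)‖ ≤ 165 * ‖W - W'‖ := by
  set t := sgn T v u * 3 with ht
  set c := Real.exp (sgn T v u * T0) with hc
  set w'' : Fam T := fun s x => zt T v T0 s x • w' s x with hw''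
  have n0 : ∀ o : S3, Real.exp t • (o : E4) ≠ 0 := fun o =>
    smul_ne_zero (Real.exp_pos _).ne' (ne_zero_of_mem_unit_sphere o)
  have lg : ∀ o : S3, sgn T v u * Real.log ‖Real.exp t • (o : E4)‖ = 3 := fun o => by
    rw [norm_smul, norm_eq_of_mem_sphere, mul_one, Real.norm_eq_abs, Real.abs_exp, Real.log_exp,
      ht, ← mul_assoc, sgn_sq, one_mul]
  have mK : ∀ o : S3, c • Real.exp t • (o : E4) ∈ T.cK v (Sum.inr u) := fun o =>
    unit_mem h hb hu (n0 o) (by rw [lg]; norm_num)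
  have c1 : ∀ o : S3, ContDiffAt ℝ (0 + 1 : ℕ) (fun z => w (Sum.inr u) z a b)
      (c • Real.exp t • (o : E4)) := fun o =>
    ((hw.sm _ a b).contDiffAt (((h.core_ok v).isOpen _).mem_nhds (cK_sub (mK o)))).of_le
      (by norm_cast)
  have c2 : ∀ o : S3, ContDiffAt ℝ (0 + 1 : ℕ) (fun z => w'' (Sum.inr u) z a b)
      (c • Real.exp t • (o : E4)) := fun o =>
    (sec_cda h (sec_zt h hb hw') (cK_sub (mK o)) a b).of_le (by exact_mod_cast le_top)
  have e := amp_congr (U := cf (unit T v u T0 w') a b) (V := cf (unit T v u T0 w'') a b) (t := t)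
    (fun o => by
      have e1 := zt_ev (T0 := T0) (cK_sub (mK o)) fun u' e => by
        cases e; rw [tau_unit (n0 o), lg]; norm_num
      filter_upwards [(continuous_const_smul c).continuousAt.eventually e1] with z hz
      simp only [cf, unit, hw'', ← hc, hz, one_smul]) k
  rw [e.1, e.2]
  have nb : ‖(W - W') a b‖ ≤ ‖W - W'‖ := (norm_le_pi_norm _ b).trans (norm_le_pi_norm _ a)
  have cb := fun o => cell_bd (k := 7) (mK o) (lf_sub l l' ⟨(Sum.inr u, _), mK o⟩ a b)
  refine amp_le (U := cf (unit T v u T0 w) a b) (V := cf (unit T v u T0 w'') a b)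
    (fun o => cd_ofReal (cd_unit (c1 o))) (fun o => cd_ofReal (cd_unit (c2 o)))
    (fun o => ?_) (fun o => ?_) k
  · rw [cf, cf, ← Complex.ofReal_sub, Complex.norm_real]
    exact (cb o).1.trans nb
  · have e2 : (fun x => cf (unit T v u T0 w) a b x - cf (unit T v u T0 w'') a b x) =
        fun x => (((fun z => (w - w'') (Sum.inr u) z a b) (c • x) : ℝ) : ℂ) := by
      funext x; simp [cf, unit, ← hc]
    have d : DifferentiableAt ℝ (fun z => (w - w'') (Sum.inr u) z a b)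
        (c • Real.exp t • (o : E4)) := ((c1 o).sub (c2 o)).differentiableAt (by simp)
    rw [e2, Eu, Du, fderiv_ofReal (f := fun x => (fun z => (w - w'') (Sum.inr u) z a b) (c • x))
      (d.comp _ (differentiableAt_id.const_smul c)), Complex.norm_real,
      fderiv_comp_smul (f := fun z => (w - w'') (Sum.inr u) z a b)]
    refine le_trans (le_of_eq ?_) ((cb o).2.trans (by gcongr))
    simp [Real.norm_eq_abs, mul_left_comm]

variable {κ : Type} [Fintype κ] {ψ : κ → Fam T}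

theorem van_le {ψ : Fam T} (hv : Van T v T1 0 ψ) (hT : T1 ≤ T0) {x : E4}
    (hx : x ∈ (T.core v).U (Sum.inr u)) (h0 : 0 ≤ tau T v u T0 x) : ψ (Sum.inr u) x = 0 :=
  hv u x hx (by rw [tau_eq] at h0 ⊢; linarith)

/-- the solutions are harmonic on the ends -/
theorem unit_harm (h : T.Ok) (hb : Big T T0) (hu : u = v ∨ T.kid v u) (hT : T1 ≤ T0)
    (hψ : ∀ j, Van T v T1 0 (ψ j)) {F w : Fam T} {μ : κ → ℝ} (hF : Van T v T0 (29 / 10) F)
    (hw : Sec T v w) (he : ∀ s, ∀ x ∈ (T.core v).U s,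
      Pop (gb T g T0 v s) (w s) x = F s x + ∑ j, μ j • TRg (g v s x) (ψ j s x))
    {x : E4} (hx : x ≠ 0) (h1 : 29 / 10 ≤ sgn T v u * Real.log ‖x‖) (a b : Fin 4) :
    ContDiffAt ℝ (2 : ℕ) (cf (unit T v u T0 w) a b) x ∧ Lp2 (cf (unit T v u T0 w) a b) x = 0 := by
  set c := Real.exp (sgn T v u * T0) with hc
  have mU : c • x ∈ (T.core v).U (Sum.inr u) := cK_sub (unit_mem h hb hu hx (by linarith))
  have ta : 29 / 10 ≤ tau T v u T0 (c • x) := by rw [hc, tau_unit hx]; exact h1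
  have cd : ∀ a b, ContDiffAt ℝ 2 (fun z => w (Sum.inr u) z a b) (c • x) := fun a b =>
    (sec_cda h hw mU a b).of_le (WithTop.coe_le_coe.2 (le_top : (2 : ℕ∞) ≤ ⊤))
  refine ⟨cd_ofReal (cd_unit (cd a b)), ?_⟩
  have e1 := he _ _ mU
  rw [hF u _ mU ta, Finset.sum_eq_zero fun j _ => by
    rw [van_le (hψ j) hT mU (by linarith)]; simp [TRg, tr2], add_zero,
    Pop_congr (gb' := fl1) ?_ EventuallyEq.rfl] at e1
  · have e2 := pop_flat cd (mem_of_superset (((h.core_ok v).isOpen _).mem_nhds mU)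
      fun z hz => hw.symm _ z hz) a b
    rw [e1, Matrix.zero_apply, eq_comm, neg_eq_zero] at e2
    refine (Lp2_ofReal (cd_unit (cd a b))).trans ?_
    simp only [unit, ← hc, pd_scale (fun z => w (Sum.inr u) z a b), pd_cmul,
      pd_scale (pderiv _ fun z => w (Sum.inr u) z a b), ← Finset.mul_sum, e2]
    simp
  · filter_upwards [(cda_tau (core_ne mU)).continuousAt.eventually
      (lt_mem_nhds (show 1 / 10 < tau T v u T0 (c • x) by linarith))] with z hz
    simp only [gb, Sum.elim_inr, Cu.stp_one' (by norm_num : (0 : ℝ) < 1 / 10) hz.le, sub_self,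
      zero_smul, add_zero]

theorem unit_grw (h : T.Ok) (hb : Big T T0) (hu : u = v ∨ T.kid v u) {w : Fam T} {σ : ℝ}
    (hw : Grw T v σ w) (a b : Fin 4) : ∃ C : ℝ, ∀ x : E4, x ≠ 0 → 1 ≤ sgn T v u * Real.log ‖x‖ →
      ‖cf (unit T v u T0 w) a b x‖ ≤ C * ‖x‖ ^ (-σ) := by
  obtain ⟨C, hC⟩ := hw
  refine ⟨C * Real.exp (sgn T v u * T0) ^ (-σ), fun x hx h1 => ?_⟩
  have := hC u _ (unit_mem h hb hu hx h1) a b
  rw [norm_smul, Real.norm_eq_abs, Real.abs_exp,
    Real.mul_rpow (Real.exp_pos _).le (norm_nonneg _), ← mul_assoc] at this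
  rwa [cf, Complex.norm_real]

theorem pair_zt (h : T.Ok) {ψ : Fam T} (hv : Van T v T1 0 ψ) (hT : T1 ≤ T0) (w : Fam T) :
    pair T g v ψ (fun s x => zt T v T0 s x • w s x) = pair T g v ψ w := by
  refine Atl.int_congr (h.core_ok v) fun s x hx => ?_
  by_cases h1 : ∀ u, s = Sum.inr u → tau T v u T0 x ≤ 4
  · simp [ip, ipA, matT, zt_one h1]
  · push Not at h1
    obtain ⟨u, rfl, h1⟩ := h1
    simp [ip, ipA, matT, van_le hv hT hx (by linarith)]

end Gr

open Gr in
/-- **GRC** -/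
theorem grc {M : Type*} {T : TD M} (hR : REG T) : GRC T := by
  intro h g κ _ ψ v T1 σ hσ hσ2 hg hψ
  refine ⟨max T1 (max 0 (-Real.log (T.r / 4))), fun T0 hT0 P Ψ hP hΨ z hz => ?_⟩
  have hT : T1 ≤ T0 := (le_max_left _ _).trans hT0
  have hb : Big T T0 := ⟨(le_max_left _ _).trans ((le_max_right _ _).trans hT0),
    (le_max_right _ _).trans ((le_max_right _ _).trans hT0)⟩
  have cv' : ∀ (k : ℕ) (i : CI T v) (y : E4), Continuous fun x : Cel (CI T v) k => x.val i y :=
    fun k i y => (Cel.evL i y).continuous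
  have hμ : z.2.2 = cv fun j => (z.2.2 j).re := by
    refine (isClosed_eq (f := fun z : (MC T v 6 × (κ → ℂ)) × (MC T v (6 + 2) × (κ → ℂ)) => z.2.2)
      (g := fun z => cv fun j => (z.2.2 j).re) (by fun_prop)
      (by unfold cv; fun_prop)).closure_subset_iff.2 ?_ hz
    rintro z' ⟨F, w, θ, μ, -, -, -, -, -, -, -, -, -, e⟩
    simp only [mem_ofPred_eq, e, cv, Complex.ofReal_re]
  refine ⟨map_mem_closure (f := fun z : (MC T v 6 × (κ → ℂ)) × (MC T v (6 + 2) × (κ → ℂ)) => z.2.1)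
    (by fun_prop) hz ?_, _, hμ, fun i y hy hi a b => ?_, fun w hw l => ⟨fun j => ?_, ?_, ?_⟩⟩
  · rintro z' ⟨F, w, θ, μ, -, -, hw, -, -, -, -, -, l, -⟩
    exact ⟨_, sec_zt h hb hw, l⟩
  · refine (isClosed_eq
      (f := fun z : (MC T v 6 × (κ → ℂ)) × (MC T v (6 + 2) × (κ → ℂ)) => (P z.2.1 a b).val i y)
      (g := fun z => (z.1.1 a b).val i y + ∑ j, ((z.2.2 j).re : ℂ) * (Ψ j a b).val i y)
      ((cv' _ i y).comp (by fun_prop)) (((cv' _ i y).comp (by fun_prop)).add
        (by fun_prop))).closure_subset_iff.2 ?_ hz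
    rintro z' ⟨F, w, θ, μ, -, -, hw, -, he, -, lF, -, l, e⟩
    have e1 := hP _ _ (sec_zt h hb hw) l i a b y hy
    have e2 : Pop (gb T g T0 v i.1.1) (fun x => zt T v T0 i.1.1 x • w i.1.1 x) (cpt T i y) = _ :=
      (Pop_congr EventuallyEq.rfl ((zt_ev (cpt_mem i hy) hi).mono fun x hx => by
        simp only [hx, one_smul])).trans (he _ _ (cpt_mem i hy))
    simp only [mem_ofPred_eq, e, cv, Complex.ofReal_re]
    rw [e1, lF i a b y hy, Finset.sum_congr rfl fun j _ => by rw [hΨ j i a b y hy]]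
    simp only [e2, Matrix.add_apply, Matrix.sum_apply, Matrix.smul_apply, smul_eq_mul]
    push_cast
    rw [mul_add, Finset.mul_sum]
    exact congrArg _ (Finset.sum_congr rfl fun j _ => by ring)
  · obtain ⟨C, hC⟩ := (hR h v 8).2 g (ψ j) T1 hg (hψ j).1 (hψ j).2
    refine clos_eq hz (f := fun z => z.1.2 j) (p := fun z => z.2.1) (by fun_prop) (by fun_prop)
      (C := C) ?_
    rintro z' ⟨F, w', θ, μ, -, -, hw', -, -, hp, -, e, l', -⟩
    have s' := secN_of_sec (sec_zt h hb hw') 0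
    have k := hC _ _ (secN_sub (secN_zero hw) s') (lf_sub l l')
    have k2 := k.2 _ s'
    rw [sub_add_cancel, pair_zt h (hψ j).2 hT, hp j] at k2
    rw [e, cv, ← Complex.ofReal_sub, Complex.norm_real, k2, add_sub_cancel_right]
    exact k.1
  · intro a b k
    refine clos_eq hz (f := fun _ => 0) (p := fun z => z.2.1) continuous_const (by fun_prop)
      (C := 165) ?_
    rintro z' ⟨F, w', θ, μ, -, hF, hw', hG, he, -, -, -, l', -⟩
    have s1 : sgn T v v = 1 := if_pos rfl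
    have H := fun x (hx : x ∈ An (Ioi (29 / 10))) => unit_harm h hb (Or.inl rfl) hT
      (fun j => (hψ j).2) hF hw' he hx.1 (by rw [s1, one_mul]; exact le_of_lt hx.2) a b
    obtain ⟨C, hC⟩ := unit_grw h hb (Or.inl rfl) hG a b
    have := (amp_near h hb (Or.inl rfl) hw hw' l l' a b k).1
    rwa [s1, one_mul, pm_zero_of_decay hσ (fun x hx => (H x hx).1.contDiffWithinAt)
      (fun x hx => (H x hx).2) (fun x hx => hC x hx.1 (by
        rw [s1, one_mul]; linarith [mem_Ioi.1 hx.2])) k (by norm_num)] at this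
  · intro u hk a b k
    refine clos_eq hz (f := fun _ => 0) (p := fun z => z.2.1) continuous_const (by fun_prop)
      (C := 165) ?_
    rintro z' ⟨F, w', θ, μ, -, hF, hw', hG, he, -, -, -, l', -⟩
    have s1 : sgn T v u = -1 := if_neg (h.kid_ne hk)
    have H := fun x (hx : x ∈ An (Iio (-(29 / 10)))) => unit_harm h hb (Or.inr hk) hT
      (fun j => (hψ j).2) hF hw' he hx.1 (by rw [s1]; linarith [mem_Iio.1 hx.2]) a b
    obtain ⟨C, hC⟩ := unit_grw h hb (Or.inr hk) hG a b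
    have := (amp_near h hb (Or.inr hk) hw hw' l l' a b k).2
    rwa [s1, neg_one_mul, qm_zero_of_growth hσ2 (fun x hx => (H x hx).1.contDiffWithinAt)
      (fun x hx => (H x hx).2) (fun x hx => hC x hx.1 (by
        rw [s1]; linarith [mem_Iio.1 hx.2])) k (by norm_num)] at this

end Crest.Agent.N207.CB

end
end

-- ▼ part N207/CB/Anx2
section

/-!
# Row 207, block L, leaf ANX (helper80): `anx : ANA → REG T → ANX T`
-/

set_option autoImplicit false

open scoped ContDiff
open Metric Set Filter Topology MeasureTheory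
open Crest.GeometryTopology.CoordMetric
open Crest.Agent.NLib.Ell Crest.Agent.N207.I Crest.Agent.N207.J

noncomputable section

namespace Crest.Agent.N207.CB

namespace Ax

variable {M : Type*} {T : TD M} {v : T.V} {k : ℕ}

open Classical in
/-- the value at the centre of a cell -/
def ptv (v : T.V) (k : ℕ) (s : T.S) (x : E4) : Cel (CI T v) k →L[ℂ] ℂ :=
  if h : x ∈ T.cK v s then Cel.evL ⟨(s, x), h⟩ 0 else 0

theorem ptv_eq {s : T.S} {x : E4} (h : x ∈ T.cK v s) (W : Cel (CI T v) k) :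
    ptv v k s x W = W.val ⟨(s, x), h⟩ 0 := by rw [ptv, dif_pos h]; rfl

theorem ptv_lf {w : Fam T} {W : MC T v k} (hw : Lf T 0 w W) {s : T.S} {x : E4}
    (h : x ∈ T.cK v s) (a b : Fin 4) : ptv v k s x (W a b) = ((w s x a b : ℝ) : ℂ) := by
  rw [ptv_eq h, hw ⟨(s, x), h⟩ a b 0 (mem_ball_self one_pos)]
  simp [cpt]

/-- the elements of `XC` are compatible on the overlaps of the cells -/
theorem compat {W : MC T v k} (hW : W ∈ XC T v k 0) (i : CI T v) {y : E4} (hy : y ∈ B1)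
    (h : cpt T i y ∈ T.cK v i.1.1) (a b : Fin 4) :
    (W a b).val i y = ptv v k i.1.1 (cpt T i y) (W a b) := by
  let φ : MC T v k →L[ℂ] ℂ := (Cel.evL i y - ptv v k i.1.1 (cpt T i y)) ∘L
    (ContinuousLinearMap.proj b ∘L ContinuousLinearMap.proj a)
  have key : XC T v k 0 ≤ LinearMap.ker φ.toLinearMap := Submodule.span_le.2
    (closure_minimal (by
      rintro W ⟨w, -, hw⟩
      show (W a b).val i y - ptv v k i.1.1 (cpt T i y) (W a b) = 0
      rw [ptv_lf hw h, hw i a b y hy]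
      simp) φ.isClosed_ker)
  exact sub_eq_zero.1 (key hW)

variable {u : T.V} {e : ℝ} {I : Set ℝ}

theorem pb (hI : IsOpen I) (he : 0 < e) (hK : ∀ x ∈ An I, e • x ∈ T.cK v (Sum.inr u))
    {W : MC T v k} (hW : W ∈ XC T v k 0) (a b : Fin 4) {x : E4} (hx : x ∈ An I) :
    J.PB k (fun z => ptv v k (Sum.inr u) (e • z) (W a b)) x (32 ^ k * ‖W‖) := by
  have hn := norm_pos_iff.2 hx.1
  let i : CI T v := ⟨(Sum.inr u, e • x), hK x hx⟩
  have hc : ContinuousAt (fun z : E4 => (8 / ‖x‖) • (z - x)) x := by fun_prop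
  have h0 : (8 / ‖x‖) • (x - x) = 0 := by simp
  have ev : (fun z => ptv v k (Sum.inr u) (e • z) (W a b)) =ᶠ[𝓝 x]
      fun z => (W a b).val i ((8 / ‖x‖) • (z - x)) := by
    filter_upwards [An_mem_nhds hI hx, hc.preimage_mem_nhds (t := B1)
      (h0 ▸ ball_mem_nhds _ one_pos)] with z hz hz'
    have e1 : cpt T i ((8 / ‖x‖) • (z - x)) = e • z := by
      show e • x + (‖e • x‖ / 8) • (8 / ‖x‖) • (z - x) = _
      rw [smul_smul, norm_smul, Real.norm_of_nonneg he.le,
        show e * ‖x‖ / 8 * (8 / ‖x‖) = e by field_simp, smul_sub, add_sub_cancel]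
    rw [compat hW i hz' (e1 ▸ hK z hz), e1]
  have hck := ((W a b).cka i).mono ((norm_le_pi_norm (W a) b).trans (norm_le_pi_norm W a))
  refine ⟨ContDiffAt.congr_of_eventuallyEq ?_ ev, fun j hj => ?_⟩
  · exact ContDiffAt.comp (g := (W a b).val i) x (h0 ▸ ((W a b).contDiffOn i).contDiffAt
      (ball_mem_nhds _ one_pos)) (by fun_prop)
  · rw [(ev.iteratedFDeriv ℝ j).eq_of_nhds,
      iteratedFDeriv_comp_sub (f := fun z => (W a b).val i ((8 / ‖x‖) • z))]
    have h1 := norm_iter_smul ((W a b).val i) (c := 8 / ‖x‖) (by positivity) j (x - x)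
    have h2 := ((hck.of_le hj).ho_iter isOpen_ball).bdd 0 (mem_ball_self one_pos)
    rw [h0] at h1
    calc _ ≤ ‖x‖ ^ j * ((8 / ‖x‖) ^ j * (((4 : ℕ) : ℝ) ^ j * ‖W‖)) := by
          gcongr; exact h1.trans (by gcongr)
      _ = 32 ^ j * ‖W‖ := by
          rw [← mul_assoc, ← mul_assoc, ← mul_pow, ← mul_pow]
          congr 2; push_cast; field_simp; norm_num
      _ ≤ _ := by gcongr; norm_num

theorem ev_real (hI : IsOpen I) (hK : ∀ x ∈ An I, e • x ∈ T.cK v (Sum.inr u))
    {w : Fam T} {W : MC T v k} (hw : Lf T 0 w W) (a b : Fin 4) {x : E4} (hx : x ∈ An I) :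
    (fun z => ptv v k (Sum.inr u) (e • z) (W a b)) =ᶠ[𝓝 x]
      cf (fun z => w (Sum.inr u) (e • z)) a b := by
  filter_upwards [An_mem_nhds hI hx] with z hz using ptv_lf hw (hK z hz) a b

theorem inv (hT : T.Ok) (hK : ∀ x ∈ An I, e • x ∈ T.cK v (Sum.inr u)) {w : Fam T}
    (hw : SecN T v 8 w) : Inv (T.Γ u) 2 (An I) fun z => w (Sum.inr u) (e • z) := by
  have hU : ∀ x ∈ An I, e • x ∈ (T.core v).U (Sum.inr u) := fun x hx =>
    (hT.core_pou v).sub _ (hK x hx)
  have ho := hT.core_ok v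
  refine ⟨fun a b => ((hw.sm _ a b).of_le (by norm_cast)).comp (by fun_prop) hU,
    fun x hx => hw.symm _ _ (hU x hx), fun γ hγ x hx => ?_⟩
  have h1 := hw.compat (Sum.inr u) (Sum.inr u) (e • x) γ ⟨hU x hx, ho.inv (Sum.inr u) γ hγ _ (hU x hx),
    Eventually.of_forall fun z => γ.contDiff.contDiffAt, by
      filter_upwards [(ho.isOpen _).mem_nhds (hU x hx)] with z hz
      exact ((ho.fib _ z hz _ (ho.inv (Sum.inr u) γ hγ z hz)).2 ⟨γ, hγ, rfl⟩).symm⟩
  ext a b
  have h2 : w (Sum.inr u) (e • x) a b = pullM γ (w (Sum.inr u)) (e • x) a b := congrFun h1 ![a, b]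
  rw [h2, pullM_iso, pullM_iso, map_smul]

theorem b2 (hT : T.Ok) (hI : IsOpen I) (he : 0 < e)
    (hK : ∀ x ∈ An I, e • x ∈ T.cK v (Sum.inr u)) {w : Fam T} (hs : SecN T v 8 w) {W : MC T v 8}
    (hW : W ∈ XC T v 8 0) (hw : Lf T 0 w W) :
    B2 (An I) (32 ^ 8 * ‖W‖) fun z => w (Sum.inr u) (e • z) := by
  intro x hx j hj a b
  have h1 := (pb hI he hK hW a b hx).2 j (by omega)
  rw [((ev_real hI hK hw a b hx).iteratedFDeriv ℝ j).eq_of_nhds] at h1
  rwa [← Complex.ofRealLI.norm_iteratedFDeriv_comp_left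
    (((inv hT hK hs).sm a b).contDiffAt (An_mem_nhds hI hx)) (by exact_mod_cast hj)]

theorem amp (hA : ANA) : ∃ C : ℝ, 0 < C ∧ ∀ {M : Type*} {T : TD M} {v u : T.V} {e : ℝ} {I : Set ℝ},
    IsOpen I → 0 < e → (∀ x ∈ An I, e • x ∈ T.cK v (Sum.inr u)) → ∀ t ∈ I,
    ∃ (AQ AP : XC T v 8 0 →L[ℂ] DD) (c : XC T v 8 0 →L[ℂ] MtC), ‖AQ‖ ≤ C ∧ ‖AP‖ ≤ C ∧ ‖c‖ ≤ C ∧
      ∀ (W : XC T v 8 0) (w : Fam T), Lf T 0 w W.1 → ∀ a b,
        (∀ k, L.trD 1 (AQ W (a, b)) k = qm (cf (fun z => w (Sum.inr u) (e • z)) a b) k t) ∧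
        (∀ k, L.trD 1 (AP W (a, b)) k = pm (cf (fun z => w (Sum.inr u) (e • z)) a b) k t) ∧
        pm (cf (fun z => w (Sum.inr u) (e • z)) a b) 0 t = toH (c W a b • 1) := by
  obtain ⟨C, hC, h⟩ := hA
  refine ⟨C * 32 ^ 8, by positivity, fun {M T v u e I} hI he hK t ht => ?_⟩
  have hK0 : ((32 ^ 8 : ℝ) : ℂ) ≠ 0 := by norm_num
  have h1 := fun a b => h (XC T v 8 0) (fun W z => ptv v 8 (Sum.inr u) (e • z)
    ((((32 ^ 8 : ℝ) : ℂ)⁻¹ • W).1 a b)) t (fun W o => (pb hI he hK (Subtype.prop _) a b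
      (polar_mem_An ht o)).mono le_rfl (le_of_eq (by
        rw [Submodule.coe_norm, Submodule.coe_smul, norm_smul, norm_inv, Complex.norm_real,
          Real.norm_of_nonneg (by positivity), mul_inv_cancel_left₀ (by positivity)])))
    (fun W W' x _ => by rw [smul_add, ← map_add]; rfl)
    (fun c W x _ => by rw [smul_comm, ← smul_eq_mul c, ← map_smul]; rfl)
  choose AQ AP c hQ hP hc h1 using h1
  have nb : ∀ {Y : Type} [NormedAddCommGroup Y] [NormedSpace ℂ Y] (A : XC T v 8 0 →L[ℂ] Y),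
      ‖A‖ ≤ C → ∀ W, ‖A (((32 ^ 8 : ℝ) : ℂ) • W)‖ ≤ C * 32 ^ 8 * ‖W‖ := fun A hA W => by
    refine (A.le_of_opNorm_le hA _).trans (le_of_eq ?_)
    rw [norm_smul, Complex.norm_real, Real.norm_of_nonneg (by positivity), mul_assoc]
  let sc : XC T v 8 0 →L[ℂ] XC T v 8 0 := ((32 ^ 8 : ℝ) : ℂ) • ContinuousLinearMap.id ℂ _
  refine ⟨ContinuousLinearMap.pi fun p => AQ p.1 p.2 ∘L sc,
    ContinuousLinearMap.pi fun p => AP p.1 p.2 ∘L sc,
    ContinuousLinearMap.pi fun a => ContinuousLinearMap.pi fun b => c a b ∘L sc,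
    ContinuousLinearMap.opNorm_le_bound _ (by positivity) fun W =>
      (pi_norm_le_iff_of_nonneg (by positivity)).2 fun p => nb _ (hQ _ _) W,
    ContinuousLinearMap.opNorm_le_bound _ (by positivity) fun W =>
      (pi_norm_le_iff_of_nonneg (by positivity)).2 fun p => nb _ (hP _ _) W,
    ContinuousLinearMap.opNorm_le_bound _ (by positivity) fun W =>
      (pi_norm_le_iff_of_nonneg (by positivity)).2 fun a =>
        (pi_norm_le_iff_of_nonneg (by positivity)).2 fun b => nb _ (hc _ _) W,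
    fun W w hw a b => ?_⟩
  have h2 := h1 a b (((32 ^ 8 : ℝ) : ℂ) • W)
  have h3 := fun o : S3 => ev_real hI hK hw a b (polar_mem_An ht o)
  simp only [inv_smul_smul₀ hK0, pm_congr h3, qm_congr h3] at h2
  exact h2

theorem cK_out {T0 : ℝ} (h0 : 0 ≤ T0) {x : E4} (hx : x ∈ An (Ioo (1 / 2) (7 / 2))) :
    Real.exp (sgn T v v * T0) • x ∈ T.cK v (Sum.inr v) := by
  have h1 := Real.add_one_le_exp (T0 + Real.log ‖x‖)
  rw [Real.exp_add, Real.exp_log (norm_pos_iff.2 hx.1)] at h1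
  rw [TD.mem_cK_out, sgn, if_pos rfl, one_mul, norm_smul, Real.norm_eq_abs, Real.abs_exp]
  linarith [hx.2.1]

theorem cK_inn (hT : T.Ok) (hk : T.kid v u) {T0 : ℝ} (h0 : -Real.log (T.r / 2) ≤ T0) {x : E4}
    (hx : x ∈ An (Ioo (-(7 / 2)) (-(1 / 2)))) :
    Real.exp (sgn T v u * T0) • x ∈ T.cK v (Sum.inr u) := by
  have hn := norm_pos_iff.2 hx.1
  have hr := hT.r_pos
  have h1 : Real.exp (-T0 + Real.log ‖x‖) ≤ Real.exp (Real.log (T.r / 2)) :=
    Real.exp_le_exp.2 (by linarith [hx.2.2])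
  rw [Real.exp_add, Real.exp_log hn, Real.exp_log (by positivity)] at h1
  rw [TD.mem_cK_inn (hT.kid_ne hk), sgn, if_neg (hT.kid_ne hk), neg_one_mul, norm_smul,
    Real.norm_eq_abs, Real.abs_exp]
  exact ⟨hk, by positivity, by linarith⟩

theorem cf_add (h : MetricField 4) (c : Mt) (a b : Fin 4) :
    cf (fun x => h x + c) a b = fun x => cf h a b x + ((c a b : ℝ) : ℂ) := by
  funext x; simp [cf]

end Ax

open Ax in
theorem anx {M : Type*} (T : TD M) (hA : ANA) (hR : REG T) : ANX T := by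
  intro hT
  obtain ⟨C, hC, h⟩ := amp hA
  have hl : 0 ≤ -Real.log (T.r / 2) := by
    have := Real.log_nonpos (x := T.r / 2) (by linarith [hT.r_pos]) (by linarith [hT.r_lt])
    linarith
  have hb : ∀ {S : Set E4} {h : MetricField 4} {N : ℝ}, 0 ≤ N → B2 S (32 ^ 8 * N) h →
      B2 S ((C + 32 ^ 8) * N) h := fun hN hh x hx j hj a b =>
    (hh x hx j hj a b).trans (by gcongr; linarith)
  have hC' : C ≤ C + 32 ^ 8 := le_add_of_nonneg_right (by positivity)
  refine ⟨C + 32 ^ 8, -Real.log (T.r / 2), by positivity, fun T0 h0 =>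
    ⟨fun v => ?_, fun v u hk => ?_⟩⟩
  · have hK := fun x => cK_out (T := T) (v := v) (hl.trans h0) (x := x)
    obtain ⟨A, _, _, h1, -, -, h2⟩ := h isOpen_Ioo (Real.exp_pos _) hK 1 (by norm_num)
    exact ⟨A, h1.trans hC', fun W w hs hw => ⟨fun a b => (h2 W w hw a b).1, inv hT hK hs,
      hb (norm_nonneg _) (b2 hT isOpen_Ioo (Real.exp_pos _) hK hs W.2 hw)⟩⟩
  · have hK := fun x => cK_inn hT hk h0 (x := x)
    have m1 : (-1 : ℝ) ∈ Ioo (-(7 / 2) : ℝ) (-(1 / 2)) := by norm_num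
    have m3 : (-3 : ℝ) ∈ Ioo (-(7 / 2) : ℝ) (-(1 / 2)) := by norm_num
    obtain ⟨_, A, _, -, h1, -, h2⟩ := h isOpen_Ioo (Real.exp_pos _) hK (-1) m1
    obtain ⟨_, _, c, -, -, h3, h4⟩ := h isOpen_Ioo (Real.exp_pos _) hK (-3) m3
    have cd : ∀ w, SecN T v 8 w → ∀ a b, ∀ t ∈ Ioo (-(7 / 2) : ℝ) (-(1 / 2)), ∀ o : S3,
        ContDiffAt ℝ (1 : ℕ) (fun x => unit T v u T0 w x a b) (Real.exp t • (o : E4)) :=
      fun w hs a b t ht o => (((inv hT hK hs).sm a b).contDiffAt
        (An_mem_nhds isOpen_Ioo (polar_mem_An ht o))).of_le (by norm_cast)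
    have ct : ∀ w, SecN T v 8 w → ∀ a b, ∀ t ∈ Ioo (-(7 / 2) : ℝ) (-(1 / 2)), ∀ o : S3,
        ContinuousAt (cf (unit T v u T0 w) a b) (Real.exp t • (o : E4)) :=
      fun w hs a b t ht o => (cda_ofReal (cd w hs a b t ht o)).continuousAt
    have key : ∀ (W : XC T v 8 0) w, SecN T v 8 w → Lf T 0 w W.1 → ∃ c' : Mt, Adm T u c' ∧
        c W = cm c' ∧ ∀ a b, pm (cf (unit T v u T0 w) a b) 0 (-3) = toH (cm c' a b • 1) := by
      intro W w hs hw
      have h5 := mn_inv isOpen_Ioo m3 (inv hT hK hs)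
      have h6 := fun a b => pm_zero_eq (cd w hs a b _ m3)
      exact ⟨_, ⟨h5.1, h5.2, fun hu => absurd hu hk.1⟩, funext₂ fun a b =>
        toH_const_inj ((h4 W w hw a b).2.2.symm.trans (h6 a b)), h6⟩
    have hS : ∀ W : XC T v 8 0, c W ∈ SC T u := fun ⟨W, hW⟩ => by
      induction hW using Submodule.span_induction with
      | mem W hW =>
        obtain ⟨w, hs, hw⟩ := (hR hT v 8).1 W hW
        obtain ⟨c', h5, h6, -⟩ := key ⟨W, Submodule.subset_span hW⟩ w hs hw
        exact h6 ▸ Submodule.subset_span ⟨c', h5, rfl⟩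
      | zero => exact map_zero c ▸ zero_mem _
      | add W W' hW hW' i1 i2 => exact map_add c ⟨W, hW⟩ ⟨W', hW'⟩ ▸ add_mem i1 i2
      | smul a W hW i1 => exact map_smul c a ⟨W, hW⟩ ▸ Submodule.smul_mem _ a i1
    refine ⟨A, c.codRestrict _ hS, h1.trans hC', ContinuousLinearMap.opNorm_le_bound _
      (by positivity) fun W => c.le_of_opNorm_le (h3.trans hC') W, fun W w hs hw =>
      ⟨inv hT hK hs, hb (norm_nonneg _) (b2 hT isOpen_Ioo (Real.exp_pos _) hK hs W.2 hw), ?_⟩⟩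
    obtain ⟨c', h5, h6, h7⟩ := key W w hs hw
    refine ⟨c', h5, h6, fun a b => ?_, fun c'' => ⟨fun a b k hk => ?_, fun a b k => ?_⟩⟩
    · simp only [sub_eq_add_neg]
      rw [cf_add, pm_add_const_zero (ct w hs a b _ m3), h7]
      simp [cm]
    · rw [cf_add, pm_add_const (ct w hs a b _ m1) _ hk]
      exact (h2 W w hw a b).2.1 k
    · rw [cf_add, qm_add_const (ct w hs a b _ m3)]

end Crest.Agent.N207.CB

end
end

-- ▼ part N207/CB/Glu2
section

/-!
# Row 207, block L, leaf GLU (helper21), part 2: the regions of `glob L`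
-/

set_option autoImplicit false

open scoped ContDiff
open Metric Set Filter Topology MeasureTheory
open Crest.GeometryTopology.CoordMetric
open Crest.Agent.N207.I Crest.Agent.N207.I.TD Crest.Agent.N207.Lg Crest.Agent.N207.J

noncomputable section

namespace Crest.Agent.N207.CB.Gl

theorem log_sm (t : ℝ) {x : E4} (hx : x ≠ 0) : Real.log ‖Real.exp t • x‖ = t + Real.log ‖x‖ := by
  rw [norm_smul, Real.norm_of_nonneg (Real.exp_pos _).le,
    Real.log_mul (Real.exp_pos _).ne' (norm_ne_zero_iff.2 hx), Real.log_exp]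

theorem exp_sm (s t : ℝ) (x : E4) : Real.exp s • Real.exp t • x = Real.exp (s + t) • x := by
  rw [smul_smul, Real.exp_add]

theorem ne_of_lt {c : ℝ} {x : E4} (hc : 0 ≤ c) (h : c < ‖x‖) : x ≠ 0 :=
  norm_pos_iff.1 (hc.trans_lt h)

variable {M : Type*} {T : TD M} {T0 T1 c : ℝ} {L : T.V → ℝ} {v w : T.V} {s : T.S} {x : E4}

/-- numerical assumptions -/
structure Nm (T : TD M) (T0 : ℝ) (L : T.V → ℝ) : Prop where
  ok : T.Ok
  t0 : 1 ≤ T0
  r : Real.exp (-T0) ≤ T.r / 4
  hL : ∀ w, 2 * T0 + 10 ≤ L w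

/-- the part of the chart `s` of `glob L` that lies in the part `tau < c` of `core v` -/
def RR (T : TD M) (T0 : ℝ) (L : T.V → ℝ) (v : T.V) (c : ℝ) (s : T.S) : Set E4 :=
  {x | sc (lm L) s v • x ∈ UR T v T0 c s}

/-- the extended neck -/
def NN (T : TD M) (T0 : ℝ) (L : T.V → ℝ) (w : T.V) : Set E4 :=
  {x | Real.exp (-T0) • x ∈ An (nI T T0 L w)}

theorem tau_out (x : E4) : tau T w w T0 x = Real.log ‖x‖ - T0 := by simp [tau]

theorem tau_inn (h : w ≠ v) (x : E4) : tau T v w T0 x = -Real.log ‖x‖ - T0 := by simp [tau, h]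

theorem sc_out : sc (lm L) (Sum.inr w : T.S) w = 1 := by simp [sc, lm]

theorem sc_inn (h : w ≠ v) : sc (lm L) (Sum.inr w : T.S) v = Real.exp (-L w) := by simp [sc, lm, h]

theorem sc_pos : 0 < sc (lm L) s v := by
  rcases s with a | w
  · exact one_pos
  · simp only [sc, lm, Sum.elim_inr]; split_ifs; exacts [one_pos, Real.exp_pos _]

theorem mem_UR_inl {a : T.B} : x ∈ UR T v T0 c (Sum.inl a) ↔ T.vx a = v ∧ ‖x‖ < 2 := by
  simp [UR, mem_core_inl]

theorem mem_UR_inr : x ∈ UR T v T0 c (Sum.inr w) ↔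
    x ∈ (T.core v).U (Sum.inr w) ∧ tau T v w T0 x < c := by simp [UR]

theorem mem_NN : x ∈ NN T T0 L w ↔ x ≠ 0 ∧ T0 + 1 < Real.log ‖x‖ ∧
    (w ≠ T.root → Real.log ‖x‖ < L w - T0 - 1) := by
  by_cases hx : x = 0
  · simp [NN, An, hx]
  simp only [NN, An, mem_ofPred_eq, log_sm _ hx, ne_eq, smul_eq_zero, (Real.exp_pos _).ne', hx,
    or_self, not_false_eq_true, true_and, nI]
  split_ifs with hw
  · simp only [mem_Ioi, hw, not_true_eq_false, IsEmpty.forall_iff, and_true]
    constructor <;> intro <;> linarith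
  · simp only [mem_Ioo, hw, not_false_eq_true, forall_const]
    constructor <;> rintro ⟨_, _⟩ <;> constructor <;> linarith

theorem UR_open (h : T.Ok) : IsOpen (UR T v T0 c s) := by
  refine isOpen_iff_mem_nhds.2 fun x hx => ?_
  have h1 := ((h.core_ok v).isOpen s).mem_nhds hx.1
  rcases s with a | w
  · filter_upwards [h1] with z hz using ⟨hz, fun _ e => nomatch e⟩
  · filter_upwards [h1, (tau_sm v w T0 ((h.str_core v).ne w x hx.1)).continuousAt.eventually
      (gt_mem_nhds (hx.2 w rfl))] with z h2 h3 using mem_UR_inr.2 ⟨h2, h3⟩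

theorem RR_open (h : T.Ok) : IsOpen (RR T T0 L v c s) :=
  (UR_open h).preimage (continuous_const_smul _)

theorem An_open : IsOpen (An (nI T T0 L w)) := by
  refine isOpen_An ?_
  unfold nI; split_ifs
  exacts [isOpen_Ioi, isOpen_Ioo]

theorem NN_open : IsOpen (NN T T0 L w) := An_open.preimage (continuous_const_smul _)

theorem RR_mono {c' : ℝ} (h : c ≤ c') : RR T T0 L v c s ⊆ RR T T0 L v c' s :=
  fun _ hx => ⟨hx.1, fun u e => (hx.2 u e).trans_le h⟩

/-- the three kinds of points -/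
theorem RR_cases (h : T.Ok) : x ∈ RR T T0 L v c s ↔
    (∃ a, s = Sum.inl a ∧ T.vx a = v ∧ ‖x‖ < 2) ∨
    (s = Sum.inr v ∧ 1 < ‖x‖ ∧ Real.log ‖x‖ < T0 + c) ∨
    ∃ w, s = Sum.inr w ∧ w ≠ T.root ∧ T.par w = v ∧ x ≠ 0 ∧ ‖x‖ < T.r * Real.exp (L w) ∧
      L w - T0 - c < Real.log ‖x‖ := by
  rcases s with a | w
  · simp [RR, sc, mem_UR_inl]
  by_cases hw : w = v
  · subst hw
    simp only [RR, sc_out, one_smul, mem_ofPred_eq, mem_UR_inr, mem_core_out, tau_out,
      sub_lt_iff_lt_add', reduceCtorEq, false_and, exists_false, true_and, false_or, Sum.inr.injEq,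
      exists_eq_left']
    exact (or_iff_left fun k => h.par_ne k.1 k.2.1.symm).symm
  · simp only [RR, sc_inn hw, mem_ofPred_eq, mem_UR_inr, mem_core_inn hw, tau_inn hw, nrm_exp_lt,
      reduceCtorEq, false_and, exists_false, false_or, Sum.inr.injEq, hw, exists_eq_left', kid,
      norm_pos_iff, and_assoc, ne_eq, smul_eq_zero, (Real.exp_pos _).ne']
    refine and_congr_right fun _ => and_congr_right fun _ => and_congr_right fun hx =>
      and_congr_right fun _ => ?_
    rw [log_sm _ hx]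
    constructor <;> intro <;> linarith

namespace Nm

variable (n : Nm T T0 L)
include n

theorem le_r (w : T.V) {t : ℝ} (ht : t ≤ L w - T0) : Real.exp t ≤ T.r / 4 * Real.exp (L w) :=
  calc Real.exp t ≤ Real.exp (-T0) * Real.exp (L w) := by
        rw [← Real.exp_add]; exact Real.exp_le_exp.2 (by linarith)
    _ ≤ _ := by gcongr; exact n.r

omit n in
theorem four_le {t : ℝ} (ht : 2 ≤ t) : 4 ≤ Real.exp t := by
  have := Real.quadratic_le_exp_of_nonneg (show 0 ≤ t by linarith)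
  nlinarith

theorem long : T.Long L := fun w _ => by
  have := n.le_r w (t := 2) (by linarith [n.hL w, n.t0])
  linarith [four_le (le_refl 2)]

theorem lt_r (hx : x ≠ 0) (h : Real.log ‖x‖ ≤ L w - T0) : ‖x‖ ≤ T.r / 4 * Real.exp (L w) :=
  ((Real.log_le_iff_le_exp (norm_pos_iff.2 hx)).1 le_rfl).trans (n.le_r w h)

omit n in
theorem four_le' (hx : x ≠ 0) (h : 2 ≤ Real.log ‖x‖) : 4 ≤ ‖x‖ :=
  (four_le h).trans_eq (Real.exp_log (norm_pos_iff.2 hx))

theorem R_U (hx : x ∈ RR T T0 L v 2 s) : x ∈ (T.glob L).U s := by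
  rcases (RR_cases n.ok).1 hx with ⟨a, rfl, -, h1⟩ | ⟨rfl, h1, h2⟩ | ⟨w, rfl, -, -, h1, h2, h3⟩
  · exact mem_glob_inl.2 h1
  · have := n.lt_r (w := v) (ne_of_lt zero_le_one h1) (by linarith [n.hL v])
    exact ⟨h1, fun _ => by linarith [mul_pos n.ok.r_pos (Real.exp_pos (L v))]⟩
  · exact ⟨by linarith [four_le' h1 (by linarith [n.hL w, n.t0])], fun _ => h2⟩

theorem N_U (hx : x ∈ NN T T0 L w) : x ∈ (T.glob L).U (Sum.inr w) := by
  obtain ⟨h1, h2, h3⟩ := mem_NN.1 hx
  refine ⟨by linarith [four_le' h1 (by linarith [n.t0])], fun hw => ?_⟩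
  have := n.lt_r (w := w) h1 (by linarith [h3 hw])
  linarith [mul_pos n.ok.r_pos (Real.exp_pos (L w))]

theorem cover (hx : x ∈ (T.glob L).U s) : (∃ v, x ∈ RR T T0 L v 1 s) ∨ ∃ w, s = Sum.inr w ∧
    (x ∈ NN T T0 L w ∨ (x ∈ RR T T0 L w 2 s ∧ ‖x‖ = Real.exp (T0 + 1)) ∨
      (x ∈ RR T T0 L (T.par w) 2 s ∧ ‖x‖ = Real.exp (L w - T0 - 1))) := by
  simp only [RR_cases n.ok, mem_NN]
  rcases s with a | w
  · exact .inl ⟨_, .inl ⟨a, rfl, rfl, mem_glob_inl.1 hx⟩⟩
  have h0 := ne_of_lt zero_le_one hx.1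
  have e := (Real.exp_log (norm_pos_iff.2 h0)).symm
  rcases lt_trichotomy (Real.log ‖x‖) (T0 + 1) with h1 | h1 | h1
  · exact .inl ⟨w, .inr (.inl ⟨rfl, hx.1, h1⟩)⟩
  · exact .inr ⟨w, rfl, .inr (.inl ⟨.inr (.inl ⟨rfl, hx.1, by linarith⟩), h1 ▸ e⟩)⟩
  by_cases hw : w = T.root
  · exact .inr ⟨w, rfl, .inl ⟨h0, h1, fun k => absurd hw k⟩⟩
  rcases lt_trichotomy (Real.log ‖x‖) (L w - T0 - 1) with h2 | h2 | h2
  · exact .inr ⟨w, rfl, .inl ⟨h0, h1, fun _ => h2⟩⟩
  · exact .inr ⟨w, rfl, .inr (.inr ⟨.inr (.inr ⟨w, rfl, hw, rfl, h0, hx.2 hw, by linarith⟩), h2 ▸ e⟩)⟩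
  · exact .inl ⟨_, .inr (.inr ⟨w, rfl, hw, rfl, h0, hx.2 hw, h2⟩)⟩

theorem cover' (hx : x ∈ (T.glob L).U s) :
    (∃ v, x ∈ RR T T0 L v 2 s) ∨ ∃ w, s = Sum.inr w ∧ x ∈ NN T T0 L w := by
  rcases n.cover hx with ⟨v, h⟩ | ⟨w, e, h | h | h⟩
  exacts [.inl ⟨v, RR_mono one_le_two h⟩, .inr ⟨w, e, h⟩, .inl ⟨_, h.1⟩, .inl ⟨_, h.1⟩]

theorem R_uniq {v' : T.V} (hx : x ∈ RR T T0 L v 2 s) (hx' : x ∈ RR T T0 L v' 2 s) : v = v' := by
  rcases (RR_cases n.ok).1 hx with ⟨a, rfl, rfl, -⟩ | ⟨rfl, -, h2⟩ | ⟨w, rfl, -, rfl, -, -, h3⟩ <;>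
    rcases (RR_cases n.ok).1 hx' with ⟨a, e, rfl, -⟩ | ⟨e, -, k2⟩ | ⟨w, e, -, rfl, -, -, k3⟩ <;>
    cases e <;> first | rfl | (exfalso; linarith [n.hL ‹T.V›])

theorem R_N (hx : x ∈ RR T T0 L v 1 (Sum.inr w)) : x ∉ NN T T0 L w := fun hx' => by
  obtain ⟨-, h2, h3⟩ := mem_NN.1 hx'
  rcases (RR_cases n.ok).1 hx with ⟨a, e, -⟩ | ⟨e, -, k2⟩ | ⟨w, e, k1, -, -, -, k3⟩ <;> cases e
  · linarith
  · linarith [h3 k1]

theorem R_χ (hx : x ∈ RR T T0 L v 2 s) (s' : T.S) :
    T.χ s' ((T.glob L).c s x) = T.χ s' ((T.core v).c s (sc (lm L) s v • x)) := by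
  rcases (RR_cases n.ok).1 hx with ⟨a, rfl, -, h1⟩ | ⟨rfl, h1, h2⟩ | ⟨w, rfl, hw, rfl, h1, h2, h3⟩
  · simp only [sc, Sum.elim_inl, one_smul]; rfl
  · rw [sc_out, one_smul, glob_eq_out fun _ =>
      n.lt_r (ne_of_lt zero_le_one h1) (by linarith [n.hL v])]
  · rw [sc_inn (n.ok.par_ne hw)]
    exact n.ok.χ_glob_inn n.long hw (four_le' h1 (by linarith [n.hL w, n.t0])) s'

theorem N_χ (hx : x ∈ NN T T0 L w) : T.χ (Sum.inr w) ((T.glob L).c (Sum.inr w) x) = 1 := by
  obtain ⟨h1, h2, h3⟩ := mem_NN.1 hx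
  refine (n.ok.glob_χ_mid n.long (by linarith [four_le' h1 (by linarith [n.t0])]) (fun hw => ?_)
    _).trans (if_pos rfl)
  have := n.lt_r (w := w) h1 (by linarith [h3 hw])
  linarith [mul_pos n.ok.r_pos (Real.exp_pos (L w))]

theorem eps_eq (hx : x ∈ (T.core v).U s) : T.eps L (T.un s) = T.eps L v * sc (lm L) s v := by
  rcases s with a | w
  · simp [un, sc, (mem_core_inl.1 hx).1]
  by_cases hw : w = v
  · subst hw; simp [un, sc_out]
  · obtain ⟨hk, -⟩ := (mem_core_inn hw).1 hx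
    rw [sc_inn hw, ← hk.2]; exact n.ok.eps_kid L hk.1

theorem base_UR (hx : x ∈ (T.base v).U s) : x ∈ UR T v T0 2 s ∧
    (T.core v).c s x = Sum.inl (v, (T.base v).c s x) := by
  have e : sc (fun _ _ => 1) s v • x = x := by rcases s with a | w <;> exact one_smul _ _
  have := (n.ok.str_core v).conv' (s := s) (x := x) rfl (e.symm ▸ hx)
  rw [e] at this
  refine ⟨⟨this.1, ?_⟩, this.2⟩
  rintro w rfl
  by_cases hw : w = v
  · subst hw
    obtain ⟨h1, h2⟩ := mem_base_out.1 hx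
    rw [tau_out]
    by_contra k
    linarith [four_le' (ne_of_lt zero_le_one h1) (by linarith [n.t0])]
  · obtain ⟨-, h1, -⟩ := (mem_base_inn hw).1 hx
    have := (Real.lt_log_iff_exp_lt (by linarith [n.ok.r_pos])).2 (n.r.trans_lt h1)
    rw [tau_inn hw]; linarith

theorem R_cK {y : E4} (hy : y ∈ RR T T0 L v 2 s) (hx : x ∈ T.gK L s) :
    sc (lm L) s v • x ∈ T.cK v s ∧ rad T s (sc (lm L) s v • x) = sc (lm L) s v * rad T s x ∧
      scl T s (sc (lm L) s v • x) = sc (lm L) s v * scl T s x := by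
  have e : ∀ w, ‖sc (lm L) (Sum.inr w : T.S) v • x‖ = sc (lm L) (Sum.inr w : T.S) v * ‖x‖ :=
    fun w => by rw [norm_smul, Real.norm_of_nonneg sc_pos.le]
  rcases (RR_cases n.ok).1 hy with ⟨a, rfl, h0, -⟩ | ⟨rfl, -⟩ | ⟨w, rfl, hw, rfl, -⟩
  · simpa [sc, rad, scl, mem_cK_inl, h0] using mem_gK_inl.1 hx
  · simpa [sc_out, mem_cK_out] using hx.1
  · refine ⟨?_, by simp only [rad, Sum.elim_inr, e, mul_div_assoc], e w⟩
    rw [sc_inn (n.ok.par_ne hw), mem_cK_inn (n.ok.par_ne hw)]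
    exact ⟨⟨hw, rfl⟩, lt_nrm_exp.2 (by linarith [hx.1]), nrm_exp_le.2 (hx.2 hw)⟩

theorem cell_U {y : E4} (hx : x ∈ T.gK L s) (hy : y ∈ ball x (rad T s x)) : y ∈ (T.glob L).U s := by
  rw [mem_ball, dist_eq_norm] at hy
  have h1 := norm_le_norm_add_norm_sub' y x
  have h2 := norm_le_norm_add_norm_sub y x
  rcases s with a | w
  · simp only [rad, Sum.elim_inl] at hy
    exact mem_glob_inl.2 (by linarith [mem_gK_inl.1 hx])
  · simp only [rad, Sum.elim_inr] at hy
    have := mul_pos n.ok.r_pos (Real.exp_pos (L w))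
    exact ⟨by linarith [hx.1], fun hw => by linarith [hx.2 hw]⟩

end Nm

/-! ### the backgrounds -/

variable {g : T.V → Fam T} {a : T.V → Mt}

theorem gb_one (h : 1 / 10 ≤ tau T v w T0 x) : gb T g T0 v (Sum.inr w) x = 1 := by
  simp only [gb, Sum.elim_inr]
  rw [stp_one (by norm_num) h, sub_self, zero_smul, add_zero]

theorem etC_one (h : 4 / 5 ≤ tau T v w T0 x) : etC T v w T0 x = 1 := stp_one (by norm_num) h

theorem psiA_zero (η : E4 → ℝ) : PsiA η 0 = fun z => z := by funext z; simp [PsiA]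

namespace Nm

variable (n : Nm T T0 L)
include n

theorem tau_par (hw : w ≠ T.root) (hx : x ≠ 0) (t : ℝ) :
    tau T (T.par w) w t (Real.exp (-L w) • x) = L w - Real.log ‖x‖ - t := by
  rw [tau_inn (n.ok.par_ne hw), log_sm _ hx]; ring

theorem R_gb (hx : x ∈ RR T T0 L v 2 s) :
    gbL T g T0 L s x = gb T g T0 v s (sc (lm L) s v • x) := by
  rcases (RR_cases n.ok).1 hx with ⟨a, rfl, rfl, h1⟩ | ⟨rfl, h1, h2⟩ | ⟨w, rfl, hw, rfl, h1, h2, h3⟩
  · simp only [sc, Sum.elim_inl, one_smul]; rfl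
  · simp only [sc_out, one_smul, gbL, Sum.elim_inr]
    split_ifs with hw
    · exact add_zero _
    · rw [gb_one (v := T.par v) (by
        rw [n.tau_par hw (ne_of_lt zero_le_one h1)]; linarith [n.hL v]), sub_self, add_zero]
  · simp only [sc_inn (n.ok.par_ne hw), gbL, Sum.elim_inr, if_neg hw]
    rw [gb_one (v := w) (by rw [tau_out]; linarith [n.hL w]), add_sub_cancel]

theorem N_gb (hx : x ∈ NN T T0 L w) : gbL T g T0 L (Sum.inr w) x = 1 := by
  obtain ⟨h1, h2, h3⟩ := mem_NN.1 hx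
  simp only [gbL, Sum.elim_inr]
  rw [gb_one (v := w) (by rw [tau_out]; linarith)]
  split_ifs with hw
  · exact add_zero _
  · rw [gb_one (by rw [n.tau_par hw h1]; linarith [h3 hw]), sub_self, add_zero]

theorem R_H (ha : a T.root = 0) (hx : x ∈ RR T T0 L v 2 s) :
    gbLA T g T0 L a s x = gbA T g T0 a v s (sc (lm L) s v • x) := by
  have hO := (RR_open n.ok).mem_nhds hx
  rcases s with b | w
  · obtain ⟨rfl, -⟩ := mem_UR_inl.1 hx
    simp only [sc, Sum.elim_inl, one_smul]; rfl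
  simp only [gbLA, gbA, Sum.elim_inr, n.R_gb hx]
  rw [← pullM_dil _ _ _ _ sc_pos.ne']
  congr 2
  refine pullM_congr ?_
  by_cases hw : w = T.root
  · rw [hw, ha, psiA_zero, psiA_zero]
  filter_upwards [hO] with z hz
  simp only [PsiA, etG]
  rcases (RR_cases n.ok).1 hz with ⟨a, e, -⟩ | ⟨e, h1, h2⟩ | ⟨w, e, -, rfl, h1, h2, h3⟩ <;> cases e
  · rw [etC_one (v := T.par v) (by
      rw [n.tau_par hw (ne_of_lt zero_le_one h1)]; linarith [n.hL v]), sc_out, one_smul, mul_one]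
  · rw [etC_one (v := w) (by rw [tau_out]; linarith [n.hL w]), sc_inn (n.ok.par_ne hw), one_mul]

theorem N_H (ha : a T.root = 0) (w : T.V) :
    ∃ A : Mt, ∀ x ∈ NN T T0 L w, gbLA T g T0 L a (Sum.inr w) x = A := by
  let B : E4 →L[ℝ] E4 := 1 + LinearMap.toContinuousLinearMap (Matrix.toEuclideanLin (a w))
  refine ⟨pullM B fl1 0, fun x hx => ?_⟩
  simp only [gbLA, Sum.elim_inr, n.N_gb hx, add_sub_cancel]
  refine (pullM_congr (Φ' := B) ?_).trans (by ext p q; simp only [pullM_lin])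
  filter_upwards [NN_open.mem_nhds hx] with z hz
  obtain ⟨h1, h2, h3⟩ := mem_NN.1 hz
  by_cases hw : w = T.root
  · simp [B, hw, ha, psiA_zero]
  · simp only [PsiA, etG]
    rw [etC_one (by rw [tau_out]; linarith), etC_one (by rw [n.tau_par hw h1]; linarith [h3 hw]),
      one_mul, one_smul]
    rfl

variable {ψ : Fam T}

theorem R_to (hx : x ∈ RR T T0 L v 2 s) : toL T L v ψ s x = ψ s (sc (lm L) s v • x) := by
  rcases (RR_cases n.ok).1 hx with ⟨a, rfl, rfl, h1⟩ | ⟨rfl, h1, h2⟩ | ⟨w, rfl, hw, rfl, h1, h2, h3⟩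
  · simp [toL, sc]
  · simp [toL, sc_out]
  · simp only [toL, Sum.elim_inr, if_neg (n.ok.par_ne hw), sc_inn (n.ok.par_ne hw)]
    exact if_pos ⟨⟨hw, rfl⟩, nrm_exp_lt.2 h2⟩

theorem to_zero (h1 : T1 ≤ T0) (hψ : Van T v T1 0 ψ) (hx : x ∈ (T.glob L).U s)
    (h2 : x ∉ RR T T0 L v 1 s) : toL T L v ψ s x = 0 := by
  rw [RR_cases n.ok] at h2
  rcases s with a | w
  · exact congrFun (if_neg fun e => h2 (.inl ⟨a, rfl, e, mem_glob_inl.1 hx⟩)) x
  simp only [toL, Sum.elim_inr]
  have h0 := ne_of_lt zero_le_one hx.1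
  split_ifs with h3 h4
  · subst h3
    refine hψ w x (mem_core_out.2 hx.1) (le_of_not_gt fun k => h2 (.inr (.inl ⟨rfl, hx.1, ?_⟩)))
    rw [tau_out] at k; linarith
  · obtain ⟨⟨hw, rfl⟩, h4⟩ := h4
    refine hψ w _ ((mem_core_inn h3).2 ⟨⟨hw, rfl⟩, lt_nrm_exp.2 (by linarith [hx.1]), h4⟩)
      (le_of_not_gt fun k => h2 (.inr (.inr ⟨w, rfl, hw, rfl, h0, hx.2 hw, ?_⟩)))
    rw [n.tau_par hw h0] at k; linarith
  · rfl

omit n in
theorem loc_eq (X : Fam T) : loc T L v X s (sc (lm L) s v • x) = X s x := by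
  rcases s with a | w
  · simp [loc, sc]
  by_cases hw : w = v
  · simp [loc, hw, sc_out]
  · simp [loc, hw, sc_inn hw, exp_sm]

end Nm

theorem riem_gbA (h : T.Ok) (hg : (T.core v).IsMet (g v)) (ha : ∀ w p q, |a w p q| ≤ 1 / 100)
    (s : T.S) : IsRiemannianOn (gbA T g T0 a v s) ((T.core v).U s) := by
  rcases s with b | w
  · exact hg.riem _
  have h1 := hg.riem (Sum.inr w)
  have h2 := riemA (T := T) v w T0 (ha w)
  have h0 := (h.str_core v).ne w
  refine ⟨h1.isOpen, fun i j => ?_, fun x hx => ?_⟩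
  · refine (contDiffOn_const.add ((contDiffOn_const.sub fun x hx => ?_).mul
      ((h1.contDiffOn i j).sub contDiffOn_const))).add
      (((h2.contDiffOn i j).mono h0).sub contDiffOn_const)
    exact ((stp_sm _ _).contDiffAt.comp x (tau_sm v w T0 (h0 x hx))).contDiffWithinAt
  simp only [gbA, Sum.elim_inr]
  rcases lt_or_ge (tau T v w T0 x) (1 / 5) with k | k
  · rw [(pullM_congr (Φ' := fun z => z) ?_).trans (pullM_id x), sub_self, add_zero]
    · have a1 : 0 ≤ stp 0 (1 / 10) (tau T v w T0 x) := Real.smoothTransition.nonneg _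
      have a2 : stp 0 (1 / 10) (tau T v w T0 x) ≤ 1 := Real.smoothTransition.le_one _
      simp only [gb, Sum.elim_inr]
      generalize stp 0 (1 / 10) (tau T v w T0 x) = t at a1 a2
      rcases a2.eq_or_lt with rfl | a2
      · simpa using Matrix.PosDef.one
      · convert ((h1.posDef x hx).smul (sub_pos.2 a2)).add_posSemidef
          (Matrix.PosSemidef.one.smul a1) using 1
        module
    · filter_upwards [(tau_sm v w T0 (h0 x hx)).continuousAt.eventually (gt_mem_nhds k)] with z hz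
      rw [PsiA, etC, stp_zero (by norm_num) hz.le, zero_smul, add_zero]
  · rw [gb_one (by linarith), add_sub_cancel]
    exact h2.posDef x (h0 x hx)

end Crest.Agent.N207.CB.Gl

end
end

-- ▼ part N207/CB/Glu3

/-!
# Row 207, block L, leaf GLU (helper21), part 3: the glued solution
-/

set_option autoImplicit false

open scoped ContDiff
open Metric Set Filter Topology MeasureTheory
open Crest.GeometryTopology.CoordMetric
open Crest.Agent.N207.I Crest.Agent.N207.I.TD Crest.Agent.N207.Lg Crest.Agent.N207.J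

noncomputable section

namespace Crest.Agent.N207.CB.Gl

theorem int_dil {S : Set E4} (hS : MeasurableSet S) {t : ℝ} (ht : 0 < t) {F f : E4 → ℝ}
    (hF : IntegrableOn F S) (e : ∀ x, t • x ∈ S → f x = t ^ 2 * F (t • x)) :
    IntegrableOn f {x | t • x ∈ S} ∧ ∫ x in {x | t • x ∈ S}, f x = (t ^ 2)⁻¹ * ∫ x in S, F x := by
  have hS' : MeasurableSet {x : E4 | t • x ∈ S} := measurable_const_smul t hS
  have e' : indicator {x | t • x ∈ S} f = fun x => t ^ 2 * indicator S F (t • x) := by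
    funext x
    by_cases hx : t • x ∈ S
    · rw [indicator_of_mem hx, indicator_of_mem (show x ∈ {x | t • x ∈ S} from hx), e x hx]
    · rw [indicator_of_notMem hx, indicator_of_notMem (show x ∉ {x | t • x ∈ S} from hx), mul_zero]
  rw [← integrable_indicator_iff hS', ← integral_indicator hS', ← integral_indicator hS, e',
    integral_const_mul, Measure.integral_comp_smul_of_nonneg volume (hR := ht.le)]
  refine ⟨(((integrable_indicator_iff hS).2 hF).comp_smul ht.ne').const_mul _, ?_⟩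
  simp only [finrank_euclideanSpace, Fintype.card_fin, smul_eq_mul]
  field_simp

theorem jet_loc {f F : E4 → ℝ} {y : E4} {t : ℝ} (ht : 0 < t) (e : f =ᶠ[𝓝 y] fun z => F (t • z))
    (k : ℕ) : ‖iteratedFDeriv ℝ k f y‖ ≤ t ^ k * ‖iteratedFDeriv ℝ k F (t • y)‖ := by
  rw [(e.iteratedFDeriv ℝ k).eq_of_nhds]; exact norm_iter_smul F ht k y

theorem pull_sc {F : E4 → E4} {x : E4} {A B G1 G2 : MetricField 4} {la lb c : ℝ} (h0 : la ≠ 0)
    (e : matT G1 (la • x) = pullT (fun z => lb • F (la⁻¹ • z)) (matT G2) (la • x))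
    (h1 : A x = (c * la) ^ 2 • G1 (la • x)) (h2 : B (F x) = (c * lb) ^ 2 • G2 (lb • F x)) :
    matT A x = pullT F (matT B) x := by
  have e2 : fderiv ℝ (fun z => lb • F (la⁻¹ • z)) (la • x) = lb • la⁻¹ • fderiv ℝ F x := by
    have := congrFun (fderiv_const_smul_field (𝕜 := ℝ) (f := fun z => F (la⁻¹ • z)) lb) (la • x)
    rw [Pi.smul_apply, fderiv_comp_smul, inv_smul_smul₀ h0] at this
    exact this
  funext I
  have := congrFun e I
  simp only [pullT, AI.evT_two, e2, inv_smul_smul₀ h0, matT, h1, h2, Matrix.smul_apply, smul_apply,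
    PiLp.smul_apply, smul_eq_mul] at this ⊢
  rw [this, Finset.mul_sum]
  refine Finset.sum_congr rfl fun a _ => ?_
  rw [Finset.mul_sum]
  refine Finset.sum_congr rfl fun b _ => ?_
  field_simp

theorem pull_one (γ : Iso4) (x : E4) : pullM γ fl1 x = 1 := by
  ext p q
  refine (pullM_lin γ.toContinuousLinearEquiv.toContinuousLinearMap fl1 x p q).trans ?_
  have := γ.inner_map_map (EuclideanSpace.single p 1) (EuclideanSpace.single q 1)
  rw [PiLp.inner_apply, EuclideanSpace.inner_single_left] at this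
  simpa [Matrix.one_apply, Pi.single_apply, mul_comm, eq_comm] using this

variable {M : Type*} {T : TD M} {T0 T1 δ : ℝ} {L : T.V → ℝ} {v w : T.V} {s : T.S} {x : E4}

/-- the glued metric -/
def glG (T : TD M) (T0 : ℝ) (L : T.V → ℝ) (G : T.V → Fam T) (u : T.V → MetricField 4) : Fam T :=
  Sum.elim (fun a => G (T.vx a) (Sum.inl a)) fun w x =>
    if Real.log ‖x‖ < T0 + 2 then G w (Sum.inr w) x
    else if w ≠ T.root ∧ L w - T0 - 2 < Real.log ‖x‖ then
      G (T.par w) (Sum.inr w) (Real.exp (-L w) • x)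
    else (fl1 + u w) (Real.exp (-T0) • x)

variable {g G : T.V → Fam T} {u : T.V → MetricField 4} {a : T.V → Mt} {en : T.V → ℝ}

theorem Nm.R_G (n : Nm T T0 L) (hx : x ∈ RR T T0 L v 2 s) :
    glG T T0 L G u s x = G v s (sc (lm L) s v • x) := by
  rcases (RR_cases n.ok).1 hx with ⟨a, rfl, rfl, h1⟩ | ⟨rfl, h1, h2⟩ | ⟨w, rfl, hw, rfl, h1, h2, h3⟩
  · simp only [sc, Sum.elim_inl, one_smul]; rfl
  · rw [sc_out, one_smul]; exact if_pos h2
  · rw [sc_inn (n.ok.par_ne hw)]
    exact (if_neg (by linarith [n.hL w])).trans (if_pos ⟨hw, h3⟩)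

theorem intg_core (n : Nm T T0 L) {f : E4 → ℝ} (hf : ContinuousOn f (UR T v T0 2 s)) :
    IntegrableOn (fun x => T.χ s ((T.core v).c s x) * f x) (UR T v T0 1 s) := by
  have h := n.ok
  have hP := h.core_pou v
  obtain ⟨lo, hi, h1, h2⟩ : ∃ lo hi : ℝ, (∀ x : E4, lo ≤ ‖x‖ → ‖x‖ ≤ hi → x ∈ UR T v T0 2 s) ∧
      ∀ x ∈ UR T v T0 1 s, ∀ y ∈ T.cK v s, ‖y‖ = ‖x‖ → lo ≤ ‖x‖ ∧ ‖x‖ ≤ hi := by
    by_cases he : ∃ y, y ∈ T.cK v s
    swap
    · exact ⟨1, 0, fun x _ _ => by linarith, fun _ _ y hy => absurd ⟨y, hy⟩ he⟩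
    obtain ⟨z, hz⟩ := he
    rcases s with a | w
    · exact ⟨0, 3 / 2, fun x _ h1 => mem_UR_inl.2 ⟨(mem_cK_inl.1 hz).1, by linarith⟩,
        fun x _ y hy e => ⟨norm_nonneg _, e ▸ (mem_cK_inl.1 hy).2⟩⟩
    by_cases hw : w = v
    · subst hw
      simp only [mem_UR_inr, mem_core_out, tau_out, mem_cK_out]
      refine ⟨3 / 2, Real.exp (T0 + 1), fun x h1 h2 => ⟨by linarith, ?_⟩, fun x hx y hy e =>
        ⟨e ▸ hy, (Real.log_le_iff_le_exp (by linarith [hx.1])).1 (by linarith [hx.2])⟩⟩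
      linarith [(Real.log_le_iff_le_exp (by linarith)).2 h2]
    · simp only [mem_UR_inr, mem_core_inn hw, tau_inn hw, mem_cK_inn hw] at hz ⊢
      refine ⟨Real.exp (-T0 - 1), 3 / 4 * T.r, fun x h1 h2 => ?_, fun x hx y hy e =>
        ⟨(Real.le_log_iff_exp_le hx.1.2.1).1 (by linarith [hx.2]), e ▸ hy.2.2⟩⟩
      have h0 := (Real.exp_pos _).trans_le h1
      exact ⟨⟨hz.1, h0, by linarith [h.r_pos]⟩, by linarith [(Real.le_log_iff_exp_le h0).2 h1]⟩
  have hK : IsCompact {x : E4 | lo ≤ ‖x‖ ∧ ‖x‖ ≤ hi} :=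
    (isCompact_closedBall 0 hi).of_isClosed_subset ((isClosed_le continuous_const continuous_norm).inter
      (isClosed_le continuous_norm continuous_const)) fun x hx => mem_closedBall_zero_iff.2 hx.2
  refine ((((hP.sm s s).continuousOn.mono fun x hx => (h1 x hx.1 hx.2).1).mul
    (hf.mono fun x hx => h1 x hx.1 hx.2)).integrableOn_compact hK).of_forall_sdiff_eq_zero
    (UR_open h).measurableSet fun x hx => mul_eq_zero_of_left ?_ _
  by_contra k
  obtain ⟨y, hy, e⟩ := hP.supp s s x hx.1.1 k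
  obtain ⟨γ, -, rfl⟩ := ((h.core_ok v).fib s y (hP.sub s hy) x hx.1.1).1 e
  exact hx.2 (h2 _ hx.1 y hy (γ.norm_map y).symm)

/-- the data of `GLU` -/
structure Dat (T : TD M) (g : T.V → Fam T) (T0 T1 : ℝ) (L : T.V → ℝ) (κ : T.V → Type)
    [∀ v, Fintype (κ v)] (ψ : ∀ v, κ v → Fam T) (a : T.V → Mt) (δ : ℝ) (θ μ : (Σ v, κ v) → ℝ)
    (G : T.V → Fam T) (u : T.V → MetricField 4) (en : T.V → ℝ) : Prop extends Nm T T0 L where
  t1 : T1 ≤ T0
  met : ∀ v, (T.core v).IsMet (g v)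
  psi : Psi T κ ψ T1
  a0 : a T.root = 0
  ha : ∀ w p q, |a w p q| ≤ 1 / 100
  co : ∀ v, CoS T g T0 v (ψ v) a δ (fun j => θ ⟨v, j⟩) (fun j => μ ⟨v, j⟩) (G v)
  ne : ∀ w, ASol (T.Γ w) (nI T T0 L w) δ (en w) (u w)
  m1 : ∀ w, ∀ x ∈ An (Ioo 1 2), G w (Sum.inr w) (Real.exp T0 • x) = 1 + u w x
  m2 : ∀ w, w ≠ T.root → ∀ x ∈ An (Ioo (-2) (-1)),
    G (T.par w) (Sum.inr w) (Real.exp (-T0) • x) = 1 + u w (Real.exp (L w - 2 * T0) • x)

namespace Dat

variable {κ : T.V → Type} [∀ v, Fintype (κ v)] {ψ : ∀ v, κ v → Fam T} {θ μ : (Σ v, κ v) → ℝ}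
  (d : Dat T g T0 T1 L κ ψ a δ θ μ G u en)
include d

theorem N_G (hx : x ∈ NN T T0 L w) :
    glG T T0 L G u (Sum.inr w) x = (fl1 + u w) (Real.exp (-T0) • x) := by
  obtain ⟨h1, h2, h3⟩ := mem_NN.1 hx
  have h0 : ∀ t, Real.exp t • x ≠ 0 := fun t => smul_ne_zero (Real.exp_pos t).ne' h1
  simp only [glG, Sum.elim_inr]
  split_ifs with k1 k2
  · have := d.m1 w _ ⟨h0 (-T0), by rw [log_sm _ h1]; constructor <;> linarith⟩
    rwa [exp_sm, add_neg_cancel, Real.exp_zero, one_smul] at this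
  · have := d.m2 w k2.1 _ ⟨h0 (T0 - L w), by
      rw [log_sm _ h1]; constructor <;> linarith [k2.2, h3 k2.1]⟩
    rwa [exp_sm, exp_sm, show -T0 + (T0 - L w) = -L w by ring,
      show L w - 2 * T0 + (T0 - L w) = -T0 by ring] at this
  · rfl

theorem R_ev (hx : x ∈ RR T T0 L v 2 s) :
    glG T T0 L G u s =ᶠ[𝓝 x] fun z => G v s (sc (lm L) s v • z) := by
  filter_upwards [(RR_open d.ok).mem_nhds hx] with z hz using d.R_G hz

theorem R_evH (hx : x ∈ RR T T0 L v 2 s) :
    gbLA T g T0 L a s =ᶠ[𝓝 x] fun z => gbA T g T0 a v s (sc (lm L) s v • z) := by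
  filter_upwards [(RR_open d.ok).mem_nhds hx] with z hz using d.R_H d.a0 hz

theorem N_ev (hx : x ∈ NN T T0 L w) :
    glG T T0 L G u (Sum.inr w) =ᶠ[𝓝 x] fun z => (fl1 + u w) (Real.exp (-T0) • z) := by
  filter_upwards [NN_open.mem_nhds hx] with z hz using d.N_G hz

theorem N_evH (hx : x ∈ NN T T0 L w) :
    ∃ A : Mt, gbLA T g T0 L a (Sum.inr w) =ᶠ[𝓝 x] fun _ => A := by
  obtain ⟨A, hA⟩ := d.N_H (g := g) d.a0 w
  exact ⟨A, by filter_upwards [NN_open.mem_nhds hx] with z hz using hA z hz⟩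

theorem riem (s : T.S) : IsRiemannianOn (glG T T0 L G u s) ((T.glob L).U s) := by
  refine ⟨(d.ok.glob_ok d.long).isOpen s, fun i j x hx => ContDiffAt.contDiffWithinAt ?_,
    fun x hx => ?_⟩ <;> rcases d.cover' hx with ⟨v, h⟩ | ⟨w, rfl, h⟩
  · refine ((((d.co v).sm s i j).contDiffAt ((UR_open d.ok).mem_nhds h)).comp x
      (contDiff_const_smul _).contDiffAt).congr_of_eventuallyEq ?_
    filter_upwards [d.R_ev h] with z hz using by rw [hz]; rfl
  · refine ((contDiffAt_const (c := (1 : Mt) i j)).add (((((d.ne w).inv.sm i j).contDiffAt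
      (An_open.mem_nhds h)).comp x (contDiff_const_smul _).contDiffAt))).congr_of_eventuallyEq ?_
    filter_upwards [d.N_ev h] with z hz using by rw [hz]; rfl
  · rw [d.R_G h]; exact (d.co v).pos s _ h
  · rw [d.N_G h]; exact (d.ne w).pos _ h

theorem isMet : (T.glob L).IsMet fun s x => T.eps L (T.un s) ^ 2 • glG T T0 L G u s x := by
  have hS := d.ok.str_glob d.long
  refine ⟨fun s => ⟨(d.riem s).isOpen, fun i j => contDiffOn_const.mul ((d.riem s).contDiffOn i j),
    fun x hx => ((d.riem s).posDef x hx).smul (pow_pos (eps_pos _ _) 2)⟩,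
    hS.compat_of d.ok (fun a b x F v _ t hev => ?_) fun w γ hγ x hx => ?_⟩
  · obtain ⟨h1, h2, -⟩ := hev.self_of_nhds
    have ha := (sc_pos (T := T) (L := L) (s := a) (v := v)).ne'
    have hc : Tendsto (fun z : E4 => (sc (lm L) a v)⁻¹ • z) (𝓝 (sc (lm L) a v • x)) (𝓝 x) :=
      (continuous_const_smul _).tendsto' _ _ (inv_smul_smul₀ ha x)
    refine pull_sc (c := T.eps L v) ha ((d.co v).compat a b _ _ ⟨(d.base_UR h1).1.1, ?_, ?_, ?_⟩)
      (by rw [d.R_G (d.base_UR h1).1, d.eps_eq (d.base_UR h1).1.1])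
      (by rw [d.R_G (d.base_UR h2).1, d.eps_eq (d.base_UR h2).1.1])
    · rw [inv_smul_smul₀ ha]; exact (d.base_UR h2).1.1
    · filter_upwards [hc.eventually t.sm] with z hz
      exact (ContDiffAt.comp z hz (contDiff_const_smul _).contDiffAt).const_smul _
    · filter_upwards [hc.eventually hev] with z hz
      obtain ⟨k1, k2, k3⟩ := hz
      rw [smul_inv_smul₀ ha] at k1 k3
      rw [(d.base_UR k1).2, (d.base_UR k2).2, k3]
  have e : ∀ t : ℝ, t ≠ 0 → (fun z => t • γ (t⁻¹ • z)) = γ := fun t ht => by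
    funext z; rw [map_smul, smul_inv_smul₀ ht]
  rcases d.cover' hx with ⟨v, h⟩ | ⟨w, e', h⟩
  · have h' : γ x ∈ RR T T0 L v 2 (Sum.inr w) := by
      simpa only [RR_cases d.ok, γ.norm_map, ne_eq, map_eq_zero_iff γ γ.injective] using h
    refine pull_sc (c := T.eps L v) sc_pos.ne' ?_ (by rw [d.R_G h, d.eps_eq h.1])
      (by rw [d.R_G h', d.eps_eq h.1])
    rw [e _ sc_pos.ne']
    exact (d.co v).compat _ _ _ _ ((d.ok.core_ok v).tr_deck hγ h.1)
  · cases e'
    have h' : γ x ∈ NN T T0 L w := by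
      simpa only [mem_NN, γ.norm_map, ne_eq, map_eq_zero_iff γ γ.injective] using h
    have ht := (Real.exp_pos (-T0)).ne'
    refine pull_sc (c := T.eps L w / Real.exp (-T0)) (G1 := fl1 + u w) (G2 := fl1 + u w) ht ?_
      (by rw [d.N_G h, div_mul_cancel₀ _ ht]; rfl) (by rw [d.N_G h', div_mul_cancel₀ _ ht]; rfl)
    rw [e _ ht]
    funext I
    have h1 := congrFun (congrFun ((d.ne w).inv.eqv γ hγ _ h) (I 0)) (I 1)
    have h2 := congrFun (congrFun (pull_one γ (Real.exp (-T0) • x)) (I 0)) (I 1)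
    have h3 : ![I 0, I 1] = I := by funext i; fin_cases i <;> rfl
    simp only [pullM, Matrix.of_apply, h3] at h1 h2
    refine Eq.trans ?_ (AI.pullT_add γ (matT fl1) (matT (u w)) _ I).symm
    rw [← h1, h2]; rfl

theorem el (hx : x ∈ (T.glob L).U s) (k : M2 (Fin 4) ℝ) (hk : ∀ a b, k a b = k b a) :
    tr2 (vG (sq (glG T T0 L G u s) x) (iv (glG T T0 L G u s) x) k)
      (a2 (redT (gbLA T g T0 L a s) (glG T T0 L G u s) x)) =
      ∑ j : Σ v, κ v, μ j * ((T.eps L (T.un s) / T.eps L j.1) ^ 2 * (sq (gbLA T g T0 L a s) x *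
        tr2 (up (iv (gbLA T g T0 L a s) x) fun a b => toL T L j.1 (ψ j.1 j.2) s x a b) k)) := by
  have h0 : ∀ v j, x ∉ RR T T0 L v 1 s → μ ⟨v, j⟩ * ((T.eps L (T.un s) / T.eps L v) ^ 2 *
      (sq (gbLA T g T0 L a s) x *
        tr2 (up (iv (gbLA T g T0 L a s) x) fun a b => toL T L v (ψ v j) s x a b) k)) = 0 :=
    fun v j h => by simp [d.to_zero d.t1 (d.psi.supp v j) hx h, tr2, up]
  rw [Fintype.sum_sigma]
  rcases d.cover' hx with ⟨v, h⟩ | ⟨w, rfl, h⟩
  · rw [Finset.sum_eq_single v (fun v' _ hv => Finset.sum_eq_zero fun j _ => h0 v' j fun h' =>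
      hv (d.R_uniq (RR_mono one_le_two h') h)) (fun k => absurd (Finset.mem_univ _) k),
      (redT_congr (d.R_evH h) (d.R_ev h)).eq_of_nhds, redT_dil, (sq_congr (d.R_ev h)).eq_of_nhds,
      (iv_congr (d.R_ev h)).eq_of_nhds, (sq_congr (d.R_evH h)).eq_of_nhds,
      (iv_congr (d.R_evH h)).eq_of_nhds]
    refine (tr2_smul _ _ _).trans ((congrArg _
      (el_pt ((d.co v).pos s _ h) ((d.co v).eq s _ h) k hk)).trans ?_)
    rw [Finset.mul_sum]
    refine Finset.sum_congr rfl fun j _ => ?_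
    rw [d.R_to h, d.eps_eq h.1, mul_div_cancel_left₀ _ (eps_pos _ _).ne', mul_left_comm]
    rfl
  · obtain ⟨A, hA⟩ := d.N_evH h
    rw [Finset.sum_eq_zero fun v _ => Finset.sum_eq_zero fun j _ => h0 v j fun h' => d.R_N h' h,
      (redT_congr hA (d.N_ev h)).eq_of_nhds, redT_cst]
    have := redT_dil fl1 (fl1 + u w) (Real.exp (-T0)) x
    rw [this]
    refine (tr2_smul _ _ _).trans (mul_eq_zero_of_right _ ?_)
    exact (congrArg _ ((d.ne w).eq _ h)).trans (tr2_zero _)

theorem con (j : Σ v, κ v) :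
    pair T g j.1 (ψ j.1 j.2) (loc T L j.1 (glG T T0 L G u - gbLA T g T0 L a)) = θ j := by
  obtain ⟨v, j⟩ := j
  refine Eq.trans (Atl.int_congr (d.ok.core_ok v) fun s y hy => ?_) ((d.co v).con j)
  by_cases h : y ∈ UR T v T0 2 s
  · obtain ⟨x, rfl⟩ : ∃ x, sc (lm L) s v • x = y := ⟨_, smul_inv_smul₀ sc_pos.ne' y⟩
    refine congrArg (ipA _ _) (funext fun I => ?_)
    simp only [matT, Nm.loc_eq, Pi.sub_apply, d.R_G h, d.R_H d.a0 h]
  · have : ψ v j s y = 0 := by
      by_contra k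
      refine h ⟨hy, ?_⟩
      rintro w rfl
      have := not_le.1 fun k' => k (d.psi.supp v j w y hy k')
      have := d.t1
      unfold tau at *
      linarith
    simp [ip, matT, this, ipA]

theorem δ_nonneg : 0 ≤ δ := (norm_nonneg _).trans (d.co T.root).mu

theorem small (hx : x ∈ T.gK L s) {y : E4} (hy : y ∈ ball x (rad T s x)) {k : ℕ} (hk : k ≤ 2)
    (p q : Fin 4) : scl T s x ^ k *
      ‖iteratedFDeriv ℝ k (fun y => (glG T T0 L G u s y - gbL T g T0 L s y) p q) y‖ ≤ 2 * δ := by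
  have h0 : 0 ≤ scl T s x := by rcases s with a | w; exacts [zero_le_one, norm_nonneg _]
  rcases d.cover' (d.cell_U hx hy) with ⟨v, h⟩ | ⟨w, rfl, h⟩
  · obtain ⟨h1, h2, h3⟩ := d.R_cK h hx
    have h4 := (d.co v).small s _ h1 (sc (lm L) s v • y) (by
      rw [mem_ball, dist_smul₀, h2, Real.norm_of_nonneg sc_pos.le]
      exact mul_lt_mul_of_pos_left hy sc_pos) k hk p q
    refine (mul_le_mul_of_nonneg_left (jet_loc (F := fun y => (G v s y - gb T g T0 v s y) p q)
      (sc_pos (L := L) (s := s) (v := v)) ?_ k) (pow_nonneg h0 k)).trans ?_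
    · filter_upwards [(RR_open d.ok).mem_nhds h] with z hz using by rw [d.R_G hz, d.R_gb hz]
    · rw [h3, mul_pow] at h4
      linarith [d.δ_nonneg]
  · have h4 := (d.ne w).bd _ h k hk p q
    have ht := Real.exp_pos (-T0)
    refine (mul_le_mul_of_nonneg_left (jet_loc (F := fun y => u w y p q) ht ?_ k)
      (pow_nonneg h0 k)).trans ?_
    · filter_upwards [NN_open.mem_nhds h] with z hz using by
        rw [d.N_G hz, d.N_gb hz]; simp
    · rw [norm_smul, Real.norm_of_nonneg ht.le, mul_pow] at h4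
      rw [mem_ball, dist_eq_norm] at hy
      have h5 : ‖x‖ ≤ 8 / 7 * ‖y‖ := by
        simp only [rad, Sum.elim_inr] at hy
        linarith [norm_le_norm_add_norm_sub y x]
      have h6 : ‖x‖ ^ k ≤ 2 * ‖y‖ ^ k := by
        refine (pow_le_pow_left₀ (norm_nonneg _) h5 k).trans ?_
        rw [mul_pow]
        gcongr
        exact (pow_le_pow_right₀ (by norm_num) hk).trans (by norm_num)
      refine (mul_le_mul_of_nonneg_right h6 (by positivity)).trans ?_
      linarith

theorem intg (s : T.S) : IntegrableOn (fun x => T.χ s ((T.glob L).c s x) *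
      fgfF (gbLA T g T0 L a s) (glG T T0 L G u s) x) ((T.glob L).U s) ∧
    T.eps L (T.un s) ^ 2 * ∫ x in (T.glob L).U s, T.χ s ((T.glob L).c s x) *
      fgfF (gbLA T g T0 L a s) (glG T T0 L G u s) x =
      ∑ v, T.eps L v ^ 2 * (∫ x in UR T v T0 1 s, T.χ s ((T.core v).c s x) *
        fgfF (gbA T g T0 a v s) (G v s) x) +
      Sum.elim (fun _ => 0) (fun w => T.eps L w ^ 2 * (Real.exp (2 * T0) * en w)) s := by
  have h1 := fun v => int_dil (f := fun x => T.χ s ((T.glob L).c s x) *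
      fgfF (gbLA T g T0 L a s) (glG T T0 L G u s) x) (UR_open d.ok).measurableSet
    (sc_pos (L := L) (s := s) (v := v)) (intg_core d.toNm (fgfF_cont (H := gbA T g T0 a v s)
      ⟨UR_open d.ok, fun i j => ((riem_gbA d.ok (d.met v) d.ha s).contDiffOn i j).mono
        fun _ h => h.1, fun x h => (riem_gbA d.ok (d.met v) d.ha s).posDef x h.1⟩
      ⟨UR_open d.ok, (d.co v).sm s, (d.co v).pos s⟩)) fun x hx => by
    have h := RR_mono (L := L) one_le_two hx
    rw [d.R_χ h, (fgfF_congr (d.R_evH h) (d.R_ev h)).eq_of_nhds, fgfF_dil, mul_left_comm]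
  have h2 : ∀ v, T.eps L (T.un s) ^ 2 * ∫ x in RR T T0 L v 1 s, T.χ s ((T.glob L).c s x) *
      fgfF (gbLA T g T0 L a s) (glG T T0 L G u s) x = T.eps L v ^ 2 * ∫ x in UR T v T0 1 s,
        T.χ s ((T.core v).c s x) * fgfF (gbA T g T0 a v s) (G v s) x := fun v => by
    refine (congrArg _ (h1 v).2).trans ?_
    rcases (UR T v T0 1 s).eq_empty_or_nonempty with e | ⟨y, hy⟩
    · simp [e]
    · rw [d.eps_eq hy.1, mul_pow, mul_assoc, mul_inv_cancel_left₀ (pow_pos sc_pos 2).ne']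
  have h3 := integral_iUnion_fintype (s := fun v => RR T T0 L v 1 s)
    (fun v => (RR_open d.ok).measurableSet) (fun v v' hv => Set.disjoint_left.2 fun x k k' =>
      hv (d.R_uniq (RR_mono one_le_two k) (RR_mono one_le_two k'))) fun v => (h1 v).1
  have h4 := (integrableOn_finite_iUnion (t := fun v => RR T T0 L v 1 s)).2 fun v => (h1 v).1
  rcases s with b | w
  · have e : (T.glob L).U (Sum.inl b) = ⋃ v, RR T T0 L v 1 (Sum.inl b) :=
      Subset.antisymm (fun x hx => (d.cover hx).elim mem_iUnion.2 fun ⟨_, e, _⟩ => nomatch e)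
        (iUnion_subset fun v x hx => d.R_U (RR_mono one_le_two hx))
    rw [e, h3, Finset.mul_sum, Finset.sum_congr rfl fun v _ => h2 v]
    exact ⟨h4, (add_zero _).symm⟩
  have h5 := int_dil (f := fun x => T.χ (Sum.inr w) ((T.glob L).c (Sum.inr w) x) *
      fgfF (gbLA T g T0 L a (Sum.inr w)) (glG T T0 L G u (Sum.inr w)) x) An_open.measurableSet
    (Real.exp_pos (-T0)) (d.ne w).int fun x hx => by
    obtain ⟨A, hA⟩ := d.N_evH hx
    rw [d.N_χ hx, one_mul, (fgfF_congr hA (d.N_ev hx)).eq_of_nhds, fgfF_cst]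
    exact fgfF_dil fl1 _ _ _
  have e : (T.glob L).U (Sum.inr w) =ᵐ[volume]
      ((⋃ v, RR T T0 L v 1 (Sum.inr w)) ∪ NN T T0 L w : Set E4) := by
    have h6 := fun r => measure_eq_zero_iff_ae_notMem.1 (Measure.addHaar_sphere volume (0 : E4) r)
    filter_upwards [h6 (Real.exp (T0 + 1)), h6 (Real.exp (L w - T0 - 1))] with x k1 k2
    refine propext ⟨fun hx => ?_, ?_⟩
    · rcases d.cover (s := Sum.inr w) hx with h | ⟨_, e, h | h | h⟩
      · exact .inl (mem_iUnion.2 h)
      all_goals cases e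
      exacts [.inr h, absurd (mem_sphere_zero_iff_norm.2 h.2) k1,
        absurd (mem_sphere_zero_iff_norm.2 h.2) k2]
    · rintro (h | h)
      · obtain ⟨v, h⟩ := mem_iUnion.1 h
        exact d.R_U (RR_mono one_le_two h)
      · exact d.N_U h
  refine ⟨(h4.union h5.1).congr_set_ae e, ?_⟩
  rw [setIntegral_congr_set e, setIntegral_union (Set.disjoint_left.2 fun x k =>
    d.R_N (mem_iUnion.1 k).choose_spec) NN_open.measurableSet h4 h5.1, h3, mul_add, Finset.mul_sum,
    Finset.sum_congr rfl fun v _ => h2 v]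
  refine congrArg _ ((congrArg _ h5.2).trans ?_)
  rw [(d.ne w).en, ← Real.exp_nat_mul, ← Real.exp_neg]
  simp [un]

end Dat

end Crest.Agent.N207.CB.Gl

namespace Crest.Agent.N207.CB

open Gl

/-- **GLU** -/
theorem glu {M : Type*} (T : TD M) : GLU T := by
  intro g γ _ h hg κ _ ψ T1 hψ
  refine ⟨max (max 1 T1) (-Real.log (T.r / 4)), fun T0 hT L hL a ha ha' δ θ μ G u en hC hA m1 m2
    hd => ?_⟩
  have d : Dat T g T0 T1 L κ ψ a δ θ μ G u en := ⟨⟨h, (le_max_left _ _).trans ((le_max_left _ _).trans hT),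
    (Real.le_log_iff_exp_le (by linarith [h.r_pos])).1 (by linarith [(le_max_right _ _).trans hT]),
    hL⟩, (le_max_right _ _).trans ((le_max_left _ _).trans hT), hg.met, hψ, (ha _).root rfl, ha',
    hC, hA, m1, m2⟩
  have hδ := d.δ_nonneg
  refine ⟨glG T T0 L G u, ⟨d.isMet, fun s x hx => d.el hx, d.con,
    fun s x hx y hy k hk => d.small hx hy hk, ?_, fun x hx k hk p q => ?_,
    fun s => (d.intg s).1⟩, ?_⟩
  · refine (pi_norm_le_iff_of_nonneg (by linarith)).2 fun j => ?_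
    linarith [(norm_le_pi_norm (fun i => μ ⟨j.1, i⟩) j.2).trans (hC j.1).mu]
  · have h0 := (Real.exp_pos _).trans_le hx
    have h1 : x ∈ NN T T0 L T.root := mem_NN.2 ⟨norm_pos_iff.1 h0,
      by linarith [(Real.le_log_iff_exp_le h0).2 hx], fun k => absurd rfl k⟩
    have ht := Real.exp_pos (-T0)
    have h2 := hd (Real.exp (-T0) • x) (by simpa [NN, nI] using h1) k hk p q
    refine (mul_le_mul_of_nonneg_left (jet_loc (F := fun y => u T.root y p q) ht ?_ k)
      (pow_nonneg h0.le k)).trans ?_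
    · filter_upwards [d.N_ev h1] with z hz using by simp [TD.dv, hz]
    · rw [norm_smul, Real.norm_of_nonneg ht.le, mul_pow, ← div_div, ← Real.exp_sub,
        show 4 - -T0 = T0 + 4 by ring] at h2
      have : 0 ≤ δ * (Real.exp (T0 + 4) / ‖x‖) ^ (3 / 2 : ℝ) := by positivity
      linarith
  · simp only [actL, actC, mul_add, Finset.sum_add_distrib, Finset.mul_sum,
      mul_left_comm (T.eps L _ ^ 2) (_ : ℝ)⁻¹, fun s => (d.intg s).2]
    rw [Finset.sum_comm, Fintype.sum_sum_type]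
    simp [TD.grp]

end Crest.Agent.N207.CB

end
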