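import Crest.Agent.N207.CB.Co3
import Crest.Agent.N207.CB.Glu1
import Crest.Agent.N207.CB.Secr
import Crest.Agent.N207.CB.Boot
import Crest.Agent.N207.Lg.Pop
import Crest.Agent.N207.CB.Co4
import Crest.Agent.N207.CB.Ext2
import Crest.Agent.N207.CB.Glu3_Mg
import Crest.Agent.N207.CB.Bg0
import Crest.Agent.N207.K.Trf

-- ▼ part N207/CB/Fixm1
section

/-!
# Row 207, block L (helper62): leaf `FIXM`, pointwise tools
-/

set_option autoImplicit false

open scoped ContDiff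
open Metric Set Filter Topology MeasureTheory
open Crest.GeometryTopology.CoordMetric
open Crest.Agent.NLib.Ell Crest.Agent.N207.I Crest.Agent.N207.Lg Crest.Agent.N207.J

noncomputable section

namespace Crest.Agent.N207.CB.Fx

section Pt

variable {gb gb' G G' w w' : MetricField 4} {y : E4}

theorem redM_congr (hb : gb =ᶠ[𝓝 y] gb') (h : G =ᶠ[𝓝 y] G') : redM gb G y = redM gb' G' y := by
  simp only [redM, (redT_congr hb h).self_of_nhds]

theorem pop_congr (hb : gb =ᶠ[𝓝 y] gb') (h : w =ᶠ[𝓝 y] w') : Pop gb w y = Pop gb' w' y := by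
  have : ∀ s : ℝ, redT gb (fun z => gb z + s • w z) y = redT gb' (fun z => gb' z + s • w' z) y :=
    fun s => (redT_congr hb (by filter_upwards [hb, h] with z h1 h2; rw [h1, h2])).self_of_nhds
  simp only [Pop, this]

theorem redM_dil (G : MetricField 4) (t : ℝ) (y : E4) :
    redM fl1 (fun z => G (t • z)) y = t ^ 2 • redM fl1 G (t • y) := by
  ext a b
  exact congrFun (Gl.redT_dil fl1 G t y) ![a, b]

theorem pop_dil (w : MetricField 4) (t : ℝ) (y : E4) :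
    Pop fl1 (fun z => w (t • z)) y = t ^ 2 • Pop fl1 w (t • y) := by
  ext a b
  have : ∀ s : ℝ, redT fl1 (fun z => fl1 z + s • w (t • z)) y ![a, b] =
      t ^ 2 * redT fl1 (fun z => fl1 z + s • w z) (t • y) ![a, b] := fun s =>
    congrFun (Gl.redT_dil fl1 (fun z => fl1 z + s • w z) t y) ![a, b]
  simp only [Pop, Matrix.of_apply, this, deriv_const_mul_field', Matrix.smul_apply, smul_eq_mul]
  ring

theorem redM_cst (A : Mt) (G : MetricField 4) (y : E4) : redM (fun _ => A) G y = redM fl1 G y := by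
  simp only [redM, Gl.redT_cst]

theorem pop_cst (hw : ∀ a b, ContDiffAt ℝ 2 (fun z => w z a b) y) (hs : ∀ᶠ z in 𝓝 y, (w z).IsSymm)
    {A : Mt} (hA : A.IsSymm) : Pop fl1 (fun x => w x + A) y = Pop fl1 w y := by
  ext a b
  have e : jet2 (fun x => w x + A) y = jet2 w y := by
    have : jet (fun x => w x + A) = jet w := by
      funext z c p q
      simp only [jet, pderiv, Matrix.add_apply, fderiv_add_const]
    unfold jet2
    rw [this]
  have h1 := (c2_one y).pop_eq hw (hs.mono fun z hz p q => hz.apply q p) a b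
  have h2 := (c2_one y).pop_eq (w := fun x => w x + A)
    (fun p q => (hw p q).add contDiffAt_const) (hs.mono fun z hz p q => (hz.add hA).apply q p) a b
  rw [← lapJ_TTG, TTG_const, popV_const] at h1 h2
  rw [e] at h2
  exact h2.trans h1.symm

theorem psT_zero {ψ : MetricField 4} (h : ψ y = 0) : PsT gb G ψ y = 0 := by
  simp [PsT, TRg, tr2, h]

end Pt

variable {M : Type*} {T : TD M} {v : T.V} {T0 : ℝ}

theorem scl_eq (s : T.S) (x : E4) : scl T s x = 8 * rad T s x := by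
  rcases s with s | s <;> simp only [scl, rad, Sum.elim_inl, Sum.elim_inr] <;> ring

/-- jets from a lift -/
theorem lf_jet {k j : ℕ} {i : CI T v} {w : MetricField 4} {W : MC T v k} (h : LfAt T i 0 w W)
    (hj : j ≤ k) {y : E4} (hy : y ∈ B1) (p q : Fin 4) :
    rad T i.1.1 i.1.2 ^ j * ‖iteratedFDeriv ℝ j (fun x => w x p q) (cpt T i y)‖ ≤ 4 ^ j * ‖W‖ := by
  have hr := rad_pos i
  have h1 : CKA (1 / 2) B1 k (1 * ‖W p q‖) fun z => w (cpt T i z) p q :=
    (((W p q).cka i).clm isOpen_ball Complex.reCLM Complex.reCLM_norm.le).congr isOpen_ball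
      fun z hz => by simp [h p q z hz]
  have h2 := ((h1.of_le hj).ho_iter isOpen_ball).bdd y hy
  have h3 := norm_iter_smul (fun z => w (cpt T i z) p q) (inv_pos.2 hr) j (rad T i.1.1 i.1.2 • y)
  simp only [cpt, smul_inv_smul₀ hr.ne', inv_smul_smul₀ hr.ne'] at h2 h3
  rw [iteratedFDeriv_comp_add_left (f := fun x => w x p q)] at h3
  have h4 : ‖W p q‖ ≤ ‖W‖ := (norm_le_pi_norm (W p) q).trans (norm_le_pi_norm W p)
  refine (mul_le_mul_of_nonneg_left h3 (by positivity)).trans ?_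
  rw [← mul_assoc, ← mul_pow, mul_inv_cancel₀ hr.ne', one_pow, one_mul]
  refine h2.trans ?_
  rw [one_mul]
  push_cast
  gcongr

theorem lf_small {k j : ℕ} {i : CI T v} {w : MetricField 4} {W : MC T v k} (h : LfAt T i 0 w W)
    (hj : j ≤ 2) (hk : 2 ≤ k) {x : E4} (hx : x ∈ ball i.1.2 (rad T i.1.1 i.1.2)) (p q : Fin 4) :
    scl T i.1.1 i.1.2 ^ j * ‖iteratedFDeriv ℝ j (fun x => w x p q) x‖ ≤ 1024 * ‖W‖ := by
  obtain ⟨y, hy, rfl⟩ := exists_cpt i hx
  rw [scl_eq, mul_pow, mul_assoc]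
  refine (mul_le_mul_of_nonneg_left (lf_jet h (hj.trans hk) hy p q) (by positivity)).trans ?_
  rw [← mul_assoc, ← mul_pow]
  exact mul_le_mul_of_nonneg_right ((pow_le_pow_right₀ (by norm_num) hj).trans (by norm_num))
    (norm_nonneg _)

theorem UR_mono {c c' : ℝ} (h : c ≤ c') (s : T.S) : UR T v T0 c s ⊆ UR T v T0 c' s :=
  fun _ hx => ⟨hx.1, fun u e => (hx.2 u e).trans_le h⟩

/-- the far part of an end consists of centres -/
theorem mem_cK (h : T.Ok) (hT : Real.log (4 / T.r) ≤ T0) {u : T.V} (hu : u = v ∨ T.kid v u)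
    {x : E4} (hx : x ≠ 0) (hτ : 0 ≤ tau T v u T0 x) : x ∈ T.cK v (Sum.inr u) := by
  have hr := h.r_pos
  have hr1 := h.r_lt
  have h0 := norm_pos_iff.2 hx
  rcases hu with rfl | hu
  · have : 4 / T.r ≤ ‖x‖ := (Real.log_le_log_iff (by positivity) h0).1
      (by simp only [tau, if_true] at hτ; linarith)
    rw [div_le_iff₀ hr] at this
    exact TD.mem_cK_out.2 (by nlinarith)
  · have e := h.kid_ne hu
    have : ‖x‖ ≤ T.r / 4 := (Real.log_le_log_iff h0 (by positivity)).1 (by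
      rw [← inv_div, Real.log_inv]; simp only [tau, e, if_false] at hτ; linarith)
    exact (TD.mem_cK_inn e).2 ⟨hu, h0, by linarith⟩

theorem tau_unit (u : T.V) {x : E4} (hx : x ≠ 0) :
    tau T v u T0 (Real.exp (sgn T v u * T0) • x) = sgn T v u * Real.log ‖x‖ := by
  rw [tau, norm_smul, Real.norm_of_nonneg (Real.exp_pos _).le,
    Real.log_mul (Real.exp_pos _).ne' (norm_ne_zero_iff.2 hx), Real.log_exp, sgn]
  split_ifs <;> ring

theorem ev_tau {u : T.V} {x : E4} {c : ℝ} (hx : x ≠ 0) (h : c < tau T v u T0 x) :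
    ∀ᶠ z in 𝓝 x, z ≠ 0 ∧ c < tau T v u T0 z :=
  (isOpen_ne.eventually_mem hx).and
    (continuousAt_const.eventually_lt (tau_sm v u T0 hx).continuousAt h)

theorem cA_eq (a : Mt) : (1 + a) * (1 + a) = 1 + cA a := by
  rw [cA, two_smul]; noncomm_ring

end Crest.Agent.N207.CB.Fx

end
end

-- ▼ part N207/CB/Fixm
section

/-!
# Row 207, block L (helper62): leaf `FIXM`, the meaning of a real fixed point
-/

set_option autoImplicit false

open scoped ContDiff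
open Metric Set Filter Topology MeasureTheory
open Crest.GeometryTopology.CoordMetric
open Crest.Agent.NLib.Ell Crest.Agent.N207.I Crest.Agent.N207.Lg Crest.Agent.N207.J

noncomputable section

namespace Crest.Agent.N207.CB

namespace Fx

variable {M : Type*} {T : TD M} {g : T.V → Fam T} {κ : Type} [Fintype κ] {ψ : κ → Fam T}
  {v : T.V} {T0 : ℝ}

/-- the hypotheses of `FIXM` -/
structure Hy (D : CD T g ψ v T0) (z : Zc T v κ) (μ : κ → ℝ) (a : T.V → Mt) (θ : κ → ℝ)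
    (β w : Fam T) : Prop where
  hz : D.p z ∈ ball 0 D.Λ.ε
  zr : ZR T z μ a θ
  sβ : Sec T v β
  lβ : Lf T 0 β z.2.2.1.1
  vβ : ∀ s, ∀ x ∈ UR T v T0 (22 / 10) s, β s x = 0
  sw : SecN T v 8 w
  lw : Lf T 0 w z.1.1.1
  eq : ∀ (i : CI T v), ∀ y ∈ B1, (∀ u, i.1.1 = Sum.inr u → tau T v u T0 (cpt T i y) < 4) → ∀ p q,
    (D.P z.1.1.1 p q).val i y = (D.src z p q).val i y + ∑ j, μ j * (D.Ψ j p q).val i y

/-- the metric -/
abbrev GG (g : T.V → Fam T) (T0 : ℝ) (a : T.V → Mt) (v : T.V) (β w : Fam T) : Fam T :=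
  gbA T g T0 a v + (β + w - cutA T v T0 (a v))

variable {D : CD T g ψ v T0} {z : Zc T v κ} {μ : κ → ℝ} {a : T.V → Mt} {θ : κ → ℝ} {β w : Fam T}
  (h : Hy D z μ a θ β w)
include h

theorem Hy.sη : SecN T v 8 (β + w - cutA T v T0 (a v)) :=
  ((h.sβ.secN 8).add h.sw).sub ((sec_cutA D.ok D.hT (h.zr.ha v).1).secN 8)

theorem Hy.lη : Lf T 0 (β + w - cutA T v T0 (a v)) (D.h z) := D.lf_h (h.zr.ha v).2 h.lβ h.lw

theorem Hy.sH : Sec T v (gbA T g T0 a v) := D.sec_gbA fun u => (h.zr.ha u).1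

theorem Hy.sG : SecN T v 8 (GG g T0 a v β w) := (h.sH.secN 8).add h.sη

theorem Hy.mH : (T.core v).IsMet (gbA T g T0 a v) :=
  h.sH.isMet D.ok fun i y hy => ((D.realp h.hz h.zr.ha h.sη.symm h.lη i).1 y hy).1

/-- the equation on the cells -/
theorem Hy.cell (i : CI T v) {y : E4} (hy : y ∈ B1) {s : T.S} {x : E4} (hs : i.1.1 = s)
    (hx : cpt T i y = x) (hτ : ∀ u, s = Sum.inr u → tau T v u T0 x < 4) :
    (1 - cutF T v T0 1 rho s x) • Pop (gb T g T0 v s) (w s) x +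
      (2 * cutF T v T0 1 rho s x) • redM (gbA T g T0 a v s) (GG g T0 a v β w s) x =
      ∑ j, μ j • PsT (gbA T g T0 a v s) (GG g T0 a v β w s) (ψ j s) x := by
  subst hs hx
  obtain ⟨-, hR, -, hP⟩ := D.realp h.hz h.zr.ha h.sη.symm h.lη i
  have h1 := D.lf_P h.sw.symm h.lw i
  have h2 := (LfAt.mulC (D.hρ i) (h1.sub (hR.smul 2))).add
    (LfAt.sum Finset.univ fun j _ => ((hP j).sub (D.lf_Ψ j i)).smul (μ j))
  ext p q
  have e := h.eq i y hy hτ p q
  rw [CD.src, h.zr.hμ] at e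
  replace e := e.trans (congrArg (· + _) (h2 p q y hy))
  rw [h1 p q y hy] at e
  simp only [fun j => D.lf_Ψ j i p q y hy] at e
  norm_cast at e
  apply mul_left_cancel₀ (pow_pos (rad_pos i) 2).ne'
  simp only [Pi.add_apply, Pi.sub_apply, Pi.smul_apply, Finset.sum_apply, Matrix.add_apply,
    Matrix.sub_apply, Matrix.smul_apply, Matrix.sum_apply, smul_eq_mul, mul_sub,
    Finset.sum_sub_distrib, mul_left_comm (μ _), ← Finset.mul_sum] at e ⊢
  linear_combination e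

theorem Hy.cell1 (i : CI T v) {x : E4}
    (hx : x ∈ ball i.1.2 (rad T i.1.1 i.1.2) ∩ UR T v T0 (26 / 10) i.1.1) :
    redM (gbA T g T0 a v i.1.1) (GG g T0 a v β w i.1.1) x =
      ∑ j, (μ j / 2) • PsT (gbA T g T0 a v i.1.1) (GG g T0 a v β w i.1.1) (ψ j i.1.1) x := by
  obtain ⟨y, hy, rfl⟩ := exists_cpt i hx.1
  have e := h.cell i hy rfl rfl fun u e => (hx.2.2 u e).trans (by norm_num)
  have e1 : cutF T v T0 1 rho i.1.1 (cpt T i y) = 1 := by
    have := hx.2.2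
    generalize cpt T i y = x, i.1.1 = s at this ⊢
    rcases s with s | s
    · rfl
    · simp [cutF, rho, Cu.stp_zero' (by norm_num : (26 / 10 : ℝ) < 28 / 10) (this s rfl).le]
  rw [e1, sub_self, zero_smul, zero_add, mul_one] at e
  refine (inv_smul_smul₀ (two_ne_zero' ℝ) _).symm.trans ?_
  rw [e, Finset.smul_sum]
  exact Finset.sum_congr rfl fun j _ => by rw [smul_smul, div_eq_inv_mul]

theorem Hy.riem (i : CI T v) : IsRiemannianOn (GG g T0 a v β w i.1.1)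
    (ball i.1.2 (rad T i.1.1 i.1.2) ∩ UR T v T0 (26 / 10) i.1.1) := by
  have ho := (isOpen_ball (x := i.1.2) (ε := rad T i.1.1 i.1.2)).inter
    (UR_open (v := v) D.ok T0 (26 / 10) i.1.1)
  have hp : ∀ x ∈ ball i.1.2 (rad T i.1.1 i.1.2) ∩ UR T v T0 (26 / 10) i.1.1,
      (GG g T0 a v β w i.1.1 x).PosDef := fun x hx => by
    obtain ⟨y, hy, rfl⟩ := exists_cpt i hx.1
    exact ((D.realp h.hz h.zr.ha h.sη.symm h.lη i).1 y hy).2
  have hU : ball i.1.2 (rad T i.1.1 i.1.2) ∩ UR T v T0 (26 / 10) i.1.1 ⊆ (T.core v).U i.1.1 :=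
    fun x hx => hx.2.1
  exact ⟨ho, boot _ _ _ κ (fun j => μ j / 2) (fun j => ψ j i.1.1) ho
    ⟨ho, fun p q => ((h.mH.riem _).contDiffOn p q).mono hU,
      fun x hx => (h.mH.riem _).posDef x (hU hx)⟩
    (fun j p q => ((D.sψ j).sec.sm _ ![p, q]).mono hU)
    (fun p q => ((h.sG.sm _ p q).of_le (by norm_num)).mono hU) hp fun x hx => h.cell1 i hx, hp⟩

omit h in
theorem cov (D : CD T g ψ v T0) {s : T.S} {x : E4} (hx : x ∈ UR T v T0 2 s) :
    ∃ (i : CI T v) (F : E4 → E4), (Ga.res (T.core v) (UR T v T0 2)).Tr s i.1.1 x F ∧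
      F x ∈ ball i.1.2 (rad T i.1.1 i.1.2) ∩ UR T v T0 (26 / 10) i.1.1 := by
  obtain ⟨b, F, t, hF⟩ := Ga.pou_cover (D.ok.core_ok v) (D.ok.core_pou v) hx.1
  have := tr_UR D.ok D.hT (by norm_num) t hx
  exact ⟨⟨(b, F x), hF⟩, F, Ga.tr_res t hx this, mem_ball_self (Cu.rad_pos' hF),
    UR_mono (by norm_num) _ this⟩

theorem Hy.mG : (Ga.res (T.core v) (UR T v T0 2)).IsMet (GG g T0 a v β w) :=
  isMet_of_loc (UR_ok D.ok T0 2) (Ga.res_compat (fun _ _ hx => hx.1) h.sG.compat) fun s x hx => by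
    obtain ⟨i, F, t, hF⟩ := cov D hx
    exact ⟨_, F, _, t, hF, h.riem i⟩

theorem Hy.eq2 {s : T.S} {x : E4} (hx : x ∈ UR T v T0 2 s) :
    redM (gbA T g T0 a v s) (GG g T0 a v β w s) x =
      ∑ j, (μ j / 2) • PsT (gbA T g T0 a v s) (GG g T0 a v β w s) (ψ j s) x := by
  have hU : ∀ s, UR T v T0 2 s ⊆ (T.core v).U s := fun _ _ hx => hx.1
  have hH : (Ga.res (T.core v) (UR T v T0 2)).IsMet (gbA T g T0 a v) :=
    ⟨fun s => ⟨UR_open D.ok T0 2 s, fun p q => ((h.mH.riem s).contDiffOn p q).mono (hU s),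
      fun x hx => (h.mH.riem s).posDef x (hU s hx)⟩, Ga.res_compat hU h.mH.compat⟩
  have hS := fun j => secr _ _ _ _ _ j (UR_ok D.ok T0 2) hH h.mG
  have hc := (hS 0).1.1.compat.sub (Atl.Compat.sum Finset.univ fun j _ =>
    ((hS (ψ j)).2 (Ga.res_sec hU (D.sψ j).sec)
      fun s x hx => (D.sψ j).symm s x (hU s hx)).1.compat.smul (μ j / 2))
  obtain ⟨i, F, t, hF⟩ := cov D hx
  have e := hc.eq_zero (UR_ok D.ok T0 2) t.mem t.mem' t.eq0.symm (by
    funext I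
    simp only [matT, h.cell1 i hF, Finset.sum_apply, Matrix.sum_apply, Pi.sub_apply,
      Pi.smul_apply, Matrix.smul_apply, sub_self, Pi.zero_apply])
  ext p q
  simpa [matT, Finset.sum_apply, Matrix.sum_apply, sub_eq_zero] using congrFun e ![p, q]

theorem Hy.con (j : κ) : pair T g v (ψ j) (GG g T0 a v β w - gbA T g T0 a v) = pair T g v (ψ j) w := by
  refine Finset.sum_congr rfl fun s _ =>
    setIntegral_congr_fun ((D.ok.core_ok v).isOpen s).measurableSet fun x hx => ?_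
  by_cases e : ψ j s x = 0
  · simp [ip, ipA, matT, e]
  have h1 : ∀ u, s = Sum.inr u → tau T v u T0 x < 0 := by
    rintro u rfl
    exact lt_of_not_ge fun h2 => e (D.vψ j u x hx h2)
  have h2 : cutA T v T0 (a v) s x = 0 := by
    unfold cutA onE
    split_ifs with e
    · simp only [Cu.stp_zero' (by norm_num : (17 / 20 : ℝ) < 19 / 20)
        (show tau T v v T0 x ≤ _ by linarith [h1 v e]), zero_smul]
    · rfl
  have h3 : (GG g T0 a v β w - gbA T g T0 a v) s x = w s x := by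
    simp [h2, h.vβ s x ⟨hx, fun u e => by linarith [h1 u e]⟩]
  have h4 : matT ((GG g T0 a v β w - gbA T g T0 a v) s) x = matT (w s) x := by
    funext I; simp only [matT, h3]
  simp only [ip, h4]

theorem Hy.small (i : CI T v) {y : E4} (hy : y ∈ ball i.1.2 (rad T i.1.1 i.1.2))
    {k : ℕ} (hk : k ≤ 2) (p q : Fin 4) : scl T i.1.1 i.1.2 ^ k *
      ‖iteratedFDeriv ℝ k (fun y => (GG g T0 a v β w i.1.1 y - gb T g T0 v i.1.1 y) p q) y‖ ≤
        1024 * ‖D.β z.2.1 - D.β0 + D.h z‖ := by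
  have h1 : LfAt T i 0 (fun y => GG g T0 a v β w i.1.1 y - gb T g T0 v i.1.1 y)
      (D.β z.2.1 - D.β0 + D.h z) :=
    (((D.lf_β (fun u => (h.zr.ha u).2) i).sub (D.hβ0 i)).add (h.lη i)).congr fun y _ => by
      simp only [Pi.add_apply, Pi.sub_apply, sub_sub_sub_cancel_right, add_sub_right_comm]
  exact lf_small h1 hk (by norm_num) hy p q

theorem Hy.H_far {u : T.V} {x : E4} (hx : x ≠ 0) (hτ : 19 / 20 < tau T v u T0 x) :
    gbA T g T0 a v (Sum.inr u) x = 1 + cA (a u) := by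
  simp only [gbA, Sum.elim_inr]
  rw [CD.gb_of_ge (by linarith), D.hsq u _ (h.zr.ha u).1.symm x hx (by linarith), cA_eq]
  abel

theorem Hy.G_far {u : T.V} {x : E4} (hx : x ≠ 0) (hτ : 19 / 20 < tau T v u T0 x) :
    GG g T0 a v β w (Sum.inr u) x =
      1 + β (Sum.inr u) x + (w (Sum.inr u) x + if u = v then 0 else cA (a u)) := by
  simp only [Pi.add_apply, Pi.sub_apply, h.H_far hx hτ, cutA, onE, Sum.inr.injEq]
  split_ifs with e
  · subst e
    simp only [Cu.stp_one' (by norm_num : (17 / 20 : ℝ) < 19 / 20) hτ.le, one_smul]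
    abel
  · simp only [Pi.zero_apply]; abel

/-- the collar equation in the unit scale -/
theorem Hy.col {u : T.V} (hu : u = v ∨ T.kid v u) {x : E4} (hx : x ≠ 0)
    (h1 : 1 < sgn T v u * Real.log ‖x‖) (h3 : sgn T v u * Real.log ‖x‖ < 3) :
    (1 - rho (sgn T v u * Real.log ‖x‖)) •
        Pop fl1 (fun x => unit T v u T0 w x + if u = v then 0 else cA (a u)) x +
      (2 * rho (sgn T v u * Real.log ‖x‖)) • redM fl1 (fl1 + unit T v u T0 β +
        fun x => unit T v u T0 w x + if u = v then 0 else cA (a u)) x = 0 := by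
  have ht := tau_unit (T0 := T0) (v := v) u hx
  rw [← ht] at h1 h3 ⊢
  have h0 := smul_ne_zero (Real.exp_pos (sgn T v u * T0)).ne' hx
  have hK := mem_cK D.ok D.hT hu h0 (by linarith)
  have hU := (D.ok.core_pou v).sub _ hK
  have hn := ((D.ok.core_ok v).isOpen _).mem_nhds hU
  have e := h.cell ⟨(_, _), hK⟩ zero_B1 (s := Sum.inr u) (x := Real.exp (sgn T v u * T0) • x) rfl
    (cpt_zero _) fun u' e => by cases e; linarith
  have hv := ev_tau h0 (show 19 / 20 < tau T v u T0 _ by linarith)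
  simp only [cutF, Sum.elim_inr,
    fun j gb G => psT_zero (gb := gb) (G := G) (D.vψ j u _ hU (by linarith)), smul_zero, Finset.sum_const_zero] at e
  rw [pop_congr (gb' := fl1) (hv.mono fun z hz => CD.gb_of_ge (by linarith [hz.2])) EventuallyEq.rfl,
    redM_congr (hv.mono fun z hz => h.H_far hz.1 hz.2) (hv.mono fun z hz => h.G_far hz.1 hz.2),
    redM_cst, ← pop_cst (A := if u = v then 0 else cA (a u))
      (fun p q => ((h.sw.sm _ p q).contDiffAt hn).of_le (by norm_num))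
      (mem_of_superset hn (h.sw.symm _))
      (by split_ifs; exacts [Matrix.isSymm_zero, (h.zr.ha u).1.cA.symm])] at e
  have e1 := pop_dil (fun x => w (Sum.inr u) x + if u = v then 0 else cA (a u))
    (Real.exp (sgn T v u * T0)) x
  have e2 := redM_dil (fun x => 1 + β (Sum.inr u) x +
    (w (Sum.inr u) x + if u = v then 0 else cA (a u))) (Real.exp (sgn T v u * T0)) x
  refine (congrArg₂ (· + ·) (congrArg _ e1) (congrArg _ e2)).trans ?_
  rw [smul_comm, smul_comm (2 * _), ← smul_add, e, smul_zero]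

theorem Hy.colG {u : T.V} (hu : u = v ∨ T.kid v u) {x : E4} (hx : x ≠ 0)
    (h1 : 1 < sgn T v u * Real.log ‖x‖) (h2 : sgn T v u * Real.log ‖x‖ < 2) :
    GG g T0 a v β w (Sum.inr u) (Real.exp (sgn T v u * T0) • x) =
      1 + (unit T v u T0 w x + if u = v then 0 else cA (a u)) := by
  rw [← tau_unit (T0 := T0) u hx] at h1 h2
  have h0 := smul_ne_zero (Real.exp_pos (sgn T v u * T0)).ne' hx
  have hU := (D.ok.core_pou v).sub _ (mem_cK D.ok D.hT hu h0 (by linarith))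
  rw [h.G_far h0 (by linarith), h.vβ _ _ ⟨hU, fun u' e => by cases e; linarith⟩, add_zero, unit]

end Fx

open Fx in
/-- **leaf FIXM** -/
theorem fixm {M : Type*} (T : TD M) : FIXM T := by
  refine ⟨1024, by norm_num, fun g κ _ ψ v T0 D z μ a θ β w δ h1 h2 h3 h4 h5 h6 h7 h8 hc hP hQ
    hδ hμ => ?_⟩
  have h : Hy D z μ a θ β w := ⟨h1, h2, h3, h4, h5, h6, h7, h8⟩
  have s1 : sgn T v v = 1 := if_pos rfl
  have s2 : ∀ u, T.kid v u → sgn T v u = -1 := fun u hu => if_neg (D.ok.kid_ne hu)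
  refine ⟨⟨fun s => (h.mG.riem s).contDiffOn, fun s => (h.mG.riem s).posDef, h.sG.compat,
    fun s x hx => ?_, fun j => (h.con j).trans (hc j),
    fun s x hx y hy k hk p q => (h.small ⟨(s, x), hx⟩ hy hk p q).trans hδ, ?_⟩, hP, fun x hx => ?_,
    fun x hx => ?_, hQ, fun u hu x hx => ?_, fun u hu x hx => ?_⟩
  · rw [h.eq2 hx, ← Finset.sum_neg_distrib]
    simp only [neg_smul, neg_neg]
  · refine (pi_norm_le_iff_of_nonneg ((norm_nonneg _).trans hμ)).2 fun j => ?_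
    have := norm_le_pi_norm μ j
    rw [norm_neg, norm_div, Real.norm_two]
    linarith [norm_nonneg (μ j)]
  · simpa only [s1, one_mul, if_true, add_zero] using h.col (Or.inl rfl) hx.1
      (by simpa [s1] using hx.2.1) (by simpa [s1] using hx.2.2)
  · simpa only [s1, one_mul, if_true, add_zero] using h.colG (Or.inl rfl) hx.1
      (by simpa [s1] using hx.2.1) (by simpa [s1] using hx.2.2)
  · simpa only [s2 u hu, neg_one_mul, D.ok.kid_ne hu, if_false] using h.col (Or.inr hu) hx.1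
      (by rw [s2 u hu]; linarith [hx.2.2]) (by rw [s2 u hu]; linarith [hx.2.1])
  · simpa only [s2 u hu, neg_one_mul, D.ok.kid_ne hu, if_false] using h.colG (Or.inr hu) hx.1
      (by rw [s2 u hu]; linarith [hx.2.2]) (by rw [s2 u hu]; linarith [hx.2.1])

end Crest.Agent.N207.CB

end
end

-- ▼ part N207/CB/Co5

/-!
# Row 207, block L (helper92): `core : GRC T → CORE T`
-/

set_option autoImplicit false

open scoped ContDiff
open Metric Set Filter Topology MeasureTheory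
open Crest.GeometryTopology.CoordMetric
open Crest.Agent.NLib.Ell Crest.Agent.N207.I Crest.Agent.N207.Lg Crest.Agent.N207.J

noncomputable section

namespace Crest.Agent.N207.CB

variable {M : Type*} {T : TD M} {g : T.V → Fam T} {κ : Type} [Fintype κ] {ψ : κ → Fam T} {v : T.V}
  {T0 : ℝ}

omit [Fintype κ] in
theorem Van.mono {F : Fam T} {T1 : ℝ} (h : Van T v T1 0 F) (hT : T1 ≤ T0) : Van T v T0 0 F :=
  fun u x hx hτ => h u x hx (by unfold tau at hτ ⊢; linarith)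

theorem exists_rho (h : T.Ok) : ∃ C : ℝ, ∀ (v : T.V) (T0 : ℝ), ∃ ρ : Cel (CI T v) 6, ‖ρ‖ ≤ C ∧
    ∀ i : CI T v, LfS T i 0 (cutF T v T0 1 rho i.1.1) ρ := by
  obtain ⟨C, hC⟩ := cut h (26 / 10) (28 / 10) 6 (by norm_num)
  refine ⟨2 ^ 7 + Fintype.card T.V * C, fun v T0 => ?_⟩
  choose W h1 h2 using fun u => hC v u T0
  refine ⟨1 - ∑ u, W u, (norm_sub_le _ _).trans (add_le_add Cel.norm_one_le ?_), fun i y hy => ?_⟩
  · exact (norm_sum_le _ _).trans ((Finset.sum_le_card_nsmul _ _ C fun u _ => h1 u).trans (by simp))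
  · rw [Cel.val_sub, Pi.sub_apply, Pi.sub_apply, Cel.val_one i hy, Cel.val_sum]
    simp only [h2 _ i y hy]
    obtain ⟨⟨s | s, x⟩, hx⟩ := i
    · simp [cutF]
    · simp [cutF, rho, apply_ite]

theorem exists_CD {γ T1 : ℝ} (hγ : 0 < γ) (h : T.Ok) (hg : T.Lim g γ)
    (hψ : ∀ j, Sec T v (ψ j) ∧ Van T v T1 0 (ψ j)) : ∃ c ε T2 : ℝ, 0 < ε ∧ ∀ T0, T2 ≤ T0 →
      ∃ D : CD T g ψ v T0, D.Bd c (Real.exp (-(γ * T0))) ∧ D.Λ.ε = ε ∧
        c * Real.exp (-(γ * T0)) < ε / 4 := by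
  obtain ⟨Λ⟩ := lift T g γ hγ h hg v 6
  obtain ⟨C0, Ta, h0⟩ := bg0 T g γ hγ h hg 8
  obtain ⟨C1, Tb, c1, h1⟩ := bga T h 8
  obtain ⟨C2, h2⟩ := exists_rho h
  obtain ⟨C3, h3⟩ := cut h (17 / 20) (19 / 20) 8 (by norm_num)
  have h4 : ∀ j, ∃ W : MC T v 6, Lf T 2 (ψ j) W := fun j => by
    obtain ⟨N, n0, hN⟩ := K.psb T h 6 2 v T1 _ (hψ j).1 (hψ j).2
    exact exists_lf n0 hN
  choose ψh h4 using h4
  obtain ⟨K1, k1, q1, q2, q3⟩ := quad Λ.ε_pos Λ.hR fun p hp => (Λ.bd p hp).1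
  obtain ⟨K2, k2, -, q4, -⟩ := quad Λ.ε_pos Λ.hP fun p hp => (Λ.bd p hp).2.2
  set c := 1 + |C0| + Fintype.card T.V * (2 * C1) + |C2| + |C3| + ∑ j, ‖ψh j‖ + K1 + K2 with hc
  have p0 := abs_nonneg C0
  have p1 : 0 ≤ Fintype.card T.V * (2 * C1) := by positivity
  have p2 := abs_nonneg C2
  have p3 := abs_nonneg C3
  have p4 : 0 ≤ ∑ j, ‖ψh j‖ := by positivity
  have ev : ∀ᶠ t in atTop, c * Real.exp (-(γ * t)) < Λ.ε / 4 := by
    have := (Real.tendsto_exp_neg_atTop_nhds_zero.comp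
      (tendsto_id.const_mul_atTop hγ)).const_mul c
    exact this.eventually_lt_const (by have := Λ.ε_pos; simpa using this)
  obtain ⟨Tc, hTc⟩ := eventually_atTop.1 ev
  refine ⟨c, Λ.ε, max (max (max Ta Tb) (max Tc T1)) (max (Real.log (4 / T.r)) 0), Λ.ε_pos,
    fun T0 hT => ?_⟩
  simp only [max_le_iff] at hT
  obtain ⟨⟨⟨ta, tb⟩, tc, t1⟩, tl, t0⟩ := hT
  obtain ⟨s0, β0, l0, n0⟩ := h0 v T0 ta
  obtain ⟨b1, b2, b3, b4⟩ := h1 v T0 tb
  choose B₁ B₂ m1 m2 m3 using b1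
  obtain ⟨ρ, r1, r2⟩ := h2 v T0
  obtain ⟨χ, x1, x2⟩ := h3 v v T0
  have e0 := (Real.exp_pos (-(γ * T0))).le
  have n1 : ‖β0‖ ≤ c * Real.exp (-(γ * T0)) :=
    n0.trans (mul_le_mul_of_nonneg_right (by linarith [le_abs_self C0]) e0)
  have n2 : ‖β0‖ < Λ.ε / 2 := by linarith [hTc T0 tc, Λ.ε_pos]
  refine ⟨⟨h, tl, hg.met v, hg.ric v, fun j => (hψ j).1, fun j => (hψ j).2.mono t1, Λ, β0, l0, s0,
    n1.trans_lt (hTc T0 tc), B₁, B₂, m3, b2, b3, b4 g, ρ, r2, χ, x2, ψh, h4⟩,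
    ⟨by linarith, e0, Real.exp_le_one_iff.2 (by nlinarith), fun a ha => ?_,
      x1.trans (by linarith [le_abs_self C3]), r1.trans (by linarith [le_abs_self C2]),
      by dsimp only; linarith, n1, (q1 _ n2).trans (by linarith),
      fun p hp => (q2 p hp).trans (by gcongr; linarith),
      fun p hp => (q4 p hp).trans (by gcongr; linarith),
      fun b h' hp => (q3 _ b h' n2 hp).trans (by gcongr; linarith)⟩, rfl, hTc T0 tc⟩
  simp only [CD.β, add_sub_cancel_left]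
  refine (norm_sum_le _ _).trans ((Finset.sum_le_card_nsmul _ _ (2 * C1 * ‖a‖) fun u _ => ?_).trans ?_)
  · have a1 : ‖(a u).1‖ ≤ ‖a‖ := norm_le_pi_norm a u
    have a2 := (B₁ u).le_of_opNorm_le_of_le (m1 u) a1
    have a3 := (B₂ u (a u).1).le_of_opNorm_le_of_le
      ((B₂ u).le_of_opNorm_le_of_le (m2 u) (a1.trans ha)) a1
    linarith [norm_add_le (B₁ u (a u).1) (B₂ u (a u).1 (a u).1)]
  · rw [nsmul_eq_mul, Finset.card_univ, ← mul_assoc]
    gcongr
    linarith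

theorem CoM.mono {a : T.V → Mt} {δ δ' : ℝ} {θ μ : κ → ℝ} {β w G : Fam T}
    (h : CoM T g T0 v ψ a δ θ μ β w G) (hδ : δ ≤ δ') : CoM T g T0 v ψ a δ' θ μ β w G :=
  { h with cos := { h.cos with
      small := fun s x hx y hy k hk p q => (h.cos.small s x hx y hy k hk p q).trans hδ
      mu := h.cos.mu.trans hδ } }

/-- smaller ball, larger constant -/
def CoreStep.mono {ε ε' K K' η : ℝ} (C : CoreStep T g ψ v T0 ε K η) (hε : ε' ≤ ε) (hK : K ≤ K')
    (hη : 0 ≤ η) : CoreStep T g ψ v T0 ε' K' η where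
  Φ := C.Φ
  S := C.S
  B := C.B
  hΦ := C.hΦ.mono (ball_subset_ball hε)
  hS := C.hS.mono (ball_subset_ball hε)
  bΦ z hz := (C.bΦ z (ball_subset_ball hε hz)).trans (by gcongr)
  bS z hz := C.bS z (ball_subset_ball hε hz)
  real z hz := C.real z (ball_subset_ball hε hz)
  fix z hz μ a θ h1 h2 β w h3 h4 h5 h6 h7 :=
    let ⟨G, k1, k2⟩ := C.fix z (ball_subset_ball hε hz) μ a θ h1 h2 β w h3 h4 h5 h6 h7
    ⟨G, k1.mono (by gcongr), k2⟩

omit [Fintype κ] in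
theorem cv_inj {a b : κ → ℝ} (h : cv a = cv b) : a = b :=
  funext fun j => Complex.ofReal_injective (congrFun h j)

theorem core_v (hG : GRC T) {γ σ T1 Ck : ℝ} (hγ : 0 < γ) (hσ : 0 < σ) (hσ1 : σ < 1) (h : T.Ok)
    (hg : T.Lim g γ) (hψ : ∀ j, Sec T v (ψ j) ∧ Van T v T1 0 (ψ j)) (ck : 0 < Ck)
    (hK : ∀ T0, T1 ≤ T0 → ∃ En, KAt T g ψ v T0 σ 6 (Ck * Real.exp (2 * σ * T0)) En) :
    ∃ ε C T2 : ℝ, 0 < ε ∧ ∀ T0, T2 ≤ T0 →
      Nonempty (CoreStep T g ψ v T0 ε (C * Real.exp (2 * σ * T0)) (Real.exp (-(γ * T0)))) := by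
  classical
  obtain ⟨c, ε0, Ta, e0, hD⟩ := exists_CD hγ h hg hψ
  obtain ⟨Ce, Tb, ce, hE⟩ := ext h 6
  obtain ⟨cl, dec, hE⟩ := hE v
  obtain ⟨Tc, hG⟩ := hG h g κ ψ v T1 σ hσ (by linarith) (hg.met v) hψ
  obtain ⟨Cf, cf0, hF⟩ := fixm T
  refine ⟨min 1 (ε0 / (16 * |c| + 1)), Ce * Ck * (400 * c ^ 4) + 9 * |c| * Cf + 1,
    max (max (max Ta Tb) (max Tc T1)) 0, by positivity, fun T0 hT => ?_⟩
  simp only [max_le_iff] at hT
  obtain ⟨⟨⟨ta, tb⟩, tc, t1⟩, t0⟩ := hT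
  obtain ⟨D, hB, rfl, hc⟩ := hD T0 ta
  have c1 := hB.one
  rw [abs_of_nonneg (zero_le_one.trans c1)]
  obtain ⟨En, hK⟩ := hK T0 t1
  obtain ⟨clY, hE⟩ := hE T0 tb
  obtain ⟨𝒢, nG, hE⟩ := hE g κ ψ σ _ En (by positivity) D.met D.met_gb ⟨T1, hψ⟩ hK
  obtain ⟨S, I, clS, hI⟩ := int T h v 6 T0
  set ε := min 1 (D.Λ.ε / (16 * c + 1))
  set η := Real.exp (-(γ * T0))
  have x1 : 1 ≤ Real.exp (2 * σ * T0) := Real.one_le_exp (by positivity)
  set X := Real.exp (2 * σ * T0)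
  have z1 : ∀ z ∈ ball (0 : Zc T v κ) ε, ‖z‖ ≤ 1 := fun z hz =>
    (mem_ball_zero_iff.1 hz).le.trans (min_le_left _ _)
  have hp : ∀ z ∈ ball (0 : Zc T v κ) ε, D.p z ∈ ball 0 D.Λ.ε := fun z hz => by
    have a1 := hB.np (z1 z hz)
    have a2 := (mem_ball_zero_iff.1 hz).le.trans (min_le_right _ _)
    rw [le_div_iff₀ (by positivity)] at a2
    rw [mem_ball_zero_iff]
    nlinarith [norm_nonneg z]
  have hY := idl _ _ (ZRs T v κ) 1 ZRs_comb (ZRs_dec (dec 8 0)) D.src ε _ clY (D.diff_src hp)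
    fun z hz hr => Submodule.subset_span (D.src_real (hp z hz) hr)
  have dL : DifferentiableOn ℂ (fun z => D.Λ.Lg (D.p z)) (ball 0 ε) :=
    D.Λ.hL.comp D.diff_p.differentiableOn hp
  have hS := idl _ _ (ZRs T v κ) 1 ZRs_comb (ZRs_dec (dec 8 0)) _ ε _ clS dL <| by
    rintro z hz ⟨μ, a, θ, r⟩
    obtain ⟨w, sw, hw⟩ := (reg h v 8).1 _ r.hW
    obtain ⟨β, sβ, hβ⟩ := (reg h v 8).1 _ r.hb
    exact (hI (fun s => fgfF _ _) _ (D.lg_real (hp z hz) r sβ hβ sw hw)).1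
  set sY : Zc T v κ → YC T v 6 T0 := fun z => if h : D.src z ∈ YC T v 6 T0 then ⟨_, h⟩ else 0
  set sS : Zc T v κ → S := fun z => if h : D.Λ.Lg (D.p z) ∈ S then ⟨_, h⟩ else 0
  have eY : ∀ z ∈ ball (0 : Zc T v κ) ε, (sY z).1 = D.src z := fun z hz => by
    simp only [sY, dif_pos (hY z hz)]
  have eS : ∀ z ∈ ball (0 : Zc T v κ) ε, (sS z).1 = D.Λ.Lg (D.p z) := fun z hz => by
    simp only [sS, dif_pos (hS z hz)]
  have bY : ∀ z ∈ ball (0 : Zc T v κ) ε,
      ‖sY z‖ ≤ 400 * c ^ 4 * (η + ‖z.2.1 v‖ + ‖z.2.2.1‖ + ‖z‖ ^ 2) := fun z hz => by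
    rw [Submodule.coe_norm, eY z hz]
    exact hB.src_le (z1 z hz) (hp z hz) (D.cov (dec 8 0) hp z hz)
  have bS : ∀ z ∈ ball (0 : Zc T v κ) ε, ‖sS z‖ ≤ D.Λ.C := fun z hz => by
    rw [Submodule.coe_norm, eS z hz]
    exact (D.Λ.bd _ (hp z hz)).2.1
  have dY : DifferentiableOn ℂ sY (ball 0 ε) := by
    refine diffOn_sub clY isOpen_ball (M := 400 * c ^ 4 * (1 + 1 + 1 + 1 ^ 2))
      (fun z hz => (bY z hz).trans ?_) ((D.diff_src hp).congr eY)
    gcongr
    · exact hB.η1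
    · exact ((norm_le_pi_norm _ v).trans (CD.na z)).trans (z1 z hz)
    · exact (CD.nb z).trans (z1 z hz)
    · exact z1 z hz
  have dS := diffOn_sub clS isOpen_ball bS (dL.congr eS)
  have key : ∀ z ∈ ball (0 : Zc T v κ) ε, ∀ μ a θ, ZR T z μ a θ → _ := fun z hz μ a θ r =>
    hG T0 tc D.P D.Ψ (fun w W sw hw => D.lf_P sw.symm hw) D.lf_Ψ _
      (hE (sY z) θ (by rw [eY z hz]; exact D.src_real (hp z hz) ⟨μ, a, θ, r⟩))
  have c4 : 1 ≤ 400 * c ^ 4 := by nlinarith [one_le_pow₀ (n := 4) c1]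
  refine ⟨⟨fun z => 𝒢 (sY z, z.2.2.2), fun z => I (sS z), ‖I‖ * D.Λ.C,
    𝒢.differentiable.comp_differentiableOn (dY.prodMk (by fun_prop)),
    I.differentiable.comp_differentiableOn dS, fun z hz => ?_,
    fun z hz => I.le_of_opNorm_le_of_le le_rfl (bS z hz), fun z hz μ a θ r => ?_,
    fun z hz μ a θ r e β w sβ hβ h0 sw hw => ?_⟩⟩
  · have e0 := hB.η0
    have a1 : ‖(sY z, z.2.2.2)‖ ≤
        400 * c ^ 4 * (η + ‖z.2.2.2‖ + ‖z.2.1 v‖ + ‖z.2.2.1‖ + ‖z‖ ^ 2) := by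
      refine max_le ((bY z hz).trans ?_) ?_
      · gcongr
        linarith [norm_nonneg z.2.2.2]
      · refine le_trans ?_ (le_mul_of_one_le_left (by positivity) c4)
        nlinarith [norm_nonneg (z.2.1 v), norm_nonneg z.2.2.1]
    refine (𝒢.le_of_opNorm_le_of_le nG a1).trans ?_
    rw [← mul_assoc]
    refine mul_le_mul_of_nonneg_right ?_ (by positivity)
    have : 0 ≤ (9 * c * Cf + 1) * X := by positivity
    nlinarith
  · obtain ⟨k1, μ', k2, -⟩ := key z hz μ a θ r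
    rw [r.hθ]
    exact ⟨k1, μ', k2⟩
  · obtain ⟨-, μ', k2, k3, k4⟩ := key z hz μ a θ r
    rw [← r.hθ, e] at k2 k3 k4
    obtain rfl := cv_inj (k2.symm.trans r.hμ)
    rw [eY z hz] at k3
    obtain ⟨k5, k6, k7⟩ := k4 w sw hw
    have a0 : 9 * c * Cf + 1 ≤ (Ce * Ck * (400 * c ^ 4) + 9 * c * Cf + 1) * X := by
      have : 0 ≤ Ce * Ck * (400 * c ^ 4) := by positivity
      have : 0 ≤ 9 * c * Cf := by positivity
      nlinarith
    have a1 : (9 * c * Cf + 1) * ‖z‖ ≤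
        (Ce * Ck * (400 * c ^ 4) + 9 * c * Cf + 1) * X * (η + ‖z‖) := by
      gcongr
      linarith [hB.η0]
    have a2 : ‖D.β z.2.1 - D.β0 + D.h z‖ ≤ 9 * c * ‖z‖ := by
      linarith [norm_add_le (D.β z.2.1 - D.β0) (D.h z), hB.nβ (z1 z hz), hB.nh (z1 z hz)]
    have a3 : ‖μ'‖ ≤ ‖z‖ := by rw [← norm_cv, ← r.hμ]; exact CD.nμ z
    have a4 : 0 ≤ 9 * c * Cf * ‖z‖ := by positivity
    refine ⟨_, hF g κ ψ v T0 D z μ' a θ β w _ (hp z hz) r sβ hβ h0 sw hw k3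
      (fun j => ?_) k6 k7 ?_ (by linarith), ?_⟩
    · have := k5 j
      rw [r.hθ] at this
      exact Complex.ofReal_injective this
    · nlinarith [mul_le_mul_of_nonneg_left a2 cf0.le, norm_nonneg z]
    · obtain ⟨m, e'⟩ := hI (fun s => fgfF _ _) _ (D.lg_real (hp z hz) r (sβ.secN 8) hβ sw hw)
      rw [← e']
      simp only [sS, dif_pos m]

/-- **CORE** -/
theorem core (hG : GRC T) : CORE T := by
  intro g γ σ hγ hσ hσ1 h hg κ _ ψ hK
  obtain ⟨Ck, T1, ck, hψ, hK⟩ := hK 6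
  choose ε C T2 e0 H using fun v => core_v hG hγ hσ hσ1 h hg
    (fun j => ⟨hψ.sec v j, hψ.supp v j⟩) ck (hK v)
  have : Nonempty T.V := ⟨T.root⟩
  obtain ⟨v1, h1⟩ := Finite.exists_min ε
  obtain ⟨v2, h2⟩ := Finite.exists_max C
  obtain ⟨v3, h3⟩ := Finite.exists_max T2
  refine ⟨ε v1, max 1 (C v2), max T1 (T2 v3), e0 _, le_max_left _ _, ⟨hψ.sec, fun v j =>
    Van.mono (hψ.supp v j) (le_max_left _ _)⟩, fun T0 hT v => ?_⟩
  obtain ⟨S⟩ := H v T0 ((h3 v).trans ((le_max_right _ _).trans hT))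
  exact ⟨S.mono (h1 v) (by gcongr; exact (h2 v).trans (le_max_right _ _)) (Real.exp_pos _).le⟩

end Crest.Agent.N207.CB

end
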