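import Crest.Agent.N207.CB.Cell
import Crest.Agent.N207.L.Br1
import Crest.Agent.NLib.Ell.CKA2
import Crest.Agent.N207.L.Pc3
import Crest.Agent.N207.L.Inst2
import Crest.Agent.N207.L.Nk0

-- ▼ part N207/CB/E2a
section

/-! # N207/CB/E2a (helper71): bounded and pointwise holomorphic maps into `Cel` are holomorphic -/

set_option autoImplicit false

open Metric Set Filter Topology
open Crest.Agent.NLib.Ell Crest.Agent.R273.SchA_152

noncomputable section

namespace Crest.Agent.N207.CB.Cel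

variable {I : Type} {k : ℕ} {Z : Type*} [NormedAddCommGroup Z] [NormedSpace ℂ Z]

/-- Hölder quotient -/
def hq (i : I) (y y' : EE 4) : Cel I k →L[ℂ] ℂ :=
  ((‖y - y'‖ ^ (1 / 2 : ℝ) : ℝ) : ℂ)⁻¹ • (evL i y - evL i y')

theorem norm_hq (i : I) (y y' : EE 4) (x : Cel I k) :
    ‖hq i y y' x‖ = (‖y - y'‖ ^ (1 / 2 : ℝ))⁻¹ * ‖x.val i y - x.val i y'‖ := by
  simp only [hq, smul_apply, sub_apply, evL_apply, norm_smul, norm_inv, Complex.norm_real]
  rw [Real.norm_of_nonneg (by positivity)]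

theorem norm_hq_le (i : I) {y y' : EE 4} (hy : y ∈ B1) (hy' : y' ∈ B1) (x : Cel I k) :
    ‖hq i y y' x‖ ≤ ‖x‖ / 2 ^ (k + 1) := by
  rw [norm_hq]
  have h := (x.cka' i).ho.hol y hy y' hy'
  rcases eq_or_lt_of_le (show (0 : ℝ) ≤ ‖y - y'‖ ^ (1 / 2 : ℝ) by positivity) with h0 | h0
  · rw [← h0]; simp; positivity
  · rw [inv_mul_le_iff₀ h0]; linarith

theorem ho_of_hq {x : Cel I k} {i : I} {c : ℝ} (h0 : ∀ y ∈ B1, ‖x.val i y‖ ≤ c)
    (h1 : ∀ y ∈ B1, ∀ y' ∈ B1, ‖hq i y y' x‖ ≤ c) : HO (1 / 2) c B1 (x.val i) := by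
  refine ⟨h0, fun y hy y' hy' => ?_⟩
  by_cases e : y = y'
  · subst e; simp
  · have hp : (0 : ℝ) < ‖y - y'‖ ^ (1 / 2 : ℝ) :=
      Real.rpow_pos_of_pos (norm_pos_iff.2 (sub_ne_zero.2 e)) _
    have := h1 y hy y' hy'
    rw [norm_hq, inv_mul_le_iff₀ hp] at this
    linarith

/-- the functionals controlling the Hölder norm of order zero -/
def F0 (k : ℕ) : (I × B1) ⊕ (I × B1 × B1) → (Cel I k →L[ℂ] ℂ)
  | .inl p => (2 ^ (k + 1) : ℂ) • evL p.1 p.2
  | .inr p => (2 ^ (k + 1) : ℂ) • hq p.1 p.2.1 p.2.2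

theorem norm_two_pow (k : ℕ) : ‖(2 ^ (k + 1) : ℂ)‖ = 2 ^ (k + 1) := by simp

theorem F0_le (j : (I × B1) ⊕ (I × B1 × B1)) (x : Cel I k) : ‖F0 k j x‖ ≤ ‖x‖ := by
  have hp := two_pow_pos k
  rcases j with p | p
  · simp only [F0, smul_apply, norm_smul, norm_two_pow, evL_apply]
    have := (x.cka' p.1).bdd p.2.2
    rwa [le_div_iff₀' hp] at this
  · simp only [F0, smul_apply, norm_smul, norm_two_pow]
    have := norm_hq_le p.1 p.2.1.2 p.2.2.2 x
    rwa [le_div_iff₀' hp] at this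

theorem ho_of_F0 {x : Cel I k} {c : ℝ} (h : ∀ j, ‖F0 k j x‖ ≤ c) (i : I) :
    HO (1 / 2) (c / 2 ^ (k + 1)) B1 (x.val i) := by
  have hp := two_pow_pos k
  refine ho_of_hq (fun y hy => ?_) fun y hy y' hy' => ?_
  · have := h (.inl (i, ⟨y, hy⟩))
    simp only [F0, smul_apply, norm_smul, norm_two_pow, evL_apply] at this
    rwa [le_div_iff₀' hp]
  · have := h (.inr (i, ⟨y, hy⟩, ⟨y', hy'⟩))
    simp only [F0, smul_apply, norm_smul, norm_two_pow] at this
    rwa [le_div_iff₀' hp]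

theorem diffOn_F0 {f : Z → Cel I k} {U : Set Z}
    (hd : ∀ i, ∀ y ∈ B1, DifferentiableOn ℂ (fun z => (f z).val i y) U)
    (j : (I × B1) ⊕ (I × B1 × B1)) : DifferentiableOn ℂ (fun z => F0 k j (f z)) U := by
  rcases j with p | p
  · exact (hd p.1 p.2 p.2.2).const_smul (2 ^ (k + 1) : ℂ)
  · exact (((hd p.1 _ p.2.1.2).sub (hd p.1 _ p.2.2.2)).const_smul _).const_smul (2 ^ (k + 1) : ℂ)

theorem norm_D_two (a : Fin 4) (x : Cel I (k + 1)) : 2 * ‖D a x‖ ≤ ‖x‖ := by
  have h := norm_le' (x := D a x) (by positivity) (fun i => (x.cka' i).pd a)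
    fun i y hy => val_D a x i hy
  have e : (2 : ℝ) ^ (k + 1) * (‖x‖ / 2 ^ (k + 1 + 1)) = ‖x‖ / 2 := by
    rw [pow_succ (2 : ℝ) (k + 1)]; field_simp
  rw [e] at h; linarith

/-- partial derivatives of a bounded pointwise holomorphic family are pointwise holomorphic -/
theorem diffOn_val_D {f : Z → Cel I (k + 1)} {U : Set Z} (hU : IsOpen U) {M : ℝ}
    (hM : ∀ z ∈ U, ‖f z‖ ≤ M)
    (hd : ∀ i, ∀ y ∈ B1, DifferentiableOn ℂ (fun z => (f z).val i y) U) (a : Fin 4) (i : I)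
    {y : EE 4} (hy : y ∈ B1) : DifferentiableOn ℂ (fun z => (D a (f z)).val i y) U := by
  obtain ⟨η, hη, hb⟩ := Metric.isOpen_iff.1 (isOpen_ball : IsOpen B1) y hy
  have key : ∀ z ∈ U, ∀ t : ℝ, 0 < t → t < η → ‖(t : ℂ)⁻¹ * ((f z).val i (y + t • ei a) -
      (f z).val i y) - (D a (f z)).val i y‖ ≤ 4 * M * t ^ (1 / 2 : ℝ) := fun z hz t ht ht' => by
    have hn : ‖t • (ei a : EE 4)‖ = t := by rw [norm_smul, norm_ei, Real.norm_of_nonneg ht.le]; simp
    have h1 := (((f z).cka i).of_le (j := 1) (by omega)).taylor isOpen_ball (by norm_num) hb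
      (v := t • ei a) (by rwa [hn])
    rw [hn, map_smul] at h1
    have ht0 : (t : ℂ) ≠ 0 := by exact_mod_cast ht.ne'
    rw [val_D a _ i hy, show (t : ℂ)⁻¹ * ((f z).val i (y + t • ei a) - (f z).val i y) -
      fderiv ℝ ((f z).val i) y (ei a) = (t : ℂ)⁻¹ * ((f z).val i (y + t • ei a) - (f z).val i y -
      t • fderiv ℝ ((f z).val i) y (ei a)) by rw [Complex.real_smul]; field_simp, norm_mul,
      norm_inv, Complex.norm_real, Real.norm_of_nonneg ht.le, inv_mul_le_iff₀ ht]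
    have := hM z hz
    have hp : 0 ≤ t ^ (1 / 2 : ℝ) := by positivity
    calc _ ≤ _ := h1
      _ ≤ ((4 : ℕ) : ℝ) * M * t ^ (1 / 2 : ℝ) * t := by gcongr
      _ = _ := by push_cast; ring
  refine N250.H.diffOn_of_lim (l := 𝓝[>] (0 : ℝ)) (M := M + 4 * M)
    (F := fun (t : ℝ) z => (t : ℂ)⁻¹ * ((f z).val i (y + t • ei a) - (f z).val i y)) hU ?_ ?_
  · filter_upwards [Ioo_mem_nhdsGT (lt_min hη one_pos)] with t ht
    have ht1 := (lt_min_iff.1 ht.2)
    have hy' : y + t • ei a ∈ B1 := hb (by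
      rw [mem_ball, dist_eq_norm, add_sub_cancel_left, norm_smul, norm_ei,
        Real.norm_of_nonneg ht.1.le]; linarith [ht1.1])
    refine ⟨((hd i _ hy').sub (hd i y hy)).const_mul _, fun z hz => ?_⟩
    have h1 := key z hz t ht.1 ht1.1
    have h2 : ‖(D a (f z)).val i y‖ ≤ M := by
      have := norm_D_two a (f z)
      have := (D a (f z)).norm_val_le i y
      have := hM z hz
      have := norm_nonneg (D a (f z))
      linarith
    have h3 : t ^ (1 / 2 : ℝ) ≤ 1 := Real.rpow_le_one ht.1.le ht1.2.le (by norm_num)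
    have hM0 : 0 ≤ M := (norm_nonneg _).trans (hM z hz)
    have := norm_le_insert' ((t : ℂ)⁻¹ * ((f z).val i (y + t • ei a) - (f z).val i y))
      ((D a (f z)).val i y)
    nlinarith
  · rw [Metric.tendstoUniformlyOn_iff]
    intro ε hε
    have hc : Tendsto (fun t : ℝ => 4 * M * t ^ (1 / 2 : ℝ)) (𝓝[>] 0) (𝓝 0) := by
      have : Tendsto (fun t : ℝ => 4 * M * t ^ (1 / 2 : ℝ)) (𝓝 0)
          (𝓝 (4 * M * (0 : ℝ) ^ (1 / 2 : ℝ))) :=
        ((Real.continuousAt_rpow_const 0 _ (Or.inr (by norm_num))).tendsto).const_mul _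
      rw [Real.zero_rpow (by norm_num), mul_zero] at this
      exact this.mono_left nhdsWithin_le_nhds
    filter_upwards [Ioo_mem_nhdsGT hη, hc.eventually (gt_mem_nhds hε)] with t ht h2 z hz
    rw [dist_comm, dist_eq_norm]
    exact (key z hz t ht.1 ht.2).trans_lt h2

/-- **bounded + pointwise holomorphic ⇒ holomorphic** -/
theorem diffOn {f : Z → Cel I k} {U : Set Z} (hU : IsOpen U) {M : ℝ} (hM : ∀ z ∈ U, ‖f z‖ ≤ M)
    (hd : ∀ i, ∀ y ∈ B1, DifferentiableOn ℂ (fun z => (f z).val i y) U) :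
    DifferentiableOn ℂ f U := by
  induction k with
  | zero =>
    refine N250.H.diffOn_of_norming (Y := fun _ => ℂ) (F0 0) F0_le (fun x c hc h => ?_) hU hM
      (diffOn_F0 hd)
    have := norm_le' (x := x) (M := c / 2 ^ (0 + 1)) (by positivity) (fun i => ho_of_F0 h i)
      fun _ _ _ => rfl
    rwa [mul_div_cancel₀ _ (two_pow_pos 0).ne'] at this
  | succ k ih =>
    let Φ : ((I × B1) ⊕ (I × B1 × B1)) ⊕ Fin 4 → Cel I (k + 1) →L[ℂ] ℂ × Cel I k :=
      fun j => match j with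
      | .inl j => (F0 (k + 1) j).prod 0
      | .inr a => (0 : Cel I (k + 1) →L[ℂ] ℂ).prod ((2 : ℂ) • D a)
    have e1 : ∀ j x, ‖Φ (.inl j) x‖ = ‖F0 (k + 1) j x‖ := fun j x => by
      simp [Φ, Prod.norm_def]
    have e2 : ∀ a x, ‖Φ (.inr a) x‖ = 2 * ‖D a x‖ := fun a x => by
      simp [Φ, Prod.norm_def, norm_smul]
    refine N250.H.diffOn_of_norming (Y := fun _ => ℂ × Cel I k) Φ (fun j x => ?_) (fun x c hc h => ?_) hU hM
      fun j => ?_
    · rcases j with j | a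
      · rw [e1]; exact F0_le j x
      · rw [e2]; exact norm_D_two a x
    · have := norm_le' (x := x) (M := c / 2 ^ (k + 1 + 1)) (by positivity) (f := x.val)
        (fun i => ⟨ho_of_F0 (fun j => (e1 j x) ▸ h (.inl j)) i, (x.cka i).diff, fun a => ?_⟩)
        fun _ _ _ => rfl
      · rwa [mul_div_cancel₀ _ (two_pow_pos _).ne'] at this
      · have h2 := h (.inr a)
        rw [e2] at h2
        refine (((D a x).cka' i).congr isOpen_ball fun y hy => (val_D a x i hy).symm).mono ?_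
        rw [pow_succ (2 : ℝ) (k + 1), div_le_div_iff₀ (two_pow_pos k) (by positivity)]
        have := two_pow_pos k
        nlinarith
    · rcases j with j | a
      · exact (diffOn_F0 hd j).prodMk (differentiableOn_const 0)
      · refine (differentiableOn_const 0).prodMk (DifferentiableOn.const_smul (c := (2 : ℂ)) ?_)
        refine ih (f := fun z => D a (f z)) (fun z hz => ?_) fun i y hy => diffOn_val_D hU hM hd a i hy
        have := norm_D_two a (f z)
        have := hM z hz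
        have := norm_nonneg (D a (f z))
        linarith

end Crest.Agent.N207.CB.Cel
end
private theorem rz_136433dba9 : type_of% @_root_.Crest.Agent.N207.CB.Cel.F0.eq_1 := @_root_.Crest.Agent.N207.CB.Cel.F0.eq_1 -- L45
end

-- ▼ part N207/CB/E2b
section

/-! # N207/CB/E2b (helper71): smooth mode families with analytic weight; cell bounds -/

set_option autoImplicit false

open Metric Set Filter Topology
open Crest.Agent.NLib.Ell Crest.Agent.N207.J Crest.Agent.N207.L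

noncomputable section

namespace Crest.Agent.N207.CB

section OneVar
variable {V : Type} [NormedAddCommGroup V] [NormedSpace ℝ V]

theorem hasDerivAt_iter {f : ℝ → V} {t : ℝ} {N j : ℕ} (h : ContDiffAt ℝ N f t) (hj : j < N) :
    HasDerivAt (iteratedDeriv j f) (iteratedDeriv (j + 1) f t) t := by
  rw [iteratedDeriv_succ]
  exact ((h.differentiableAt_iteratedFDeriv (by exact_mod_cast hj)).continuousMultilinear_apply_const
    fun _ => 1).hasDerivAt

theorem continuousAt_iter {f : ℝ → V} {t : ℝ} {N j : ℕ} (h : ContDiffAt ℝ N f t) (hj : j ≤ N) :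
    ContinuousAt (iteratedDeriv j f) t :=
  (continuous_eval_const (fun _ : Fin j => (1 : ℝ))).continuousAt.comp
    (h.continuousAt_iteratedFDeriv (by exact_mod_cast hj))

theorem norm_iter_smul {β : ℝ → ℝ} {f : ℝ → V} {t B M : ℝ} {n : ℕ} (hβ : ContDiffAt ℝ n β t)
    (hf : ContDiffAt ℝ n f t) (hB : ∀ i ≤ n, |iteratedDeriv i β t| ≤ B)
    (hM : ∀ i ≤ n, ‖iteratedDeriv i f t‖ ≤ M) :
    ‖iteratedDeriv n (fun s => β s • f s) t‖ ≤ 2 ^ n * (B * M) := by
  have h := iteratedDerivWithin_smul (mem_univ t) uniqueDiffOn_univ hβ.contDiffWithinAt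
    hf.contDiffWithinAt
  simp only [iteratedDerivWithin_univ] at h
  have hB0 : 0 ≤ B := (abs_nonneg _).trans (hB 0 (Nat.zero_le _))
  calc _ = ‖iteratedDeriv n (β • f) t‖ := rfl
    _ ≤ ∑ i ∈ Finset.range (n + 1), (n.choose i : ℝ) * (B * M) := by
        rw [h]
        refine (norm_sum_le _ _).trans (Finset.sum_le_sum fun i hi => ?_)
        rw [← Nat.cast_smul_eq_nsmul ℝ, norm_smul, norm_smul, Real.norm_natCast, Real.norm_eq_abs]
        have hi' : i ≤ n := Nat.lt_succ_iff.1 (Finset.mem_range.1 hi)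
        gcongr
        exacts [hB i hi', hM _ (Nat.sub_le _ _)]
    _ = _ := by rw [← Finset.sum_mul, ← Nat.cast_sum, Nat.sum_range_choose]; push_cast; ring

end OneVar

section Hol
variable {V : Type} [NormedAddCommGroup V] [NormedSpace ℂ V] [CompleteSpace V]

theorem iter_hol {G : ℂ → V} {W : Set ℂ} (hW : IsOpen W) (hG : DifferentiableOn ℂ G W) (c : ℂ)
    (j : ℕ) {t : ℝ} (ht : c + t ∈ W) :
    iteratedDeriv j (fun s : ℝ => G (c + s)) t = iteratedDeriv j G (c + t) := by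
  induction j generalizing t with
  | zero => simp
  | succ j ih =>
    have hc : Continuous fun s : ℝ => c + s := by fun_prop
    have e : iteratedDeriv j (fun s : ℝ => G (c + s)) =ᶠ[𝓝 t]
        fun s : ℝ => iteratedDeriv j G (c + s) := by
      filter_upwards [hc.continuousAt.preimage_mem_nhds (hW.mem_nhds ht)] with s hs using ih hs
    have hd : HasDerivAt (iteratedDeriv j G) (iteratedDeriv (j + 1) G (c + t)) (c + t) := by
      rw [iteratedDeriv_succ]
      have h1 : ContDiffAt ℂ (j + 1 : ℕ) G (c + t) :=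
        ((hG.analyticAt (hW.mem_nhds ht)).contDiffAt (n := (j + 1 : ℕ)))
      exact ((h1.differentiableAt_iteratedFDeriv (by exact_mod_cast Nat.lt_succ_self j)
        ).continuousMultilinear_apply_const fun _ => 1).hasDerivAt
    have h2 : HasDerivAt (fun s : ℝ => c + s) 1 t := Complex.ofRealCLM.hasDerivAt.const_add c
    have h3 := (hd.hasFDerivAt.restrictScalars ℝ).comp_hasDerivAt t h2
    rw [iteratedDeriv_succ, e.deriv_eq]
    exact h3.deriv.trans (by simp)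

/-- Cauchy estimates for a real function with a bounded holomorphic extension -/
theorem cauchy_real {G : ℂ → V} {z0 : ℂ} {r M : ℝ} (hr : 0 < r)
    (hG : DifferentiableOn ℂ G (ball z0 (2 * r))) (hM : ∀ z ∈ ball z0 (2 * r), ‖G z‖ ≤ M)
    {f : ℝ → V} {t : ℝ} (e : f =ᶠ[𝓝 t] fun s : ℝ => G (z0 - t + s)) (N : ℕ) :
    ContDiffAt ℝ N f t ∧ ∀ j, ‖iteratedDeriv j f t‖ ≤ j.factorial * M / r ^ j := by
  have hz : z0 - t + t ∈ ball z0 (2 * r) := by simp; positivity
  refine ⟨ContDiffAt.congr_of_eventuallyEq ?_ e, fun j => ?_⟩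
  · have h1 : ContDiffAt ℂ N G (z0 - t + t) :=
      (hG.analyticAt (isOpen_ball.mem_nhds hz)).contDiffAt
    exact (h1.restrict_scalars ℝ).comp t
      (contDiffAt_const.add Complex.ofRealCLM.contDiff.contDiffAt)
  · rw [e.iteratedDeriv_eq, iter_hol isOpen_ball hG _ j hz, sub_add_cancel]
    have hs : closedBall z0 r ⊆ ball z0 (2 * r) := closedBall_subset_ball (by linarith)
    exact Complex.norm_iteratedDeriv_le_of_forall_mem_sphere_norm_le j hr
      (hG.diffContOnCl_ball hs) fun z hz => hM z (hs (sphere_subset_closedBall hz))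

end Hol

/-- `C^N` mode families with the analytic weight `o ^ k` -/
structure Sm (I : Set ℝ) (N : ℕ) (o M : ℝ) (f : Md) : Prop where
  mode : ∀ k x, P k (f k x) = f k x
  cd : ∀ k, ∀ t ∈ I, ContDiffAt ℝ N (f k) t
  bd : ∀ k, ∀ j ≤ N, ∀ t ∈ I, ‖iteratedDeriv j (f k) t‖ ≤ M * o ^ k

variable {I : Set ℝ} {N : ℕ} {o M : ℝ} {f : Md}

/-- multiplication by a cut-off supported in `I` -/
theorem Sm.cut (h : Sm I N o M f) (ho : 0 ≤ o) (hM : 0 ≤ M) {β : ℝ → ℝ} {B : ℝ}
    (hβ : ContDiff ℝ N β) (hB : ∀ i ≤ N, ∀ t, |iteratedDeriv i β t| ≤ B) (hs : tsupport β ⊆ I) :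
    Sm univ N o (2 ^ N * (B * M)) fun k t => β t • f k t := by
  have hB0 : 0 ≤ B := (abs_nonneg _).trans (hB 0 (Nat.zero_le _) 0)
  have e0 : ∀ k t, t ∉ I → (fun t => β t • f k t) =ᶠ[𝓝 t] fun _ => 0 := fun k t ht => by
    filter_upwards [notMem_tsupport_iff_eventuallyEq.1 fun h' => ht (hs h')] with s hs
    rw [hs]; simp
  refine ⟨fun k x => by rw [ContinuousLinearMap.map_smul_of_tower, h.mode], fun k t _ => ?_,
    fun k j hj t _ => ?_⟩
  · by_cases ht : t ∈ I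
    · exact hβ.contDiffAt.smul (h.cd k t ht)
    · exact contDiffAt_const.congr_of_eventuallyEq (e0 k t ht)
  · by_cases ht : t ∈ I
    · have hj' : (j : WithTop ℕ∞) ≤ N := by exact_mod_cast hj
      refine (norm_iter_smul (hβ.contDiffAt.of_le hj') ((h.cd k t ht).of_le hj')
        (fun i hi => hB i (hi.trans hj) t) fun i hi => h.bd k i (hi.trans hj) t ht).trans ?_
      calc _ = 2 ^ j * (B * M) * o ^ k := by ring
        _ ≤ _ := by gcongr; norm_num
    · rw [(e0 k t ht).iteratedDeriv_eq, iteratedDeriv_const]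
      split_ifs <;> simp <;> positivity

theorem Sm.shift (h : Sm I N o M f) (c : ℝ) :
    Sm ((· - c) ⁻¹' I) N o M fun k t => f k (t - c) :=
  ⟨fun k x => h.mode k _, fun k t ht => (h.cd k _ ht).comp t (contDiffAt_id.sub contDiffAt_const),
    fun k j hj t ht => by rw [iteratedDeriv_comp_sub_const]; exact h.bd k j hj _ ht⟩

theorem Sm.P_iter (h : Sm I N o M f) (hI : IsOpen I) (k : ℕ) {j : ℕ} (hj : j ≤ N) {t : ℝ}
    (ht : t ∈ I) : P k (iteratedDeriv j (f k) t) = iteratedDeriv j (f k) t := by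
  induction j generalizing t with
  | zero => simpa using h.mode k t
  | succ j ih =>
    have h1 := hasDerivAt_iter (h.cd k t ht) (Nat.lt_of_succ_le hj)
    have h2 := ((P k).restrictScalars ℝ).hasFDerivAt.comp_hasDerivAt t h1
    refine (h2.congr_of_eventuallyEq ?_).unique h1
    filter_upwards [hI.mem_nhds ht] with s hs
    exact (ih (Nat.le_of_succ_le hj) hs).symm

/-- `∑ (k+1)^n o^k` -/
def cS (n : ℕ) (o : ℝ) : ℝ := ∑' k : ℕ, ((k : ℝ) + 1) ^ n * o ^ k

theorem summable_cS (n : ℕ) (h0 : 0 < o) (h1 : o < 1) :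
    Summable fun k : ℕ => ((k : ℝ) + 1) ^ n * o ^ k := by
  have := (summable_nat_add_iff 1).2
    (summable_pow_mul_geometric_of_norm_lt_one n (r := o) (by rwa [Real.norm_of_nonneg h0.le]))
  refine (this.mul_left o⁻¹).congr fun k => ?_
  push_cast
  field_simp
  ring

theorem cS_nonneg (n : ℕ) (h0 : 0 ≤ o) : 0 ≤ cS n o := tsum_nonneg fun k => by positivity

theorem Sm.mb (h : Sm I N o M f) (hI : IsOpen I) (h0 : 0 < o) (h1 : o < 1) (hM : 0 ≤ M) {j : ℕ}
    (hj : j ≤ N) (n : ℕ) : Mb I n (cS n o * M) fun k => iteratedDeriv j (f k) :=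
  ⟨fun k _ hx => h.P_iter hI k hj hx, fun k => ((k : ℝ) + 1) ^ n * o ^ k * M,
    (summable_cS n h0 h1).mul_right M, by rw [tsum_mul_right]; rfl, fun k => by positivity,
    fun k x hx => by
      calc _ ≤ ((k : ℝ) + 1) ^ n * (M * o ^ k) := by gcongr; exact h.bd k j hj x hx
        _ = _ := by ring⟩

theorem Sm.ch (h : Sm I N o M f) (hI : IsOpen I) (h0 : 0 < o) (h1 : o < 1) (hM : 0 ≤ M) :
    Ch I N (cS (N + 2) o * M) fun j => val fun k => iteratedDeriv j (f k) := by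
  have hv : ∀ j ≤ N, ∀ k, ∀ t ∈ I, P k (toH (val (fun k => iteratedDeriv j (f k)) t)) =
      iteratedDeriv j (f k) t := fun j hj k t ht => (h.mb hI h0 h1 hM hj (0 + 2)).P_val ht k
  refine Ch.of_modes hI (fun j hj => (h.mb hI h0 h1 hM hj (N + 2)).ub.le (by omega))
    (fun k => ContinuousOn.congr (fun t ht =>
      (continuousAt_iter (h.cd k t ht) le_rfl).continuousWithinAt) fun t ht => hv N le_rfl k t ht)
    fun j hj k t ht => ?_
  rw [hv (j + 1) hj k t ht]
  refine (hasDerivAt_iter (h.cd k t ht) hj).congr_of_eventuallyEq ?_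
  filter_upwards [hI.mem_nhds ht] with s hs using hv j hj.le k s hs

/-- `∑_{j ≤ n} cB j 0` -/
def cB' (n : ℕ) : ℝ := ∑ j ∈ Finset.range (n + 1), cB j 0

theorem cB_le {j n : ℕ} (h : j ≤ n) : cB j 0 ≤ cB' n :=
  Finset.single_le_sum (f := fun j => cB j 0) (fun i _ => (cB_pos i 0).le)
    (Finset.mem_range.2 (Nat.lt_succ_of_le h))

theorem cB'_pos (n : ℕ) : 0 < cB' n := (cB_pos 0 0).trans_le (cB_le (Nat.zero_le n))

/-- scale invariant derivative bounds give bounds on the cells `B(c, ρ)`, `2ρ ≤ ‖c‖` -/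
theorem cka_cell {U : E4 → ℂ} {k : ℕ} {M : ℝ}
    (hU : ContDiffOn ℝ (k + 1 : ℕ) U {x | x ≠ 0})
    (hb : ∀ j ≤ k + 1, ∀ x : E4, x ≠ 0 → ‖x‖ ^ j * ‖iteratedFDeriv ℝ j U x‖ ≤ M)
    {c : E4} {ρ : ℝ} (h0 : 0 < ρ) (hρ : 2 * ρ ≤ ‖c‖) :
    CKA (1 / 2) (ball 0 1) k (2 * M) fun y => U (c + ρ • y) := by
  have hn : ∀ y ∈ ball (0 : E4) 1, ρ ≤ ‖c + ρ • y‖ := fun y hy => by
    have h1 : ‖ρ • y‖ ≤ ρ := by
      rw [norm_smul, Real.norm_of_nonneg h0.le]
      exact mul_le_of_le_one_right h0.le (mem_ball_zero_iff.1 hy).le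
    have := norm_sub_norm_le c (-(ρ • y))
    rw [sub_neg_eq_add, norm_neg] at this
    linarith
  have hne : ∀ y ∈ ball (0 : E4) 1, c + ρ • y ≠ 0 := fun y hy =>
    norm_pos_iff.1 (h0.trans_le (hn y hy))
  have hA : ContDiff ℝ (k + 1 : ℕ) fun y : E4 => c + ρ • y := by fun_prop
  refine CKA.of_bounds isOpen_ball (convex_ball _ _) (by norm_num) (by norm_num)
    (hU.comp hA.contDiffOn hne) fun j hj y hy => ?_
  have hat : ContDiffAt ℝ (k + 1 : ℕ) U (c + ρ • y) :=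
    hU.contDiffAt (isOpen_ne.mem_nhds (hne y hy))
  let L : E4 →L[ℝ] E4 := ρ • ContinuousLinearMap.id ℝ E4
  have hL : ‖L‖ ≤ ρ := by
    refine ContinuousLinearMap.opNorm_le_bound _ h0.le fun y => ?_
    simp [L, norm_smul, abs_of_pos h0]
  have e : (fun y => U (c + ρ • y)) = (fun z => U (c + z)) ∘ L := rfl
  have h1 : ContDiffAt ℝ (k + 1 : ℕ) (fun z => U (c + z)) (L y) :=
    hat.comp (L y) (contDiffAt_const.add contDiffAt_id)
  have h2 : iteratedFDeriv ℝ j ((fun z => U (c + z)) ∘ L) y =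
      (iteratedFDeriv ℝ j (fun z => U (c + z)) (L y)).compContinuousLinearMap fun _ => L := by
    obtain ⟨s, hs, hs'⟩ := h1.contDiffOn (m := j) (by exact_mod_cast hj) (by simp)
    obtain ⟨t, hts, ht, hy'⟩ := _root_.mem_nhds_iff.1 hs
    have ht' : IsOpen (L ⁻¹' t) := ht.preimage L.continuous
    rw [← iteratedFDerivWithin_of_isOpen j ht' hy', ← iteratedFDerivWithin_of_isOpen j ht hy']
    exact L.iteratedFDerivWithin_comp_right (hs'.mono hts) ht.uniqueDiffOn ht'.uniqueDiffOn hy'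
      le_rfl
  rw [e, h2, iteratedFDeriv_comp_add_left]
  refine (ContinuousMultilinearMap.norm_compContinuousLinearMap_le _ _).trans ?_
  rw [Finset.prod_const, Finset.card_univ, Fintype.card_fin, mul_comm]
  refine le_trans ?_ (hb j hj _ (hne y hy))
  exact mul_le_mul (pow_le_pow_left₀ (norm_nonneg _) (hL.trans (hn y hy)) j) le_rfl
    (norm_nonneg _) (by positivity)

/-- the cell bound of the function of a smooth family on the whole line -/
theorem Sm.cka {k : ℕ} (h : Sm univ (k + 1) o M f) (h0 : 0 < o) (h1 : o < 1) (hM : 0 ≤ M)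
    {c : E4} {ρ : ℝ} (hρ0 : 0 < ρ) (hρ : 2 * ρ ≤ ‖c‖) :
    CKA (1 / 2) (ball 0 1) k (2 * (cB' (k + 1) * (cS (k + 3) o * M)))
      fun y => ann (val f) (c + ρ • y) := by
  have hc := h.ch isOpen_univ h0 h1 hM
  have e : An univ = {x : E4 | x ≠ 0} := by ext x; simp [An]
  have h2 := hc.contDiffOn isOpen_univ
  rw [e] at h2
  simp only [iteratedDeriv_zero] at h2
  refine cka_cell h2 (fun j hj x hx => ?_) hρ0 hρ
  have h3 := hc.bound isOpen_univ hj (x := x) (by rw [e]; exact hx)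
  simp only [iteratedDeriv_zero] at h3
  have := cS_nonneg (k + 3) h0.le
  exact h3.trans (mul_le_mul_of_nonneg_right (cB_le hj) (by positivity))

end Crest.Agent.N207.CB
end
end

-- ▼ part N207/CB/E2c

/-! # N207/CB/E2c (helper71): the collar family for real `z` is a reparametrisation -/

set_option autoImplicit false
set_option linter.unusedSectionVars false

open Metric Set Filter Topology
open Crest.Agent.N207.J

noncomputable section

namespace Crest.Agent.N207.L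

/-! ### explicit free solutions -/

namespace Pth.Ok
variable {γ : Pth} {C o : ℝ}

theorem tw_AA (h : γ.Ok C o) (ho : 0 < o) (m : ℂ) (k : ℕ) (x y : ℝ) :
    γ.tw 1 k x * (γ.Aw m k x / γ.Aw m k y) = Complex.exp (m * (γ.t x - γ.t y)) * γ.tw 1 k y := by
  have h1 := h.tw_ne ho 1 k x
  have h2 := h.tw_ne ho 1 k y
  have h3 := Complex.exp_ne_zero (m * γ.t y)
  rw [mul_sub, Complex.exp_sub, Aw, Aw]
  field_simp

theorem tru_EM (h : γ.Ok C o) (ho : 0 < o) (A : D) (k : ℕ) (x : ℝ) :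
    tru 6 γ.w γ.om (γ.EM A) k x = Complex.exp (-(k + 2) * (γ.t x - γ.t γ.a)) •
      ((γ.w γ.a : ℂ) • trD (γ.om γ.a) A k) := by
  rw [smul_trD, tru_sol, h.EM_apply ho, h.em_apply ho, map_smul, smul_comm (γ.tw 1 k x),
    smul_smul (γ.tw 1 k x), h.tw_AA ho, smul_smul, smul_smul, smul_smul]
  congr 1; ring

theorem tru_EP (h : γ.Ok C o) (ho : 0 < o) (hf : γ.fin = true) (B : D) (k : ℕ) (x : ℝ) :
    tru 6 γ.w γ.om (γ.EP B) k x = Complex.exp (k * (γ.t x - γ.t (γ.pt k))) •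
      ((γ.w (γ.pt k) : ℂ) • trD (γ.om (γ.pt k)) B k) := by
  rw [smul_trD, tru_sol, h.EP_apply ho, h.ep_apply ho hf, map_smul, smul_comm (γ.tw 1 k x),
    smul_smul (γ.tw 1 k x), h.tw_AA ho, smul_smul, smul_smul, smul_smul]
  congr 1; ring

end Pth.Ok

/-! ### the real reparametrisation -/

def cφ (a z x : ℝ) : ℝ :=
  cl a (a + 3) x + z * ((cl a (a + 1) x - a) - (cl (a + 2) (a + 3) x - (a + 2)))

def cφ' (a z x : ℝ) : ℝ := ind a (a + 3) x + z * (ind a (a + 1) x - ind (a + 2) (a + 3) x)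

variable {a z : ℝ}

lemma colt_real (a z x : ℝ) : colt a z x = cφ a z x := by simp [colt, cφ]

lemma colτ_real (a z x : ℝ) : colτ a z x = cφ' a z x := by simp [colτ, cφ']

lemma cφ_cont (a z : ℝ) : Continuous (cφ a z) := by
  have := cl_cont a (a + 3)
  have := cl_cont a (a + 1)
  have := cl_cont (a + 2) (a + 3)
  unfold cφ; fun_prop

lemma cφ_der (a z x : ℝ) : HasDerivWithinAt (cφ a z) (cφ' a z x) (Ici x) x :=
  (cl_der' (by linarith) x).add ((((cl_der' (by linarith) x).sub_const a).sub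
    ((cl_der' (by linarith) x).sub_const (a + 2))).const_mul z)

lemma cφ_inc (hz : |z| ≤ 1 / 2) {r s : ℝ} (h : r ≤ s) :
    1 / 2 * (cl a (a + 3) s - cl a (a + 3) r) ≤ cφ a z s - cφ a z r := by
  have := colt_inc (a := a) (z := z) (by simpa using hz) h
  rwa [colt_real, colt_real, ← Complex.ofReal_sub, Complex.ofReal_re] at this

lemma cφ_mono (hz : |z| ≤ 1 / 2) : Monotone (cφ a z) := fun r s h => by
  have := cφ_inc (a := a) hz h
  have := cl_mono a (a + 3) h
  linarith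

lemma cφ_left (a z : ℝ) : cφ a z a = a := by
  have := colt_left a z
  rw [colt_real] at this; exact_mod_cast this

lemma cφ_right (a z : ℝ) : cφ a z (a + 3) = a + 3 := by
  have := colt_right a z
  rw [colt_real] at this; exact_mod_cast this

lemma cφ_mid {x : ℝ} (z : ℝ) (h1 : a + 1 ≤ x) (h2 : x ≤ a + 2) : cφ a z x = x + z := by
  have := colt_mid (z : ℂ) h1 h2
  rw [colt_real] at this; exact_mod_cast this

lemma cφ_cl (a z x : ℝ) : cφ a z (cl a (a + 3) x) = cφ a z x := by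
  rw [cφ, cφ, cl_cl le_rfl (by linarith) le_rfl, cl_cl le_rfl (by linarith) (by linarith),
    cl_cl (by linarith) (by linarith) le_rfl]

lemma cφ_mem (hz : |z| ≤ 1 / 2) (x : ℝ) : a ≤ cφ a z x ∧ cφ a z x ≤ a + 3 := by
  rw [← cφ_cl]
  exact ⟨(cφ_left a z).symm.trans_le (cφ_mono hz (le_cl _ _ _)),
    (cφ_mono hz (cl_le (by linarith) _)).trans_eq (cφ_right a z)⟩

lemma cφ_ind (hz : |z| ≤ 1 / 2) (x : ℝ) :
    colτ a z x = (cφ' a z x : ℂ) * (ind a (a + 3) (cφ a z x) : ℝ) := by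
  rcases ind_cases a (a + 3) x with ⟨h1, h2, _⟩ | ⟨_, h⟩
  · have h3 := cφ_inc (a := a) hz h2.le
    rw [cφ_right, cl_of_mem h1 h2.le, cl_of_ge (by linarith) le_rfl] at h3
    rw [ind_of_mem (cφ_mem hz x).1 (by linarith), colτ_real]; simp
  · rcases colτ_cases a z x with ⟨_, h'⟩ | ⟨h', _⟩
    · rw [← colτ_real, h']; simp
    · rw [h] at h'; norm_num at h'

lemma omL_cφ {κ : ℝ} (hκ : 0 ≤ κ) (h0 : 0 ≤ z) (hz : z ≤ 1 / 2) (x : ℝ) :
    omL a κ (cφ a z x) ≤ omL a κ x := by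
  have hz' : |z| ≤ 1 / 2 := by rwa [abs_of_nonneg h0]
  have h1 : cl a (a + 1) x ≤ cφ a z x := by
    rcases le_total x (a + 1) with h | h
    · have e : cl a (a + 3) x = cl a (a + 1) x := by
        unfold cl; rw [min_eq_left h, min_eq_left (by linarith)]
      rw [cφ, e, cl_of_le (show x ≤ a + 2 by linarith)]
      have := le_cl a (a + 1) x
      nlinarith
    · have := cφ_mono (a := a) hz' h
      rw [cφ_mid z le_rfl (by linarith)] at this
      rw [cl_of_ge (by linarith) h]; linarith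
  have h2 := cl_mono a (a + 1) h1
  rw [cl_cl le_rfl (by linarith) le_rfl] at h2
  exact Real.exp_le_exp.2 (by nlinarith)

lemma omR_cφ {κ : ℝ} (hκ : 0 ≤ κ) (h0 : z ≤ 0) (hz : -(1 / 2) ≤ z) (x : ℝ) :
    omR (a + 3) κ (cφ a z x) ≤ omR (a + 3) κ x := by
  have hz' : |z| ≤ 1 / 2 := abs_le.2 ⟨hz, by linarith⟩
  have h1 : cφ a z x ≤ cl (a + 2) (a + 3) x := by
    rcases le_total (a + 2) x with h | h
    · have e : cl a (a + 3) x = cl (a + 2) (a + 3) x := by
        unfold cl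
        rw [max_eq_right (le_min (by linarith) (by linarith)), max_eq_right (le_min h (by linarith))]
      rw [cφ, e, cl_of_ge (show a ≤ a + 1 by linarith) (by linarith)]
      have := cl_le (show a + 2 ≤ a + 3 by linarith) x
      nlinarith
    · have := cφ_mono (a := a) hz' h
      rw [cφ_mid (x := a + 2) z (by linarith) le_rfl] at this
      rw [cl_of_le h]; linarith
  have h2 := cl_mono (a + 2) (a + 3) h1
  rw [cl_cl le_rfl (by linarith) le_rfl] at h2
  unfold omR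
  rw [show a + 3 - 1 = a + 2 by ring]
  exact Real.exp_le_exp.2 (by nlinarith)

/-- a collar with analytic weight `o1` in the middle; `s = ± 1/8` is the admissible direction -/
structure Col (a xs : ℝ) (om : ℝ → ℝ) (C o o1 s : ℝ) : Prop where
  fam : (str a (a + 3) xs 1 0 om).Fam (colt a) (colτ a) (ball 0 (1 / 2)) C o
  op : 0 < o
  xs : xs = a ∨ xs = a + 3
  hs : |s| = 1 / 8
  mid : ∀ x, a + 1 ≤ x → x ≤ a + 2 → om x = o1
  lt : o1 < 1
  le : ∀ z : ℝ, |z - s| < 1 / 8 → ∀ x, om (cφ a z x) ≤ om x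

theorem col_L (a : ℝ) {κ C : ℝ} (h0 : 0 < κ) (h1 : κ ≤ 1 / 8) (hC : 9 ≤ C) :
    Col a (a + 3) (omL a κ) C (Real.exp (-κ)) (Real.exp (-κ)) (1 / 8) := by
  obtain ⟨p1, p2, p3, p4, p5⟩ := omL_props (a := a) (b := a + 3) (by linarith) h0.le h1
  refine ⟨fam_col (by linarith) le_rfl one_pos le_rfl (Or.inl (by norm_num)) (by simp) (by simp) hC
    p1 p2 p3 (Real.exp_pos _).le p4 p5, Real.exp_pos _, Or.inr rfl, by norm_num,
    fun x h2 _ => ?_, Real.exp_lt_one_iff.2 (by linarith), fun z hz x => ?_⟩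
  · rw [omL, cl_of_ge (by linarith) h2]; congr 1; ring
  · have := abs_lt.1 hz
    exact omL_cφ h0.le (by linarith) (by linarith) x

theorem col_R (a : ℝ) {κ C : ℝ} (h0 : 0 < κ) (h1 : κ ≤ 1 / 8) (hC : 9 ≤ C) :
    Col a a (omR (a + 3) κ) C (Real.exp (-κ)) (Real.exp (-κ)) (-(1 / 8)) := by
  obtain ⟨p1, p2, p3, p4, p5⟩ := omR_props (a := a) (b := a + 3) (by linarith) h0.le h1
  refine ⟨fam_col le_rfl (by linarith) one_pos le_rfl (Or.inl (by norm_num)) (by simp) (by simp) hC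
    p1 p2 p3 (Real.exp_pos _).le p4 p5, Real.exp_pos _, Or.inl rfl, by norm_num,
    fun x _ h2 => ?_, Real.exp_lt_one_iff.2 (by linarith), fun z hz x => ?_⟩
  · rw [omR, cl_of_le (by linarith)]; congr 1; ring
  · have := abs_lt.1 hz
    exact omR_cφ h0.le (by linarith) (by linarith) x

variable {ι : Type} [Fintype ι]

/-- the solution minus the free solution with data `v0` -/
def dS (N : NL ι) (C o : ℝ) (γ : Pth) (v v0 : DD ι) : Tr ι := N.sol C o γ v - γ.L0 v0

/-- `p + q` -/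
def uu (i : ι) : Tr ι →L[ℂ] CL :=
  ContinuousLinearMap.proj i ∘L ContinuousLinearMap.fst ℂ _ _ +
    ContinuousLinearMap.proj i ∘L ContinuousLinearMap.fst ℂ _ _ ∘L ContinuousLinearMap.snd ℂ _ _

theorem uu_apply (i : ι) (S : Tr ι) : uu i S = S.1 i + S.2.1 i := rfl

theorem norm_uu (i : ι) (S : Tr ι) : ‖uu i S‖ ≤ 2 * ‖S‖ :=
  (norm_add_le (S.1 i) (S.2.1 i)).trans (by linarith [S.norm_p i, S.norm_q i])

theorem norm_dS {N : NL ι} {γ : Pth} {C o : ℝ} (h : γ.Ok C o) (ho : 0 < o) {v : DD ι}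
    (hv : ‖v‖ ≤ N.eta C o) (v0 : DD ι) :
    ‖dS N C o γ v v0‖ ≤ ‖v - v0‖ + (8 * C + 1) * (N.K2 o * ‖v‖ ^ 2) := by
  rw [show dS N C o γ v v0 = γ.L0 (v - v0) + (N.sol C o γ v - γ.L0 v) by rw [dS, map_sub]; abel]
  exact (norm_add_le _ _).trans (add_le_add (h.norm_L0 ho _) (NL.norm_sol_sub h ho hv))

theorem tru_uu_dS (N : NL ι) (C o : ℝ) (γ : Pth) (v v0 : DD ι) (i : ι) (k : ℕ) (x : ℝ) :
    tru 6 γ.w γ.om (uu i (dS N C o γ v v0)) k x =
      ((N.sol C o γ v).p γ i k x + (N.sol C o γ v).q γ i k x) -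
        ((γ.L0 v0).p γ i k x + (γ.L0 v0).q γ i k x) := by
  rw [dS, map_sub, tru_sub]
  simp only [uu_apply, tru_add]
  rfl

namespace Col
variable {xs C o o1 s : ℝ} {om : ℝ → ℝ}

theorem abs_le (h : Col a xs om C o o1 s) (hz : |z - s| < 1 / 8) : |z| < 1 / 2 := by
  have := abs_sub_abs_le_abs_sub z s
  rw [h.hs] at this; linarith

theorem pt (h : Col a xs om C o o1 s) (z : ℝ) (k : ℕ) :
    cφ a z ((str a (a + 3) xs 1 0 om).pt k) = (str a (a + 3) xs 1 0 om).pt k := by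
  unfold Pth.pt
  split_ifs
  · rcases h.xs with e | e <;> simp only [str, e, cφ_left, cφ_right]
  · exact cφ_right a z

theorem reparam_sol (h : Col a xs om C o o1 s) (hz : |z - s| < 1 / 8) (N : NL ι) {v : DD ι}
    (hv : 2 * ‖v‖ ≤ N.eta C o) {γ γ' : Pth} (hγ : γ = str a (a + 3) xs 1 0 om)
    (hγ' : γ' = γ.re (colt a z) (colτ a z)) :
    cmpV ((N.sol C o γ v).p γ) (cφ a z) = (N.sol C o γ' v).p γ' ∧
      cmpV ((N.sol C o γ v).q γ) (cφ a z) = (N.sol C o γ' v).q γ' := by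
  have hz2 := h.abs_le hz
  have h0 : γ.Ok C o := hγ ▸ h.fam.base
  have h1 : γ'.Ok C o := by rw [hγ', hγ]; exact h.fam.ok z (by simpa using hz2)
  have hv' : ‖v‖ ≤ N.eta C o := by linarith [norm_nonneg v]
  have hw : ∀ x, γ.w x = 1 := fun x => by simp [hγ, str]
  have hw' : γ'.w = γ.w := by rw [hγ']; rfl
  have ho' : γ'.om = γ.om := by rw [hγ']; rfl
  have hτ : ∀ x, γ'.τ x = cφ' a z x * γ.τ (cφ a z x) := fun x => by
    rw [hγ', hγ]; exact cφ_ind hz2.le x
  have hs := (NL.sol_sol h0 h.op hv').cmp (τ' := γ'.τ) (w' := γ'.w) (om' := γ'.om) (κ := 1)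
    (η' := N.eta C o) (cφ_cont a z) (cφ_mono hz2.le) (cφ_der a z) hτ le_rfl
    (by linarith) (fun x => (h0.w0 x).le) (fun x => (h0.om0 h.op x).le)
    (fun x => by rw [hw', hw, hw]; norm_num) (fun x => by rw [ho', hγ]; exact h.le z hz x)
  have hd := N.sol_dat h0 h.op v
  have ea : γ'.a = γ.a := by rw [hγ']; rfl
  have eb : γ'.b = γ.b := by rw [hγ']; rfl
  have ep : γ'.pt = γ.pt := by rw [hγ']; rfl
  have ea' : cφ a z γ.a = γ.a := by rw [hγ]; exact cφ_left a z
  have ep' : ∀ k, cφ a z (γ.pt k) = γ.pt k := by rw [hγ]; exact h.pt z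
  have hf : γ.fin = true := by rw [hγ]; rfl
  obtain ⟨e1, e2, -⟩ := Sol.eq_sol h1 h.op hs le_rfl (v := v)
    ⟨fun i k => by rw [ea, hw', ho', cmpV, cmpM, ea']; exact hd.hq i k,
    fun _ i k => by rw [ep, eb, hw', ho', cmpV, cmpM, ep']; exact hd.hp hf i k⟩ hv'
  exact ⟨e1, e2⟩

theorem reparam_lin (h : Col a xs om C o o1 s) (hz : |z - s| < 1 / 8) (v0 : DD ι)
    {γ γ' : Pth} (hγ : γ = str a (a + 3) xs 1 0 om) (hγ' : γ' = γ.re (colt a z) (colτ a z))
    (i : ι) (k : ℕ) (x : ℝ) : (γ'.L0 v0).p γ' i k x = (γ.L0 v0).p γ i k (cφ a z x) ∧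
      (γ'.L0 v0).q γ' i k x = (γ.L0 v0).q γ i k (cφ a z x) := by
  have hz2 := h.abs_le hz
  have h0 : γ.Ok C o := hγ ▸ h.fam.base
  have h1 : γ'.Ok C o := by rw [hγ', hγ]; exact h.fam.ok z (by simpa using hz2)
  have hw' : γ'.w = γ.w := by rw [hγ']; rfl
  have ho' : γ'.om = γ.om := by rw [hγ']; rfl
  have ea : γ'.a = γ.a := by rw [hγ']; rfl
  have ep : γ'.pt = γ.pt := by rw [hγ']; rfl
  have ea' : cφ a z γ.a = γ.a := by rw [hγ]; exact cφ_left a z
  have ep' : ∀ k, cφ a z (γ.pt k) = γ.pt k := by rw [hγ]; exact h.pt z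
  have hf : γ.fin = true := by rw [hγ]; rfl
  have hf' : γ'.fin = true := by rw [hγ']; exact hf
  have et : ∀ y, γ'.t y = γ.t (cφ a z y) := fun y => by
    rw [hγ', hγ]
    show colt a z y = (cl a (a + 3) (cφ a z y) : ℝ)
    rw [colt_real, cl_of_mem (cφ_mem hz2.le y).1 (cφ_mem hz2.le y).2]
  constructor
  · refine (h1.tru_EP h.op hf' (v0.2 i) k x).trans
      (Eq.trans ?_ (h0.tru_EP h.op hf (v0.2 i) k _).symm)
    rw [et, et, ep, ep', hw', ho']
  · refine (h1.tru_EM h.op (v0.1 i) k x).trans (Eq.trans ?_ (h0.tru_EM h.op (v0.1 i) k _).symm)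
    rw [et, et, ea, ea', hw', ho']

/-- for real admissible `z` the family is the reparametrised straight solution -/
theorem reparam (h : Col a xs om C o o1 s) (hz : |z - s| < 1 / 8) (N : NL ι) {v : DD ι}
    (hv : 2 * ‖v‖ ≤ N.eta C o) (v0 : DD ι) {γ γ' : Pth} (hγ : γ = str a (a + 3) xs 1 0 om)
    (hγ' : γ' = γ.re (colt a z) (colτ a z)) (i : ι) (k : ℕ) (x : ℝ) :
    tru 6 γ'.w γ'.om (uu i (dS N C o γ' v v0)) k x =
      tru 6 γ.w γ.om (uu i (dS N C o γ v v0)) k (cφ a z x) := by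
  obtain ⟨e1, e2⟩ := h.reparam_sol hz N hv hγ hγ'
  obtain ⟨e3, e4⟩ := h.reparam_lin hz v0 hγ hγ' i k x
  rw [tru_uu_dS, tru_uu_dS]
  exact congrArg₂ (· - ·) (congrArg₂ (· + ·) (congrFun (congrFun (congrFun e1.symm i) k) x)
    (congrFun (congrFun (congrFun e2.symm i) k) x)) (congrArg₂ (· + ·) e3 e4)

end Col

end Crest.Agent.N207.L
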