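import Crest.Agent.N207.Ga.Iter
import Crest.Agent.N207.Ga.St2
import Crest.Agent.N207.M.Nd1
import Crest.Agent.N207.Ga.Lim_Mg
import Crest.Agent.N207.Ga.Data2
import Crest.Agent.N207.M.Defs
import Crest.Agent.N207.Ga.Met3
import Crest.Agent.N207.K.Hd8
import Crest.Agent.N207.K.Ins3
import Crest.Agent.N207.M.Rad
import Crest.Agent.N207.M.Df2
import Crest.Agent.N207.K.Pop3
import Crest.Agent.N207.M.Ce
import Crest.Agent.N207.A.Arr
import Crest.Agent.N207.A.Co2
import Crest.Agent.N207.T.Lo1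
import Crest.Agent.N207.GE.Rad
import Crest.Agent.R238.HBMat
import Crest.Agent.N207.K.Trf
import Crest.Agent.N207.I.Cal4
import Crest.Agent.N207.CB.Co3
import Crest.Agent.N207.CB.Ext2

-- ▼ part N207/Ga/Fin
section

/-!
# Row 207, GAUGE (helper3): assembly
-/

set_option autoImplicit false

open Metric Set Filter Topology
open Crest.Agent.N207.I Crest.Agent.N207.CB Crest.Agent.N207.N

noncomputable section

namespace Crest.Agent.N207.Ga

variable {M : Type*} {T : TD M}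

theorem gauge_of {ι : Type} {g : T.V → Fam T} {γ : ℝ} {l : Filter ι} {L : ι → T.V → ℝ}
    {G : ι → Fam T} (hγ : 0 < γ) (h1 : SET T g γ l L G) (hx : X3 T g (γ / 5)) (hl : LIE)
    (hs : SEC T) (hm : EXTMP) (hL : LIM T) : GAUGE T g γ l L G := by
  obtain ⟨hlg, K, r0, C1, T1, hK, hr0, hC1, h1⟩ := h1
  obtain ⟨C, T2, hC, hx⟩ := hx
  obtain ⟨C3, hC3, hL⟩ := hL
  have hA := cA_ge hK
  have h0 := c0_pos hK
  have t0 : Tendsto (fun T0 : ℝ => C1 * Real.exp (-(4 / 5 * γ * T0))) atTop (𝓝 0) := by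
    simpa using (Real.tendsto_exp_neg_atTop_nhds_zero.comp
      (tendsto_id.const_mul_atTop (show 0 < 4 / 5 * γ by positivity))).const_mul C1
  have t1 : ∀ c ε : ℝ, 0 < ε → ∀ᶠ T0 : ℝ in atTop, c * (C1 * Real.exp (-(4 / 5 * γ * T0))) < ε :=
    fun c ε hε => (t0.const_mul c).eventually (gt_mem_nhds (by simpa using hε))
  obtain ⟨T3, h3⟩ := eventually_atTop.1 ((t1 1 1 one_pos).and
    ((t1 (cA K * (2 * C * c0 K)) (1 / 8) (by norm_num)).and
    ((t1 (cA K * (2 * C * c0 K)) r0 hr0).and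
    (t1 (cT K * (1 + 2 * C * c0 K) * C) (1 / 2) (by norm_num)))))
  refine ⟨C3 * (cA K * (2 * C * (c0 K * C1))), max T1 (max T2 T3), by positivity, fun T0 hT => ?_⟩
  obtain ⟨l0, hx⟩ := hx T0 ((le_max_left _ _).trans ((le_max_right _ _).trans hT))
  obtain ⟨a1, a2, a3, a4⟩ := h3 T0 ((le_max_right _ _).trans ((le_max_right _ _).trans hT))
  filter_upwards [h1 T0 ((le_max_left _ _).trans hT), hlg l0] with i ⟨E, R0, S⟩ hi
  set η := C1 * Real.exp (-(4 / 5 * γ * T0)) with hη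
  have hη0 : 0 ≤ η := by positivity
  have s : Sm K r0 (2 * C * (c0 K * η)) := ⟨by positivity, by linarith, by linarith⟩
  obtain ⟨u, u1, u2, u3, u4, u5⟩ :=
    iter S hl hs hm (hx (L i) hi) hη0 (by linarith) hC.le rfl s (by linarith)
  have hR := S.R2
  obtain ⟨v, v1, v2⟩ := hL (L i) _ (G i) _ (2 * R0) _ u S.ok S.long S.mb S.mG s.s1 (by linarith)
    u1 u2 u3 u4 fun x hx =>
      ⟨(S.flat x (by linarith)).1, (S.flat x (by linarith)).2.1, u5 x hx⟩
  refine ⟨v, ?_, v2⟩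
  convert v1 using 1
  rw [hη]; ring

end Crest.Agent.N207.Ga

end
end

-- ▼ part N207/Ga/Extmp
section

/-!
# Row 207, GAUGE (helper43): the exterior maximum principle
-/

set_option autoImplicit false

open scoped ContDiff
open Metric Set Filter Topology
open Crest.GeometryTopology.CoordMetric

noncomputable section

namespace Crest.Agent.N207.Ga

open Crest.Agent.N207.M

theorem extmp_up {w : E4 → ℝ} {R m : ℝ} (hR : 0 < R) (hm : 0 ≤ m)
    (hw : ∀ x : E4, R ≤ ‖x‖ → ContDiffAt ℝ 2 w x) (hl : ∀ x : E4, R ≤ ‖x‖ → lap0 w x = 0)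
    (h0 : Tendsto w (cocompact E4) (𝓝 0)) (h1 : ∀ x : E4, ‖x‖ = R → w x ≤ m) {x : E4}
    (hx : R ≤ ‖x‖) : w x ≤ m * R ^ 2 / ‖x‖ ^ 2 := by
  have e : ∀ y : E4, R ≤ ‖y‖ → ‖y‖ ^ (-2 : ℝ) = (‖y‖ ^ 2)⁻¹ := fun y _ => by
    rw [Real.rpow_neg (norm_nonneg _), Real.rpow_two]
  refine le_of_forall_pos_le_add fun ε hε => ?_
  obtain ⟨K, hK, k⟩ := mem_cocompact.1 (h0.eventually (gt_mem_nhds hε))
  obtain ⟨b, hb⟩ := hK.isBounded.subset_closedBall 0
  have ne : ∀ y : E4, R ≤ ‖y‖ → y ≠ 0 := fun y i => norm_pos_iff.1 (hR.trans_le i)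
  have c1 : ∀ y : E4, R ≤ ‖y‖ → ContDiffAt ℝ 2 (fun z : E4 => -(m * R ^ 2) * ‖z‖ ^ (-2 : ℝ)) y :=
    fun y i => contDiffAt_const.mul (contDiffAt_rp _ (ne y i))
  have := mp_ann (w := fun y => w y + -(m * R ^ 2) * ‖y‖ ^ (-2 : ℝ) + -ε) (a := R)
    (b := max (b + 1) ‖x‖) (x := x) hR
    (fun y i => ((hw y i.1).add (c1 y i.1)).add contDiffAt_const) (fun y i _ => ?_)
    (fun y i j => ?_) (fun y i j => ?_) ⟨hx, le_max_right _ _⟩
  · rw [e x hx] at this
    rw [div_eq_mul_inv]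
    linarith
  · rw [lap0_add ((hw y i.le).add (c1 y i.le)) contDiffAt_const, lap0_add (hw y i.le) (c1 y i.le),
      lap0_const, lap0_cmul, lap0_rp _ (ne y i.le), hl y i.le]
    norm_num
  · have := h1 y j
    rw [e y i.1, j, neg_mul, mul_inv_cancel_right₀ (by positivity)]
    linarith
  · have : w y < ε := k fun q => by
      have := mem_closedBall_zero_iff.1 (hb q)
      have := le_max_left (b + 1) ‖x‖
      linarith
    have : 0 ≤ m * R ^ 2 * ‖y‖ ^ (-2 : ℝ) := by positivity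
    linarith

theorem extmp : EXTMP := by
  intro w R m hR hw hl h0 h1 x hx
  have hm : 0 ≤ m := (abs_nonneg _).trans (h1 ((R / ‖x‖) • x) (by
    have : 0 < ‖x‖ := hR.trans_le hx
    rw [norm_smul, Real.norm_of_nonneg (by positivity)]; field_simp))
  have c : ∀ x : E4, R ≤ ‖x‖ → ContDiffAt ℝ 2 w x := fun y i =>
    hw.contDiffAt ((isOpen_lt continuous_const continuous_norm).mem_nhds
      (show R / 2 < ‖y‖ by linarith))
  refine abs_le.2 ⟨?_, extmp_up hR hm c hl h0 (fun y i => (le_abs_self _).trans (h1 y i)) hx⟩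
  have := extmp_up (w := fun y => -1 * w y) hR hm (fun y i => contDiffAt_const.mul (c y i))
    (fun y i => by rw [lap0_cmul, show lap0 w y = 0 from hl y i, mul_zero])
    (by simpa using h0.const_mul (-1)) (fun y i => by have := neg_abs_le (w y); linarith [h1 y i]) hx
  linarith

end Crest.Agent.N207.Ga

end
end

-- ▼ part N207/Ga/Main
section

/-!
# Row 207, GAUGE (helper3): everything but `X3`
-/

set_option autoImplicit false

open Filter
open Crest.Agent.N207.I Crest.Agent.N207.CB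

namespace Crest.Agent.N207.Ga

theorem gauge_x3 {M : Type*} {T : TD M} {ι : Type} {g : T.V → Fam T} {γ : ℝ} {l : Filter ι}
    {L : ι → T.V → ℝ} {G : ι → Fam T} (h : T.Ok) (h0 : 0 < γ) (h1 : γ ≤ 1) (hL : T.Lim g γ)
    (hS : T.Seq g γ l L G) (hF : ∀ᶠ i in l, Sk.Flat T (G i)) (hx : X3 T g (γ / 5)) :
    GAUGE T g γ l L G :=
  gauge_of h0 (set h h0 hS hF (met h hL) (exp h) (data h hL hS h0 h1)) hx lie (sec T) extmp
    (lim T boot hdec)

end Crest.Agent.N207.Ga
end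

-- ▼ part N207/M/Gbc
section

/-!
# Row 207 (helper18): **GBC**
-/

set_option autoImplicit false

open Metric Set
open Crest.GeometryTopology.CoordMetric Crest.Agent.R202.Tens
open Crest.Agent.N207.I Crest.Agent.N207.CB Crest.Agent.N207.Jt Crest.Agent.N207.Ga

noncomputable section

namespace Crest.Agent.N207.M

variable {M : Type*} {T : TD M} {g : T.V → Fam T} {γ : ℝ}

/-- **GBC** -/
theorem gbc (h : T.Ok) (hL : T.Lim g γ) : GBC T g γ := by
  obtain ⟨C, h0, hC⟩ := gbL_sj h hL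
  obtain ⟨D, c, h1, hc, hD⟩ := ball_bd hL
  have h2 := h1 0
  have h3 := inv_pos.2 hc
  refine ⟨fun k => C k + D k, 2 + c⁻¹ + 16 * D 0, 4 / T.r, by linarith, fun T0 hT =>
    ⟨2 * T0 + 1, fun L hl => ⟨gR_met h hL hT hl, fun w k p q x hx => ?_, fun w x hx => ?_,
      fun a k p q x hx => ((hD a x hx).2 k p q).trans (by linarith [h0 k]), fun a x hx => ?_⟩⟩⟩
  · refine ((hC T0 L w x hx p q).le (glob_ne hx) k).trans ?_
    have := wt_nonneg (T := T) (γ := γ) (L := L) (w := w) (x := x)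
    gcongr
    linarith [h1 k]
  · refine ell_of (by simpa using gbL_pos h hL hx) fun v => ?_
    have := (abs_le.1 (TR.bil_sub_inner (gbL_small (T0 := T0) h hL hx) v v)).2
    rw [real_inner_self_eq_norm_sq] at this
    nlinarith [norm_nonneg v]
  · refine ell_of ((hD a x hx).1.mono ?_) fun v => ?_
    · rw [inv_le_comm₀ (by linarith) hc]; linarith
    · have := (abs_le.1 (abs_bil_le (A := g (T.vx a) (Sum.inl a) x) (C := D 0) (fun p q => by
        simpa [norm_iteratedFDeriv_zero] using (hD a x hx).2 0 p q) v v)).2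
      push_cast at this
      refine this.trans ?_
      nlinarith [mul_nonneg h3.le (sq_nonneg ‖v‖)]

end Crest.Agent.N207.M

end
end

-- ▼ part N207/M/Hg
section

/-!
# Row 207, X3 (helper5): the leaf `HG`
-/

set_option autoImplicit false

open scoped ContDiff ENNReal NNReal
open Metric Set Filter Topology MeasureTheory
open Crest.GeometryTopology.CoordMetric
open Crest.Agent.N207.I Crest.Agent.N207.CB Crest.Agent.N207.N Crest.Agent.N207.Hd

noncomputable section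

namespace Crest.Agent.N207.M

variable {M : Type*} {T : TD M} {γ Λ θ : ℝ} {C : ℕ → ℝ} {L : T.V → ℝ} {H : Fam T}

theorem Cls.ellG (h : T.Ok) (hH : Cls T γ C Λ L H) (hΛ : 2 ≤ Λ) (h0 : 0 < θ) (h1 : θ < 1) :
    EllG T θ Λ L (rt T L H) := fun s x hx => by
  refine ell_smul ?_ (sq_nonneg _)
  cases s with
  | inl a => exact hH.ellb a x ((mem_closedBall_zero_iff.1 hx).trans (by linarith))
  | inr w =>
    exact ell_mono (hH.elln w x (gKt_sub h h0 h1 _ hx)) (inv_anti₀ two_pos hΛ) hΛ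

theorem hg (h : T.Ok) (hc : ∀ v, (T.base v).Conn) : HG T := by
  intro γ C Λ hΛ
  obtain ⟨θ, h1, h2, hθ⟩ := hardyG h hc
  obtain ⟨D, hD⟩ := hθ Λ (by linarith)
  refine ⟨((D : ℝ) + 1)⁻¹, by positivity, fun L H hL hH U S hU hS hV => ?_⟩
  have hO := h.glob_ok hL
  have hχ := h.glob_pou hL
  have hb := hH.met
  obtain ⟨S', s1, s2, s3⟩ := hS.exists_cl hO
  have n1 : ∀ s, ∀ x ∈ (T.glob L).U s, 0 ≤ nsq (rt T L H s) (U s) x / Sk.rw T L s x ^ 2 :=
    fun s x hx => div_nonneg (nsq_nonneg (hb.riem s) hx _) (sq_nonneg _)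
  have n2 : ∀ s, ∀ x ∈ (T.glob L).U s, 0 ≤ nsq (rt T L H s) (cov (rt T L H s) (U s)) x :=
    fun s x hx => nsq_nonneg (hb.riem s) hx _
  have i1 : (T.glob L).Intg T.χ (rt T L H)
      fun s x => nsq (rt T L H s) (U s) x / Sk.rw T L s x ^ 2 :=
    Atl.intg_of_cs hO hb hχ hS (fun s => (hU.ct_ip hb hU s).div ((cont_rw s).pow 2).continuousOn
      fun x hx => (pow_pos (rw_pos s hx) 2).ne')
      ((hV.ip_left (G := rt T L H) U).of_imp fun s y _ e => by
        rw [show nsq (rt T L H s) (U s) y = 0 from e, zero_div])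
  have i2 : (T.glob L).Intg T.χ (rt T L H) fun s => nsq (rt T L H s) (cov (rt T L H s) (U s)) :=
    Atl.intg_of_cs hO hb hχ s2 ((hU.cov hO hb).ct_ip hb (hU.cov hO hb))
      (((hV.mono s1).cov hO s3).ip_left _)
  obtain ⟨K, k1, -, k3⟩ := hS.exists_cpt hO (hχ.sub (Sum.inr T.root)) (hχ.cl _)
  obtain ⟨R, hR⟩ := k1.isBounded.subset_closedBall 0
  have key := hD L _ hL hb (hH.ellG h hΛ (by linarith) h2) 1 U hU ⟨max (R + 1) 2, by
    rw [setLIntegral_congr_fun (measurableSet_le measurable_const measurable_norm)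
      (g := fun _ => 0) fun x hx => ?_]
    · simp
    have x1 : R + 1 ≤ ‖x‖ := (le_max_left _ _).trans hx
    have x2 : 2 ≤ ‖x‖ := (le_max_right _ _).trans hx
    have hx' : x ∈ (T.glob L).U (Sum.inr T.root) := ⟨by linarith, fun h => absurd rfl h⟩
    have : U (Sum.inr T.root) x = 0 := by
      by_contra h0
      have := mem_closedBall_zero_iff.1 (hR (k3 x hx' ⟨x, ⟨by linarith, fun h => absurd rfl h⟩, rfl⟩
        (hV _ x hx' h0)))
      linarith
    simp [nsq, ip, this, ipA_zero_left]⟩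
  rw [← Atl.ofReal_int hO hχ i1 n1, ← Atl.ofReal_int hO hχ i2 n2, ENNReal.coe_nnreal_eq,
    ← ENNReal.ofReal_mul D.coe_nonneg] at key
  have p := Atl.int_nonneg (G := rt T L H) hO hχ n2
  have := (ENNReal.ofReal_le_ofReal_iff (mul_nonneg D.coe_nonneg p)).1 key
  rw [inv_mul_le_iff₀ (by positivity)]
  linarith

end Crest.Agent.N207.M

end
end

-- ▼ part N207/M/Lex
section

/-!
# Row 207, X3 (helper1): the leaf `LEX`
-/

set_option autoImplicit false

open Crest.Agent.N207.I Crest.Agent.N207.N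

namespace Crest.Agent.N207.M

theorem lex {M : Type*} {T : TD M} (h : T.Ok) (hH : HG T) : LEX T := by
  intro γ C Λ L H hΛ hL hc F R' hF h0
  obtain ⟨c, c0, h1⟩ := hH γ C Λ hΛ
  obtain ⟨S, h2, h3⟩ := exists_cs h hL hF.compat h0
  exact K.lin_ex (h.glob_ok hL) (h.glob_pou hL) hc.met (fun s => (Hd.cont_rw s).continuousOn)
    (fun s _ hx => Hd.rw_pos s hx) c0 (h1 L H hL hc) hF
    (Atl.intg_of_cs (h.glob_ok hL) hc.met (h.glob_pou hL) h2
      (fun s => ((Hd.cont_rw s).continuousOn.pow 2).mul (hF.ct_ip hc.met hF s))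
      ((h3.ip_left F).of_imp fun b y _ e => by rw [nsq, e, mul_zero]))

end Crest.Agent.N207.M
end

-- ▼ part N207/M/Lx
section

/-!
# Row 207, X3 (helper91): expansion of the rough Laplacian on 1-forms, the leaves `M1`, `M2W`
-/

set_option autoImplicit false

open scoped ContDiff
open Metric Set Filter Topology MeasureTheory
open Crest.GeometryTopology.CoordMetric
open Crest.Agent.NLib.Ell Crest.Agent.N207.I Crest.Agent.N207.CB
open Crest.Agent.R238 (Ell)

noncomputable section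

namespace Crest.Agent.N207.M

namespace Lx

/-- first order coefficients -/
def lB (G : MetricField 4) (i j q : Fin 4) (y : E4) : ℝ :=
  -(∑ b, (G y)⁻¹ i b * christoffel G y q b j) - (∑ a, (G y)⁻¹ a i * christoffel G y q a j) -
    (if q = j then 1 else 0) * ∑ a, ∑ b, (G y)⁻¹ a b * christoffel G y i a b

/-- zero order coefficients -/
def lC (G : MetricField 4) (j q : Fin 4) (y : E4) : ℝ :=
  ∑ a, ∑ b, (G y)⁻¹ a b * (∑ m, christoffel G y m a b * christoffel G y q m j +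
    ∑ m, christoffel G y m a j * christoffel G y q b m -
      pderiv a (fun z => christoffel G z q b j) y)

theorem alg (H : Fin 4 → Fin 4 → ℝ) (Γ : Fin 4 → Fin 4 → Fin 4 → ℝ) (X : Fin 4 → Fin 4 → ℝ)
    (dX : Fin 4 → Fin 4 → Fin 4 → ℝ) (u pj : Fin 4 → ℝ) (p s : Fin 4 → Fin 4 → ℝ) :
    ∑ a, ∑ b, H a b * (s a b - ∑ m, (dX a m b * u m + X m b * p a m) -
      ∑ m, Γ m a b * (pj m - ∑ n, X n m * u n) - ∑ m, X m a * (p b m - ∑ n, Γ n b m * u n)) =
    ∑ a, ∑ b, H a b * s a b +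
      (∑ i, ∑ q, (-(∑ b, H i b * X q b) - ∑ a, H a i * X q a) * p i q -
        ∑ i, (∑ a, ∑ b, H a b * Γ i a b) * pj i) +
      ∑ q, (∑ a, ∑ b, H a b * (∑ m, Γ m a b * X q m + ∑ m, X m a * Γ q b m - dX a q b)) * u q := by
  simp only [Fin.sum_univ_four]
  ring

theorem lap_exp {G : MetricField 4} {o : Tn 4 1} {U : Set E4} (hG : IsRiemannianOn G U)
    (ho : SmT o U) {y : E4} (hy : y ∈ U) (j : Fin 4) :
    lapT G o y ![j] = ∑ a, ∑ b, (G y)⁻¹ a b * pderiv a (pderiv b fun z => o z ![j]) y +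
      ∑ i, ∑ q, lB G i j q y * pderiv i (fun z => o z ![q]) y + ∑ q, lC G j q y * o y ![q] := by
  have hn := hG.isOpen.mem_nhds hy
  have df : ∀ {f : E4 → ℝ}, ContDiffOn ℝ ∞ f U → DifferentiableAt ℝ f y := fun h =>
    (h.contDiffAt hn).differentiableAt (by simp)
  have d1 := fun m a b => df (sm_chr hG m a b)
  have d2 := fun m : Fin 4 => df (ho ![m])
  have d3 := fun b => df (sm_pd hG.isOpen (ho ![j]) b)
  have e : ∀ a b, cov G (cov G o) y ![a, b, j] = pderiv a (pderiv b fun z => o z ![j]) y -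
      ∑ m, (pderiv a (fun z => christoffel G z m b j) y * o y ![m] +
        christoffel G y m b j * pderiv a (fun z => o z ![m]) y) -
      ∑ m, christoffel G y m a b * (pderiv m (fun z => o z ![j]) y -
        ∑ n, christoffel G y n m j * o y ![n]) -
      ∑ m, christoffel G y m a j * (pderiv b (fun z => o z ![m]) y -
        ∑ n, christoffel G y n b m * o y ![n]) := fun a b => by
    simp only [cov_two, cov_one]
    rw [pd_sub a (d3 b) (DifferentiableAt.fun_sum fun m _ => (d1 m b j).fun_mul (d2 m)),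
      pd_sum a _ fun m _ => (d1 m b j).fun_mul (d2 m)]
    simp only [fun m => pd_mul a (d1 m b j) (d2 m)]
  have e0 : lapT G o y ![j] = ∑ a, ∑ b, (G y)⁻¹ a b * cov G (cov G o) y ![a, b, j] := rfl
  simp only [e0, e]
  refine (alg _ (christoffel G y) (fun m b => christoffel G y m b j)
    (fun a m b => pderiv a (fun z => christoffel G z m b j) y) (fun m => o y ![m])
    (fun m => pderiv m (fun z => o z ![j]) y) (fun a m => pderiv a (fun z => o z ![m]) y) _).trans ?_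
  refine congrArg₂ (· + ·) (congrArg₂ (· + ·) rfl ?_) rfl
  simp only [lB, sub_mul, Finset.sum_sub_distrib, ite_mul, one_mul, zero_mul,
    Finset.sum_ite_eq', Finset.mem_univ, if_true]

/-- `f d = O(w d)` in `C^{k,1/2}(U d)`, uniformly in `d` -/
def Og {D : Type*} (U : D → Set E4) (k : ℕ) (w : D → ℝ) (f : D → E4 → ℝ) : Prop :=
  ∃ C, 0 ≤ C ∧ ∀ d, CKA (1 / 2) (U d) k (C * w d) (f d)

namespace Og

variable {D : Type*} {U : D → Set E4} {k : ℕ} {w w' : D → ℝ} {f g : D → E4 → ℝ}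

theorem of (h : ∀ d, CKA (1 / 2) (U d) k (w d) (f d)) : Og U k w f :=
  ⟨1, zero_le_one, fun d => by simpa only [one_mul] using h d⟩

theorem of1 {C : ℝ} (h : ∀ d, CKA (1 / 2) (U d) k C (f d)) : Og U k 1 f :=
  ⟨|C|, abs_nonneg C, fun d => (h d).mono (by simpa using le_abs_self C)⟩

theorem const (c : ℝ) : Og U k 1 fun _ _ => c := of1 fun _ => CKA.const c

theorem pred (h : Og U (k + 1) w f) : Og U k w f := h.imp fun _ h => ⟨h.1, fun d => (h.2 d).pred⟩

theorem pd (h : Og U (k + 1) w f) (i : Fin 4) : Og U k w fun d => pderiv i (f d) :=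
  h.imp fun _ h => ⟨h.1, fun d => (h.2 d).pd i⟩

theorem one {W : ℝ} (hw : ∀ d, w d ≤ W) (h : Og U k w f) : Og U k 1 f :=
  let ⟨C, h0, h1⟩ := h
  of1 (C := C * W) fun d => (h1 d).mono (mul_le_mul_of_nonneg_left (hw d) h0)

variable (hU : ∀ d, IsOpen (U d))
include hU

theorem congr (h : Og U k w f) (e : ∀ d, ∀ y ∈ U d, g d y = f d y) : Og U k w g :=
  h.imp fun _ h => ⟨h.1, fun d => (h.2 d).congr (hU d) (e d)⟩

theorem add (hf : Og U k w f) (hg : Og U k w g) : Og U k w fun d y => f d y + g d y :=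
  let ⟨C, h0, h1⟩ := hf
  let ⟨C', h2, h3⟩ := hg
  ⟨C + C', add_nonneg h0 h2, fun d => add_mul C C' (w d) ▸ (h1 d).add (hU d) (h3 d)⟩

theorem neg (hf : Og U k w f) : Og U k w fun d y => -f d y :=
  hf.imp fun _ h => ⟨h.1, fun d => (h.2 d).neg (hU d)⟩

theorem sub (hf : Og U k w f) (hg : Og U k w g) : Og U k w fun d y => f d y - g d y := by
  simpa only [sub_eq_add_neg] using add hU hf (neg hU hg)

theorem mul (hf : Og U k w f) (hg : Og U k w' g) :
    Og U k (fun d => w d * w' d) fun d y => f d y * g d y :=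
  let ⟨C, h0, h1⟩ := hf
  let ⟨C', h2, h3⟩ := hg
  ⟨2 ^ (k + 1) * (C * C'), by positivity, fun d =>
    ((h1 d).mul (hU d) (h3 d)).mono (le_of_eq (by ring))⟩

theorem mul1 (hf : Og U k 1 f) (hg : Og U k w g) : Og U k w fun d y => f d y * g d y := by
  simpa only [Pi.one_apply, one_mul] using mul hU hf hg

theorem sum {ι : Type*} [Fintype ι] {F : ι → D → E4 → ℝ} (h : ∀ i, Og U k w (F i)) :
    Og U k w fun d y => ∑ i, F i d y := by
  choose C h0 h1 using h
  exact ⟨∑ i, C i, Finset.sum_nonneg fun i _ => h0 i, fun d =>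
    Finset.sum_mul Finset.univ C (w d) ▸ CKA.sum (hU d) _ fun i _ => h1 i d⟩

variable {G : D → MetricField 4} (hi : ∀ a b, Og U (k + 1) 1 fun d y => (G d y)⁻¹ a b)
  (hd : ∀ c a b, Og U (k + 1) w fun d => pderiv c fun y => G d y a b)
include hi hd

theorem chr (m a b : Fin 4) : Og U (k + 1) w fun d y => christoffel (G d) y m a b :=
  mul1 hU (const (1 / 2)) (sum hU fun l => mul1 hU (hi m l)
    (sub hU (add hU (hd a b l) (hd b a l)) (hd l a b)))

theorem lB (i j q : Fin 4) : Og U k w fun d => lB (G d) i j q :=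
  have c := fun m a b => (chr hU hi hd m a b).pred
  sub hU (sub hU (neg hU (sum hU fun b => mul1 hU (hi i b).pred (c q b j)))
    (sum hU fun a => mul1 hU (hi a i).pred (c q a j)))
    (mul1 hU (const _) (sum hU fun a => sum hU fun b => mul1 hU (hi a b).pred (c i a b)))

theorem lC {W : ℝ} (hw : ∀ d, w d ≤ W) (j q : Fin 4) : Og U k w fun d => lC (G d) j q :=
  have c := fun m a b => (chr hU hi hd m a b).pred
  sum hU fun a => sum hU fun b => mul1 hU (hi a b).pred (sub hU (add hU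
    (sum hU fun m => mul1 hU ((c m a b).one hw) (c q m j))
    (sum hU fun m => mul1 hU ((c m a j).one hw) (c q b m))) ((chr hU hi hd q b j).pd a))

end Og

end Lx

open Lx

theorem m2w : M2W := by
  intro k W
  obtain ⟨C0, -, h0⟩ := K.cka_inv (k + 1) (lo := 2⁻¹) (by norm_num) 2 (W + 1)
  let D := {p : Set E4 × MetricField 4 × Tn 4 1 × ℝ × ℝ // p.2.2.2.1 ≤ W ∧
    IsRiemannianOn p.2.1 p.1 ∧ SmT p.2.2.1 p.1 ∧
    (∀ a b, CKA (1 / 2) p.1 (k + 2) p.2.2.2.1 (TD.dv p.2.1 a b)) ∧ (∀ y ∈ p.1, Ell 2⁻¹ 2 (p.2.1 y)) ∧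
    ∀ j, CKA (1 / 2) p.1 (k + 2) p.2.2.2.2 fun y => p.2.2.1 y ![j]}
  have hU : ∀ d : D, IsOpen d.1.1 := fun d => d.2.2.1.isOpen
  have hv : ∀ a b, Og (fun d : D => d.1.1) (k + 2) (fun d => d.1.2.2.2.1)
      fun d => TD.dv d.1.2.1 a b := fun a b => .of fun d => d.2.2.2.2.1 a b
  have ho : ∀ j, Og (fun d : D => d.1.1) (k + 2) (fun d => d.1.2.2.2.2)
      fun d y => d.1.2.2.1 y ![j] := fun j => .of fun d => d.2.2.2.2.2.2 j
  have eG : ∀ (G : MetricField 4) a b, (fun y => G y a b) =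
      fun y => TD.dv G a b y + (1 : Matrix (Fin 4) (Fin 4) ℝ) a b := fun G a b => by
    funext y; simp [TD.dv]
  have hi : ∀ a b, Og (fun d : D => d.1.1) (k + 1) 1 fun d y => (d.1.2.1 y)⁻¹ a b := fun a b =>
    .of1 fun d => h0 _ _ (hU d) d.2.2.2.2.2.1 (fun a b => by
      rw [eG]
      refine ((d.2.2.2.2.1 a b).pred.add (hU d) (CKA.const _)).mono (add_le_add d.2.1 ?_)
      rw [Matrix.one_apply]; split_ifs <;> simp) a b
  have hd : ∀ c a b, Og (fun d : D => d.1.1) (k + 1) (fun d => d.1.2.2.2.1)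
      fun d => pderiv c fun y => d.1.2.1 y a b := fun c a b => by
    refine ((hv a b).pd c).congr hU fun d y _ => ?_
    rw [eG]; simp only [pderiv, fderiv_add_const]
  have key : ∀ j, Og (fun d : D => d.1.1) k (fun d => d.1.2.2.2.1 * d.1.2.2.2.2) fun d y =>
      lapT d.1.2.1 d.1.2.2.1 y ![j] - lap0 (fun z => d.1.2.2.1 z ![j]) y := fun j =>
    Og.congr hU (Og.add hU (Og.add hU (Og.sum hU fun a => Og.sum hU fun b => Og.mul hU
      (Og.neg hU (Og.sum hU fun c => Og.mul1 hU (hi a c).pred (hv c b).pred.pred))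
      (((ho j).pd b).pd a)) (Og.sum hU fun i => Og.sum hU fun q => Og.mul hU
        (Og.lB hU hi hd i j q) ((ho q).pd i).pred)) (Og.sum hU fun q => Og.mul hU
        (Og.lC hU hi hd (fun d => d.2.1) j q) (ho q).pred.pred)) fun d y hy => by
      rw [lap_exp d.2.2.1 d.2.2.2.1 hy]
      have e : ∀ a b, -∑ c, (d.1.2.1 y)⁻¹ a c * TD.dv d.1.2.1 c b y =
          (d.1.2.1 y)⁻¹ a b - (1 : Matrix (Fin 4) (Fin 4) ℝ) a b := fun a b => by
        have h1 := Matrix.nonsing_inv_mul _ (d.2.2.1.posDef y hy).det_pos.ne'.isUnit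
        have h2 := congrFun (congrFun (Matrix.mul_sub (d.1.2.1 y)⁻¹ (d.1.2.1 y) 1) a) b
        rw [h1, Matrix.mul_one, Matrix.mul_apply] at h2
        simp only [Matrix.sub_apply] at h2
        simp only [TD.dv, h2, neg_sub]
      simp only [e, sub_mul, Finset.sum_sub_distrib, Matrix.one_apply, ite_mul, one_mul, zero_mul,
        Finset.sum_ite_eq, Finset.mem_univ, if_true, lap0]
      ring
  choose C h1 h2 using key
  refine ⟨∑ j, C j + 1, by have := Finset.sum_nonneg fun j (_ : j ∈ Finset.univ) => h1 j; linarith,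
    fun U G o w Mo hw hG hs hv' he ho' j => ?_⟩
  rcases U.eq_empty_or_nonempty with rfl | ⟨x, hx⟩
  · exact CKA.empty _
  refine (h2 j ⟨(U, G, o, w, Mo), hw, hG, hs, hv', he, ho'⟩).mono (mul_le_mul_of_nonneg_right ?_
    (mul_nonneg ((hv' 0 0).nonneg hx) ((ho' 0).nonneg hx)))
  linarith [Finset.single_le_sum (fun j _ => h1 j) (Finset.mem_univ j)]

theorem m2 : M2 := fun k => m2w k 1

theorem m1 : M1 := by
  intro k Kc hK
  have K0 : 0 < Kc := by linarith
  obtain ⟨C0, -, h0⟩ := K.cka_inv (k + 1) (lo := Kc⁻¹) (by positivity) Kc Kc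
  let D := {G : MetricField 4 // (∀ a b, CKA (1 / 2) BB (k + 2) Kc fun y => G y a b) ∧
    ∀ y ∈ BB, Ell Kc⁻¹ Kc (G y)}
  have hU : ∀ _ : D, IsOpen BB := fun _ => isOpen_ball
  have hi : ∀ a b, Og (fun _ : D => BB) (k + 1) 1 fun d y => (d.1 y)⁻¹ a b := fun a b =>
    .of1 fun d => h0 _ _ isOpen_ball d.2.2 (fun a b => (d.2.1 a b).pred) a b
  have hd : ∀ c a b, Og (fun _ : D => BB) (k + 1) 1 fun d => pderiv c fun y => d.1 y a b :=
    fun c a b => (Og.of1 fun d : D => d.2.1 a b).pd c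
  have un : ∀ {f : D → E4 → ℝ}, Og (fun _ : D => BB) k 1 f →
      ∃ C, 0 ≤ C ∧ ∀ d, CKA (1 / 2) BB k C (f d) := fun h => by simpa [Og] using h
  obtain ⟨C1, c1, h1⟩ := K.ex_unif (V := fun _ : D => BB)
    (f := fun (i : Fin 4 × Fin 4) d y => (d.1 y)⁻¹ i.1 i.2) fun i => un (hi i.1 i.2).pred
  obtain ⟨C2, c2, h2⟩ := K.ex_unif (V := fun _ : D => BB)
    (f := fun (i : Fin 4 × Fin 4 × Fin 4) d => lB d.1 i.1 i.2.1 i.2.2)
    fun i => un (Og.lB hU hi hd _ _ _)
  obtain ⟨C3, c3, h3⟩ := K.ex_unif (V := fun _ : D => BB)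
    (f := fun (i : Fin 4 × Fin 4) d => lC d.1 i.1 i.2)
    fun i => un (Og.lC hU hi hd (W := 1) (fun _ => le_rfl) _ _)
  obtain ⟨C, hC, H⟩ := K.sys_radii 4 k (Fin 4) (a := 1 / 2) (lo := 1 / Kc) (hi := 1 / Kc⁻¹)
    (by norm_num) (by norm_num) (by positivity)
    (one_div_le_one_div_of_le (by positivity) ((inv_le_one_of_one_le₀ hK).trans hK))
    (M := C1 + C2 + C3) (by positivity) (r := 1 / 4) (R := 1 / 2) (by norm_num) (by norm_num)
    (by norm_num)
  refine ⟨8 * C, by positivity, fun G o N S hN hS hG ho hM he hf hI j => ?_⟩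
  refine (CKA.of_local (δ := 1 / 4) (M := C * (N + S)) (by norm_num) (by norm_num) (by norm_num)
    (by norm_num) fun x hx => ?_).mono (le_of_eq (by ring))
  have s1 : closedBall x (1 / 2) ⊆ BB := closedBall_subset_ball' (by
    have := mem_ball.1 hx; linarith)
  have s2 : ball x (1 / 2) ⊆ BB := ball_subset_closedBall.trans s1
  obtain ⟨V, hV⟩ := K.exists_cka (a := 1 / 2) (x0 := x) (R := 1 / 2) hG.isOpen
    (contDiffOn_pi.2 fun q : Fin 4 => ho ![q]) s1 (by norm_num) (by norm_num) 2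
  refine H x (fun y => (G y)⁻¹) (lB G) (lC G) (fun q y => o y ![q]) (fun q y => lapT G o y ![q])
    N S hN ⟨fun y hy => R238.Ell.inv (by positivity) ((inv_le_one_of_one_le₀ hK).trans hK) (he y (s2 hy)),
      fun a b => ((h1 (a, b) ⟨G, hM, he⟩).subset s2).mono (by linarith),
      fun i p q => ((h2 (i, p, q) ⟨G, hM, he⟩).subset s2).mono (by linarith),
      fun p q => ((h3 (p, q) ⟨G, hM, he⟩).subset s2).mono (by linarith),
      fun p => (hf p).subset s2, ⟨V, fun p => hV.apply isOpen_ball p⟩, hS,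
      fun p => (setIntegral_mono_set (hI p).1 (Eventually.of_forall fun _ => sq_nonneg _)
        (LE.le.eventuallyLE s2)).trans (hI p).2, fun p y hy => ?_⟩ j
  rw [lap_exp hG ho (s2 hy)]
  refine congrArg₂ (· + ·) (congrArg₂ (· + ·) (Finset.sum_congr rfl fun a _ =>
    Finset.sum_congr rfl fun b _ => ?_) rfl) rfl
  exact congrArg _ (K.D2_pd (c2At (ho _) hG.isOpen (s2 hy)) a b)

end Crest.Agent.N207.M

end
end

-- ▼ part N207/M/Nc
section

/-!
# Row 207, X3 (helper16): neck decay in the cells (`NC`)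
-/

set_option autoImplicit false

open scoped ContDiff ENNReal
open Metric Set Filter Topology MeasureTheory
open Crest.GeometryTopology.CoordMetric
open Crest.Agent.NLib.Ell Crest.Agent.N207.I Crest.Agent.N207.CB Crest.Agent.N207.N
  Crest.Agent.N207.Ga
open Crest.Agent.R238 (Ell)

noncomputable section

namespace Crest.Agent.N207.M

namespace Nc

theorem pd_sc (c r : ℝ) (x : E4) (f : E4 → ℝ) (i : Fin 4) :
    pderiv i (fun y => c * f (x + r • y)) = fun y => c * r * pderiv i f (x + r • y) := by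
  funext y
  have := fderiv_comp_smul (𝕜 := ℝ) (f := fun z => f (x + z)) (x := y) r
  rw [fderiv_comp_add_left] at this
  rw [pd_cmul, pderiv, this]
  simp [pderiv, mul_assoc]

theorem lap0_sc (c r : ℝ) (x : E4) (f : E4 → ℝ) :
    lap0 (fun y => c * f (x + r • y)) = fun y => c * r * r * lap0 f (x + r • y) := by
  funext y
  simp only [lap0, pd_sc, Finset.mul_sum]

theorem pd1_bdd {f : E4 → ℝ} {m : ℝ} (h : CKA (1 / 2) B1 1 m f) (i : Fin 4) :
    |pderiv i f 0| ≤ m := (h.pd i).bdd (mem_ball_self one_pos)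

theorem pd2_bdd {f : E4 → ℝ} {m : ℝ} (h : CKA (1 / 2) B1 2 m f) (i j : Fin 4) :
    |pderiv i (pderiv j f) 0| ≤ m := pd1_bdd (h.pd j) i

theorem prof_mul (a b g c P Q r : ℝ) : prof a b g (c * P) (c * Q) r = c * prof a b g P Q r := by
  unfold prof; ring

theorem prof_cell {a b g P Q r s : ℝ} (ha : 0 < a) (hb : 0 < b) (hg0 : 0 ≤ g) (hg : g ≤ 1)
    (hP : 0 ≤ P) (hQ : 0 ≤ Q) (hr : 0 < r) (h1 : r / 2 ≤ s) (h2 : s ≤ 2 * r) :
    prof a b g P Q s ≤ 2 * prof a b g P Q r := by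
  rcases le_total s r with h | h
  · exact prof_half ha hb hg0 hg hP hQ hr h1 h
  have hs : 0 < s := by linarith
  have e1 : (a / s) ^ g ≤ (a / r) ^ g := Real.rpow_le_rpow (by positivity) (by gcongr) hg0
  have e2 : (s / b) ^ g ≤ (2 * (r / b)) ^ g :=
    Real.rpow_le_rpow (by positivity) (by rw [← mul_div_assoc]; gcongr) hg0
  rw [Real.mul_rpow (by norm_num) (by positivity)] at e2
  have e3 : (2 : ℝ) ^ g ≤ 2 := by
    simpa using Real.rpow_le_rpow_of_exponent_le (by norm_num : (1 : ℝ) ≤ 2) hg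
  have e4 : 0 ≤ (a / r) ^ g := by positivity
  have e5 : 0 ≤ (r / b) ^ g := by positivity
  have e6 := mul_le_mul_of_nonneg_right e3 e5
  unfold prof
  nlinarith [mul_le_mul_of_nonneg_left e1 hQ, mul_le_mul_of_nonneg_left (e2.trans e6) hP,
    mul_nonneg hQ e4]

theorem lb_of_bd {o : Tn 4 1} (ho : SmT o BB) {B : ℝ} (hB : ∀ y ∈ BB, ∀ j, |o y ![j]| ≤ B) :
    LB ((volume.real BB + 1) * B) o := fun j => by
  have hv : volume BB < ⊤ := measure_ball_lt_top
  have h1 : ∀ y ∈ BB, ‖o y ![j] ^ 2‖ ≤ B ^ 2 := fun y hy => by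
    rw [norm_pow]; exact pow_le_pow_left₀ (norm_nonneg _) (hB y hy j) 2
  refine ⟨IntegrableOn.of_bound hv (((ho _).continuousOn.pow 2).aestronglyMeasurable
    measurableSet_ball) _ ((ae_restrict_iff' measurableSet_ball).2 (ae_of_all _ h1)),
    (le_abs_self _).trans ((norm_setIntegral_le_of_norm_le_const hv h1).trans ?_)⟩
  have : 0 ≤ volume.real BB := measureReal_nonneg
  rw [mul_pow, mul_comm]
  exact mul_le_mul_of_nonneg_right (by nlinarith) (sq_nonneg _)


variable {M : Type*} {T : TD M} {L : T.V → ℝ} {om : T.S → Tn 4 1} {w : T.V}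

/-- the components of `om` on the neck `w` -/
def vc (T : TD M) (L : T.V → ℝ) (om : T.S → Tn 4 1) (w : T.V) (j : Fin 4) (x : E4) : ℝ :=
  (T.eps L w ^ 2)⁻¹ * om (Sum.inr w) x ![j]

/-- the vector field of `om` on the neck `w` -/
def vf (T : TD M) (L : T.V → ℝ) (om : T.S → Tn 4 1) (w : T.V) (x : E4) : E4 :=
  WithLp.toLp 2 fun j => vc T L om w j x

theorem vf_cmp (j : Fin 4) : (fun z => vf T L om w z j) = vc T L om w j := rfl

theorem clX_eq (x : E4) (j : Fin 4) : (fun y => clX T L om (Sum.inr w) x y ![j]) =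
    fun y => (‖x‖ / 8)⁻¹ * vc T L om w j (x + (‖x‖ / 8) • y) := by
  funext y
  simp only [clX, vc, pt, rad, TD.un, Sum.elim_inr, id, Pi.smul_apply, smul_eq_mul, mul_inv]
  ring

theorem vf_sm (ho : (T.glob L).Sec om) :
    ContDiffOn ℝ ∞ (vf T L om w) ((T.glob L).U (Sum.inr w)) :=
  contDiffOn_euclidean.2 fun _ => contDiffOn_const.mul (ho.sm _ _)

theorem vf_eqv (h : T.Ok) (hL : T.Long L) (ho : (T.glob L).Sec om) {γ : Iso4} (hγ : γ ∈ T.Γ w)
    {x : E4} (hx : x ∈ (T.glob L).U (Sum.inr w)) : vf T L om w (γ x) = γ (vf T L om w x) := by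
  have e := ho.compat _ _ x γ ((h.glob_ok hL).tr_deck (a := Sum.inr w) hγ hx)
  refine γ.symm.injective ?_
  rw [γ.symm_apply_apply]
  ext i
  have h1 : γ.symm (vf T L om w (γ x)) i =
      inner ℝ (γ (EuclideanSpace.single i 1)) (vf T L om w (γ x)) := by
    rw [← γ.symm.inner_map_map, γ.symm_apply_apply, EuclideanSpace.inner_single_left]; simp
  have h2 : fderiv ℝ γ x = (γ.toContinuousLinearEquiv : E4 →L[ℝ] E4) :=
    γ.toContinuousLinearEquiv.hasFDerivAt.fderiv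
  have h3 : ∀ j : Fin 4, (fun _ : Fin 1 => j) = ![j] := fun j => by
    funext s; fin_cases s; rfl
  rw [h1, PiLp.inner_apply]
  simp only [vf, vc]
  rw [e]
  simp only [pullT, evT, Hd.sum_fin1, h2, h3, Finset.mul_sum]
  exact Finset.sum_congr rfl fun j _ => by simp; ring

end Nc

open Ce Nc

variable {M : Type*} {T : TD M}

theorem nc (h : T.Ok) (hM2 : M2W) (hC : CEL T) : NC T := by
  intro γ γ' C Λ h0 h1 h2 h3 h4
  obtain ⟨K, hK, HC⟩ := hC γ C Λ h2 h3 h4
  have hK0 : 0 < K := by linarith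
  obtain ⟨C2, c2, H2⟩ := hM2 2 (K * 2)
  obtain ⟨c, hc⟩ : ∃ c : ℝ, c = 1024 * (1 + C2 * K) := ⟨_, rfl⟩
  obtain ⟨D, hD⟩ : ∃ D : ℝ, D = (16 + γ'⁻¹) * c := ⟨_, rfl⟩
  have hc0 : 0 < C2 * K := by positivity
  have hc1 : 1024 ≤ c := by linarith
  have hD1 : 1 ≤ D := by nlinarith [inv_pos.2 h0]
  have hv : 0 ≤ volume.real BB := measureReal_nonneg
  refine ⟨(volume.real BB + 1) * (40960 * D), by positivity,
    fun L H F om N hL hH hS w b P Q m hb hb' hP hQ hm => ?_⟩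
  have hN := hS.nn
  have gk : ∀ x ∈ Hd.An (3 / 2) b, x ∈ T.gK L (Sum.inr w) := fun x hx =>
    ⟨hx.1, fun hw => hx.2.trans (hb' hw)⟩
  have hsub : Hd.An (3 / 2) b ⊆ (T.glob L).U (Sum.inr w) := fun x hx => by
    simpa [pt] using (HC L H hL hH _ x (gk x hx)).1 0 (mem_ball_self two_pos)
  have pos : ∀ x ∈ Hd.An (3 / 2) b, 0 < ‖x‖ := fun x hx => lt_of_lt_of_le (by norm_num) hx.1
  have hU := (h.glob_ok hL).isOpen (Sum.inr w)
  have d2 : ∀ x ∈ Hd.An (3 / 2) b, ∀ i j k,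
      ‖x‖ * |pderiv i (pderiv j (vc T L om w k)) x| ≤ 8 * m x := fun x hx i j k => by
    have e := pd2_bdd (((hm x hx).1 k).of_le (by norm_num)) i j
    have hp := pos x hx
    simp only [clX_eq, pd_sc, smul_zero, add_zero] at e
    rw [inv_mul_cancel₀ (by positivity), one_mul, abs_mul, abs_of_pos (by positivity)] at e
    linarith
  have d4 : ∀ x ∈ Hd.An (3 / 2) b, ∀ i j k, ‖x‖ ^ 3 * |pderiv i (pderiv j (lap0 (vc T L om w k))) x| ≤
      (1 - γ' ^ 2) * prof (3 / 2) b γ' (c * P) (c * Q) ‖x‖ := fun x hx i j k => by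
    obtain ⟨a1, a2, -, -, a5, a6⟩ := HC L H hL hH _ x (gk x hx)
    obtain ⟨b1, b2⟩ := a5 w rfl
    obtain ⟨m1, m2, -, -⟩ := hm x hx
    have hB : B1 ⊆ BB := ball_subset_ball (by norm_num)
    have hp := pos x hx
    have w0 := wt_nn (L := L) γ w x
    have w1 := wt_nn (L := L) γ' w x
    have m0 := (m1 0).nonneg (mem_ball_self one_pos)
    have k2 := H2 B1 _ _ _ _ (mul_le_mul_of_nonneg_left (wt_le2 h h2.le (hsub hx)) hK0.le)
      (riemOn_mono a2 isOpen_ball hB) (sm_clX hS.sec fun y hy => a1 y (hB hy))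
      (fun a b => (b2 a b).subset hB) (fun y hy => b1 y (hB hy)) m1 k
    have k3 := ((hS.yn _ x (gk x hx) k).sub isOpen_ball k2).congr
      (g := lap0 fun y => clX T L om (Sum.inr w) x y ![k]) isOpen_ball fun y hy => by
        rw [a6 om y (hB hy)]
        simp only [clY, hS.eq _ _ (a1 y (hB hy)), sub_sub_cancel]
    have e := pd2_bdd k3 i j
    simp only [clX_eq, lap0_sc, pd_sc, smul_zero, add_zero, kap, Sum.elim_inr] at e
    rw [inv_mul_cancel₀ (by positivity), one_mul, abs_mul, abs_of_pos (by positivity)] at e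
    have e1 : 0 ≤ N * T.wt γ' L w x := by positivity
    have e2 : 0 ≤ T.wt γ L w x * m x := by positivity
    have e3 := mul_le_mul_of_nonneg_left m2 (by positivity : 0 ≤ 1 + C2 * K)
    have e4 : 0 ≤ c * prof (3 / 2) b γ' P Q ‖x‖ := mul_nonneg (by linarith) (by linarith)
    have e5 : 1 / 2 ≤ 1 - γ' ^ 2 := by nlinarith
    rw [prof_mul]
    refine le_trans ?_ (mul_le_mul_of_nonneg_right e5 e4)
    rw [hc]
    nlinarith [mul_nonneg hc0.le e1]
  haveI := h.fin w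
  obtain ⟨A, a1, -, a2, a3⟩ := nd (V := vf T L om w) (P := c * P) (Q := c * Q) (h.ne_bot w) (h.free w)
    (by norm_num : (0 : ℝ) < 3 / 2) (by linarith) h0 (by linarith) (by positivity) (by positivity) hU
    hsub (vf_sm hS.sec) (fun g hg x hx => vf_eqv h hL hS.sec hg hx) d4
    (fun x hx e i j k => by
      have := d2 x hx i j k
      rw [e] at this
      rw [vf_cmp]
      nlinarith [(hm x hx).2.2.1 e])
    fun x hx e i j k => by
      have := d2 x hx i j k
      rw [e] at this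
      rw [vf_cmp]
      nlinarith [(hm x hx).2.2.2 e]
  have p0 : ∀ r, 0 ≤ r → 0 ≤ prof (3 / 2) b γ' P Q r := fun r hr =>
    prof_nonneg (by norm_num) (by linarith) hP hQ hr
  refine ⟨A, a1, ?_, fun x0 b1 b2 => ?_⟩
  · set x : E4 := EuclideanSpace.single 0 b with hx
    have nx : ‖x‖ = b := by rw [hx, EuclideanSpace.norm_single, Real.norm_of_nonneg (by linarith)]
    have hx1 : x ∈ Hd.An (3 / 2) b := ⟨by linarith, nx.le⟩
    have e1 := a2 x ⟨by linarith, nx.le⟩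
    have hd := ((vf_sm hS.sec (w := w)).contDiffAt (hU.mem_nhds (hsub hx1))).differentiableAt
      (by simp)
    have e2 : ‖fderiv ℝ (vf T L om w) x‖ ≤ ∑ _i : Fin 4, ∑ _k : Fin 4, P := by
      refine (opNorm_le_sum _).trans (Finset.sum_le_sum fun i _ => (norm_le_sum _).trans
        (Finset.sum_le_sum fun k _ => ?_))
      have e := pd1_bdd (((hm x hx1).1 k).of_le (by norm_num)) i
      have hp := pos x hx1
      simp only [clX_eq, pd_sc, smul_zero, add_zero] at e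
      rw [inv_mul_cancel₀ (by positivity), one_mul, ← vf_cmp, pd_cmp hd] at e
      exact e.trans ((hm x hx1).2.2.2 nx)
    have e3 : P ≤ prof (3 / 2) b γ' P Q b := by
      rw [prof, div_self (by linarith), Real.one_rpow, mul_one]
      exact le_add_of_nonneg_right (by positivity)
    have e4 := norm_sub_norm_le A (fderiv ℝ (vf T L om w) x)
    rw [norm_sub_rev] at e4
    rw [nx, prof_mul, mul_assoc, ← mul_assoc _ c, ← hD] at e1
    simp only [Finset.sum_const, Finset.card_univ, Fintype.card_fin, nsmul_eq_mul,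
      Nat.cast_ofNat] at e2
    have e5 := p0 b (by linarith)
    have e6 : 0 ≤ D * prof (3 / 2) b γ' P Q b := by positivity
    have e7 := mul_le_mul_of_nonneg_right hD1 e5
    nlinarith [mul_nonneg hv e6]
  · have hx1 : x0 ∈ Hd.An (3 / 2) b := ⟨by linarith, by linarith⟩
    have hp := pos x0 hx1
    rw [mul_assoc]
    refine lb_of_bd ((sm_clX hS.sec (HC L H hL hH _ x0 (gk x0 hx1)).1).sub
      (sm_lin A (norm_pos_iff.1 hp) _)) fun y hy j => ?_
    set z := x0 + (‖x0‖ / 8) • y with hz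
    have n1 : ‖(‖x0‖ / 8) • y‖ ≤ ‖x0‖ / 4 := by
      rw [norm_smul, Real.norm_of_nonneg (by positivity)]
      nlinarith [mem_ball_zero_iff.1 hy]
    have n2 : ‖z‖ ≤ 5 / 4 * ‖x0‖ := (norm_add_le _ _).trans (by linarith)
    have n3 : 3 / 4 * ‖x0‖ ≤ ‖z‖ := by
      have := norm_sub_le z ((‖x0‖ / 8) • y)
      rw [hz, add_sub_cancel_right] at this
      linarith
    have e1 := a3 z ⟨by linarith, by linarith⟩
    have e2 := prof_cell (P := P) (Q := Q) (by norm_num : (0 : ℝ) < 3 / 2) (by linarith : 0 < b)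
      h0.le (by linarith) hP hQ hp (by linarith : ‖x0‖ / 2 ≤ ‖z‖) (by linarith)
    have e3 : (clX T L om (Sum.inr w) x0 - lin A x0) y ![j] =
        (‖x0‖ / 8)⁻¹ * (vf T L om w z - A z) j := by
      have := congrFun (clX_eq (T := T) (L := L) (om := om) (w := w) x0 j) y
      simp only [Pi.sub_apply, this, lin, PiLp.sub_apply, mul_sub, Matrix.cons_val_zero, hz]
      rfl
    have e4 : |(vf T L om w z - A z) j| ≤ ‖vf T L om w z - A z‖ :=
      PiLp.norm_apply_le (vf T L om w z - A z) j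
    have e5 : ‖z‖ * prof (3 / 2) b γ' P Q ‖z‖ ≤ 5 / 4 * ‖x0‖ * (2 * prof (3 / 2) b γ' P Q ‖x0‖) :=
      mul_le_mul n2 e2 (p0 _ (norm_nonneg _)) (by positivity)
    rw [e3, abs_mul, abs_of_pos (by positivity), inv_mul_le_iff₀ (by positivity)]
    rw [prof_mul] at e1
    have e6 : 2048 * (16 + γ'⁻¹) * (‖z‖ * (c * prof (3 / 2) b γ' P Q ‖z‖)) =
        2048 * D * (‖z‖ * prof (3 / 2) b γ' P Q ‖z‖) := by rw [hD]; ring
    have e7 := mul_le_mul_of_nonneg_left e5 (by positivity : 0 ≤ 2048 * D)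
    linarith

end Crest.Agent.N207.M

end
end

-- ▼ part N207/M/Pw
section

/-!
# Row 207, X3 (helper16): the pointwise leaves `PW`, `PE`
-/

set_option autoImplicit false

open Finset
open Crest.GeometryTopology.CoordMetric Crest.GeometryTopology.ChartCurvature
open Crest.Agent.R238 (Ell)
open Crest.Agent.R202.Tens

noncomputable section

namespace Crest.Agent.N207.M

theorem pw_sum1 (f : (Fin 1 → Fin 4) → ℝ) : ∑ I, f I = ∑ j, f ![j] := by
  rw [AI.sum_cons]
  simp only [Fintype.sum_unique]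
  rfl

theorem pw_sum2 (f : (Fin 2 → Fin 4) → ℝ) : ∑ I, f I = ∑ i, ∑ j, f ![i, j] := by
  rw [AI.sum_cons]
  simp only [pw_sum1]
  rfl

theorem pe : PE := by
  intro Λ hΛ
  have h0 : 0 < Λ⁻¹ := by positivity
  obtain ⟨L, hL⟩ : ∃ L, L = ((4 : ℕ) : ℝ) ^ 2 * (|Λ| + 1) / min Λ⁻¹ 1 := ⟨_, rfl⟩
  have L0 : 0 ≤ L := by rw [hL]; positivity
  have e1 := Real.one_le_exp L0
  refine ⟨Λ * Real.exp L, one_le_mul_of_one_le_of_one_le hΛ e1, fun G o x h => ?_⟩
  have hA := h.posDef h0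
  have hd := Real.sqrt_pos.2 (h.det_pos h0)
  have h1 := abs_le.1 (hL ▸ h.abs_logdet_le h0)
  have h2 : Real.log √(G x).det = Real.log (G x).det / 2 := Real.log_sqrt (h.det_pos h0).le
  have d1 : √(G x).det ≤ Real.exp L := (Real.log_le_iff_le_exp hd).1 (by linarith [h1.2])
  have d2 : 1 ≤ Real.exp L * √(G x).det := by
    have := (Real.le_log_iff_exp_le hd).1 (show -L ≤ _ by linarith [h1.1])
    rwa [Real.exp_neg, inv_le_iff_one_le_mul₀' (Real.exp_pos L)] at this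
  have n1 := Ar.sum_sq_le_ipA hA (c := Λ) (by linarith) (fun v => by
    rw [bil_apply, EuclideanSpace.real_norm_sq_eq]; exact (h.2 v).2) (o x)
  have n2 := Ar.ipA_le_sum_sq hA (c := Λ) (by linarith) (fun v => by
    rw [bil_apply, EuclideanSpace.real_norm_sq_eq, ← inv_mul_le_iff₀ (by linarith)]
    exact (h.2 v).1) (o x)
  have n0 := Ar.ipA_nonneg hA (o x)
  rw [pow_one, pw_sum1] at n1 n2
  unfold nsq ip
  refine ⟨n1.trans ?_, (mul_le_mul d1 n2 n0 (Real.exp_pos L).le).trans_eq (by ring)⟩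
  nlinarith [mul_le_mul_of_nonneg_left d2 (mul_nonneg (zero_le_one.trans hΛ) n0)]

theorem pw : PW := by
  intro τ hτ
  obtain ⟨δ, d0, d1, d2⟩ : ∃ δ : ℝ, 0 < δ ∧ δ ≤ 1 / 100 ∧ 100 * δ ≤ τ :=
    ⟨min τ 1 / 100, by positivity, by linarith [min_le_right τ 1], by linarith [min_le_left τ 1]⟩
  obtain ⟨η, hη, hd⟩ := T.near_one d0
  refine ⟨min η (δ / 100), by positivity, fun G o f x ρ hρ hA h1 h2 => ?_⟩
  have N : Sk.Near (G x) δ := fun a b => (h1 a b).trans ((min_le_right _ _).trans (by linarith))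
  have lo := (hd (G x) fun a b => (h1 a b).trans (min_le_left _ _)).1
  have hi : √(G x).det ≤ 1 + 9 * δ := N.sqrt_det_le.trans (by nlinarith)
  have b1 : ∀ v : E4, bil (G x) v v ≤ (1 + 9 * δ) * ‖v‖ ^ 2 := fun v =>
    (N.bil_le v).trans (mul_le_mul_of_nonneg_right (by nlinarith) (sq_nonneg _))
  have b2 : ∀ v : E4, ‖v‖ ^ 2 ≤ (1 + 9 * δ) * bil (G x) v v := fun v => by
    have := mul_le_mul_of_nonneg_left (N.le_bil (by linarith) v) (by linarith : 0 ≤ 1 + 9 * δ)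
    have k : 1 ≤ (1 + 9 * δ) * (1 - 4 * δ) ^ 2 := by nlinarith [mul_pos d0 d0, pow_pos d0 3]
    nlinarith [mul_le_mul_of_nonneg_right k (sq_nonneg ‖v‖)]
  have k0 : 0 ≤ 1 + 9 * δ := by linarith
  have hE : Ell 2⁻¹ 2 (G x) := ⟨fun i j => by simpa using hA.isHermitian.apply j i, fun z => by
    have c1 := b1 (WithLp.toLp 2 z)
    have c2 := b2 (WithLp.toLp 2 z)
    have c3 := Ar.bil_nonneg hA (WithLp.toLp 2 z)
    rw [bil_apply] at c1 c2 c3
    rw [EuclideanSpace.real_norm_sq_eq] at c1 c2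
    have c4 : 0 ≤ ∑ i, z i ^ 2 := sum_nonneg fun _ _ => sq_nonneg _
    constructor <;> nlinarith⟩
  have s1 := Ar.sum_sq_le_ipA hA k0 b1 (o x)
  have s2 := Ar.sum_sq_le_ipA hA k0 b1 (cov G o x)
  have s3 := Ar.ipA_le_sum_sq hA k0 b2 (o x)
  have s4 := Ar.ipA_le_sum_sq hA k0 b2 (dT f x)
  have z1 := Ar.ipA_nonneg hA (o x)
  have z2 := Ar.ipA_nonneg hA (cov G o x)
  have z3 := Ar.ipA_nonneg hA (dT f x)
  rw [pow_one, pw_sum1] at s1 s3 s4
  rw [pw_sum2] at s2
  have o0 : 0 ≤ ∑ j, o x ![j] ^ 2 := sum_nonneg fun _ _ => sq_nonneg _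
  have g0 : 0 ≤ Hd.g2 f x := sum_nonneg fun _ _ => sq_nonneg _
  unfold nsq ip
  have w : ∀ {c y : ℝ}, 0 ≤ y → c ≤ 1 + 90 * δ → c * y ≤ (1 + τ) * (√(G x).det * y) :=
    fun {c y} hy hc => by
      rw [← mul_assoc]
      exact mul_le_mul_of_nonneg_right (hc.trans (le_trans (by nlinarith)
        (mul_le_mul (by linarith : 1 + 100 * δ ≤ 1 + τ) lo (by linarith) (by linarith)))) hy
  refine ⟨?_, s1.trans (w z1 (by linarith)), ?_⟩
  · have Γ : ∀ m a b, |christoffel G x m a b| ≤ 12 * (δ / 100 / ρ) := fun m a b => by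
      have p : ∀ a b c, |pderiv c (fun y => G y a b) x| ≤ δ / 100 / ρ := fun a b c => by
        rw [le_div_iff₀' hρ]; exact (h2 a b c).trans (min_le_right _ _)
      unfold christoffel
      rw [abs_mul, abs_of_pos (by norm_num : (0 : ℝ) < 1 / 2)]
      have := (abs_sum_le_sum_abs _ _).trans (sum_le_card_nsmul univ (fun l =>
        |inverseField G x m l * (pderiv a (fun y => G y b l) x + pderiv b (fun y => G y a l) x -
          pderiv l (fun y => G y a b) x)|) (2 * (3 * (δ / 100 / ρ))) fun l _ => by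
        rw [abs_mul]
        refine mul_le_mul (by simpa [inverseField] using hE.abs_inv_le (by norm_num) m l) (abs_le.2 ?_)
          (abs_nonneg _) zero_le_two
        constructor <;> linarith [abs_le.1 (p b l a), abs_le.1 (p a l b), abs_le.1 (p a b l)])
      simp only [card_univ, Fintype.card_fin, nsmul_eq_mul, Nat.cast_ofNat] at this
      linarith
    have q : ∀ a b, pderiv a (fun y => o y ![b]) x ^ 2 ≤ (1 + δ) * cov G o x ![a, b] ^ 2 +
        δ / 8 * ((∑ j, o x ![j] ^ 2) / ρ ^ 2) := fun a b => by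
      rw [cov_one]
      have c1 := sum_mul_sq_le_sq_mul_sq univ (fun m => christoffel G x m a b) fun m => o x ![m]
      have c2 := sum_le_card_nsmul univ (fun m => christoffel G x m a b ^ 2)
        ((12 * (δ / 100 / ρ)) ^ 2) fun m _ => sq_le_sq' (abs_le.1 (Γ m a b)).1 (abs_le.1 (Γ m a b)).2
      simp only [card_univ, Fintype.card_fin, nsmul_eq_mul, Nat.cast_ofNat] at c2
      have c3 := c1.trans (mul_le_mul_of_nonneg_right c2 o0)
      rw [show 4 * (12 * (δ / 100 / ρ)) ^ 2 * ∑ j, o x ![j] ^ 2 =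
        576 / 10000 * δ ^ 2 * ((∑ j, o x ![j] ^ 2) / ρ ^ 2) by field_simp; ring] at c3
      have y0 : 0 ≤ (∑ j, o x ![j] ^ 2) / ρ ^ 2 := by positivity
      generalize (∑ j, o x ![j] ^ 2) / ρ ^ 2 = y at *
      generalize ∑ m, christoffel G x m a b * o x ![m] = u at *
      generalize pderiv a (fun y => o y ![b]) x = v
      refine le_of_mul_le_mul_left ?_ d0
      nlinarith [sq_nonneg (δ * (v - u) - u), mul_le_mul_of_nonneg_left c3 d0.le,
        mul_nonneg (mul_nonneg (sq_nonneg δ) y0) (by linarith : 0 ≤ 1 / 100 - δ)]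
    have := sum_le_sum fun a (_ : a ∈ univ) => sum_le_sum fun b (_ : b ∈ univ) => q a b
    simp only [sum_add_distrib, ← mul_sum, sum_const, card_univ, Fintype.card_fin, nsmul_eq_mul,
      Nat.cast_ofNat] at this
    unfold Hd.g2
    rw [sum_comm]
    have y0 : 0 ≤ (∑ j, o x ![j] ^ 2) / ρ ^ 2 := by positivity
    have := w (c := (1 + δ) * (1 + 9 * δ) ^ 2) z2 (by nlinarith [mul_pos d0 d0, pow_pos d0 3])
    nlinarith [mul_le_mul_of_nonneg_left s2 (by linarith : 0 ≤ 1 + δ),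
      mul_le_mul_of_nonneg_right (by linarith : 2 * δ ≤ τ) y0]
  · have := mul_le_mul hi (mul_le_mul s4 s3 z1 (mul_nonneg k0 g0)) (mul_nonneg z3 z1) k0
    have k : (1 + 9 * δ) ^ 3 ≤ 1 + τ := by nlinarith [mul_pos d0 d0, pow_pos d0 3]
    exact this.trans ((by unfold Hd.g2 dT; simp only [Matrix.cons_val_zero]; ring :
      _ = (1 + 9 * δ) ^ 3 * (Hd.g2 f x * ∑ j, o x ![j] ^ 2)).trans_le
        (mul_le_mul_of_nonneg_right k (mul_nonneg g0 o0)))

end Crest.Agent.N207.M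

end
end

-- ▼ part N207/M/Rb
section

/-!
# Row 207, X3 (helper20): the weighted integral of a pointwise bounded source
-/

set_option autoImplicit false

open Metric Set Filter Topology MeasureTheory
open Crest.GeometryTopology.CoordMetric
open Crest.Agent.N207.I Crest.Agent.N207.I.TD Crest.Agent.N207.CB Crest.Agent.N207.N
  Crest.Agent.N207.Ga
open Crest.Agent.R238 (Ell)

noncomputable section

namespace Crest.Agent.N207.M

/-- decay at infinity -/
def rbF (δ : ℝ) (x : E4) : ℝ := (1 + ‖x‖) ^ (-(4 + 2 * δ))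
/-- singularity at the origin -/
def rbG (δ : ℝ) : E4 → ℝ := (ball 0 1).indicator fun y => ‖y‖ ^ (-(4 - 2 * δ))
/-- the dominating function -/
def rbD (δ l : ℝ) (x : E4) : ℝ := 2 * 3 ^ (4 + 2 * δ) * rbF δ x + 2 * l ^ 4 * rbG δ (l • x)

variable {δ l : ℝ}

theorem rbF_int (h : 0 < δ) : Integrable (rbF δ) :=
  integrable_one_add_norm (by simp; linarith)

theorem rbG_int (h : 0 < δ) : Integrable (rbG δ) :=
  (integrable_indicator_iff measurableSet_ball).2 (integrableOn_ball_of_norm_le_rpow (C := 1)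
    (α := 4 - 2 * δ) (by simp) (by simp; linarith) (Eventually.of_forall fun x => by
      rw [one_mul, Real.norm_of_nonneg (Real.rpow_nonneg (norm_nonneg _) _)])
    (Measurable.aestronglyMeasurable (by fun_prop)))

theorem rbF_nonneg (x : E4) : 0 ≤ rbF δ x := Real.rpow_nonneg (by positivity) _
theorem rbG_nonneg (x : E4) : 0 ≤ rbG δ x :=
  indicator_nonneg (fun _ _ => Real.rpow_nonneg (norm_nonneg _) _) _
theorem rbD_nonneg (x : E4) : 0 ≤ rbD δ l x := by
  have := rbF_nonneg (δ := δ) x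
  have := rbG_nonneg (δ := δ) (l • x)
  unfold rbD; positivity

theorem rbD_int (h : 0 < δ) (hl : 0 < l) : Integrable (rbD δ l) :=
  ((rbF_int h).const_mul _).add (((rbG_int h).comp_smul hl.ne').const_mul _)

theorem rbD_integral (h : 0 < δ) (hl : 0 < l) :
    ∫ x, rbD δ l x = 2 * 3 ^ (4 + 2 * δ) * (∫ x, rbF δ x) + 2 * ∫ x, rbG δ x := by
  unfold rbD
  rw [integral_add ((rbF_int h).const_mul _) (((rbG_int h).comp_smul hl.ne').const_mul _),
    integral_const_mul, integral_const_mul, Measure.integral_comp_smul]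
  simp only [finrank_euclideanSpace, Fintype.card_fin, smul_eq_mul]
  rw [abs_of_pos (by positivity)]
  field_simp

theorem rb_far (h : 0 < δ) {a : ℝ} (ha : 0 < a) {x : E4} (hx : 1 + ‖x‖ ≤ 3 * a) :
    a ^ (-(4 + 2 * δ)) ≤ 3 ^ (4 + 2 * δ) * rbF δ x := by
  have h1 : (3 * a) ^ (-(4 + 2 * δ)) ≤ rbF δ x :=
    Real.rpow_le_rpow_of_nonpos (by positivity) hx (by linarith)
  refine le_trans (le_of_eq ?_) (mul_le_mul_of_nonneg_left h1 (by positivity))
  rw [Real.mul_rpow (by norm_num) ha.le, ← mul_assoc, ← Real.rpow_add (by norm_num)]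
  simp

theorem rb_ell {Λ : ℝ} (hΛ : 2 ≤ Λ) {A : Matrix (Fin 4) (Fin 4) ℝ} (h : Ell 2⁻¹ 2 A) :
    Ell Λ⁻¹ Λ A := ⟨h.1, fun z => by
  have h0 : 0 ≤ ∑ i, z i ^ 2 := Finset.sum_nonneg fun _ _ => sq_nonneg _
  exact ⟨(mul_le_mul_of_nonneg_right (inv_anti₀ two_pos hΛ) h0).trans (h.2 z).1,
    (h.2 z).2.trans (mul_le_mul_of_nonneg_right hΛ h0)⟩⟩

variable {M : Type*} {T : TD M} {L : T.V → ℝ}

/-- the weight is dominated in every chart -/
theorem rb_dom (h : T.Ok) (hδ : 0 < δ) (s : T.S) : ∃ l, 0 < l ∧ ∀ x ∈ T.gK L s,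
    0 < scl T s x ∧ kap T δ L s x ^ 2 / scl T s x ^ 4 ≤ rbD δ l x := by
  rcases s with a | w
  · refine ⟨1, one_pos, fun x hx => ⟨one_pos, ?_⟩⟩
    have h1 : ‖x‖ ≤ 3 / 2 := mem_closedBall_zero_iff.1 hx
    have h2 := rb_far hδ one_pos (x := x) (by linarith)
    have h3 := rbG_nonneg (δ := δ) ((1 : ℝ) • x)
    rw [Real.one_rpow] at h2
    change (1 : ℝ) ^ 2 / 1 ^ 4 ≤ _
    unfold rbD; nlinarith
  · refine ⟨Real.exp (-L w), Real.exp_pos _, fun x hx => ?_⟩
    obtain ⟨h1, h2⟩ := mem_gK_inr.1 hx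
    have x0 : 0 < ‖x‖ := by linarith
    refine ⟨x0, ?_⟩
    have h3 := rb_far hδ x0 (x := x) (by linarith)
    have e1 : (‖x‖ ^ (-δ)) ^ 2 / ‖x‖ ^ 4 = ‖x‖ ^ (-(4 + 2 * δ)) := by
      rw [← Real.rpow_natCast, ← Real.rpow_natCast, ← Real.rpow_mul x0.le, ← Real.rpow_sub x0]
      congr 1; push_cast; ring
    have h4 := rbG_nonneg (δ := δ) (Real.exp (-L w) • x)
    change T.wt δ L w x ^ 2 / ‖x‖ ^ 4 ≤ _
    unfold TD.wt rbD
    split_ifs with hw
    · rw [add_zero, e1]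
      have : 0 ≤ 3 ^ (4 + 2 * δ) * rbF δ x := mul_nonneg (by positivity) (rbF_nonneg x)
      have : 0 ≤ 2 * Real.exp (-L w) ^ 4 * rbG δ (Real.exp (-L w) • x) := by positivity
      linarith
    · set l := Real.exp (-L w) with hl
      have l0 : 0 < l := Real.exp_pos _
      have n1 : ‖l • x‖ = l * ‖x‖ := by rw [norm_smul, Real.norm_of_nonneg l0.le]
      have h5 : l * ‖x‖ < 1 := by
        have a1 := mul_le_mul_of_nonneg_left (h2 hw) l0.le
        have a2 : l * Real.exp (L w) = 1 := by rw [hl, ← Real.exp_add]; simp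
        have := h.r_lt
        nlinarith
      have e2 : ((l * ‖x‖) ^ δ) ^ 2 / ‖x‖ ^ 4 = l ^ 4 * rbG δ (l • x) := by
        have p : 0 < l * ‖x‖ := by positivity
        rw [rbG, indicator_of_mem (mem_ball_zero_iff.2 (n1 ▸ h5)), n1,
          show -(4 - 2 * δ) = δ * (2 : ℕ) - (4 : ℕ) by push_cast; ring, Real.rpow_sub p,
          Real.rpow_mul p.le, Real.rpow_natCast, Real.rpow_natCast]
        field_simp
      have h6 : (‖x‖ ^ (-δ) + (l * ‖x‖) ^ δ) ^ 2 / ‖x‖ ^ 4 ≤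
          2 * ((‖x‖ ^ (-δ)) ^ 2 / ‖x‖ ^ 4) + 2 * (((l * ‖x‖) ^ δ) ^ 2 / ‖x‖ ^ 4) := by
        rw [← mul_div_assoc, ← mul_div_assoc, ← add_div]
        exact div_le_div_of_nonneg_right
          (by nlinarith [sq_nonneg (‖x‖ ^ (-δ) - (l * ‖x‖) ^ δ)]) (by positivity)
      rw [e1, e2] at h6
      linarith

/-- **RB** -/
theorem rb (h : T.Ok) (hP : PE) : RB T := by
  intro γ C Λ q δ hΛ hδ
  obtain ⟨C1, c1, hC⟩ := hP Λ (by linarith)
  set I0 := 2 * 3 ^ (4 + 2 * δ) * (∫ x, rbF δ x) + 2 * ∫ x, rbG δ x with hI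
  have i0 : 0 ≤ I0 := by
    have := integral_nonneg (μ := volume) (f := rbF δ) fun x => rbF_nonneg x
    have := integral_nonneg (μ := volume) (f := rbG δ) fun x => rbG_nonneg x
    positivity
  have k0 : 0 ≤ (Fintype.card T.S : ℝ) * (256 * C1 * I0) := by positivity
  refine ⟨Fintype.card T.S * (256 * C1 * I0) + 1, by linarith, fun L H hL hH E B hB hE => ?_⟩
  have hp := h.glob_pou hL
  have key : ∀ s, ∫ x in (T.glob L).U s, (T.glob L).den T.χ (rt T L H) s x *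
      (Sk.rw T L s x ^ (2 * q - 2) * nsq (rt T L H s) (E s) x) ≤ 256 * C1 * I0 * B ^ 2 := by
    intro s
    obtain ⟨l, l0, hl⟩ := rb_dom (L := L) h hδ s
    have hi := (rbD_int hδ l0).const_mul (256 * C1 * B ^ 2)
    have pt : ∀ x ∈ (T.glob L).U s, 0 ≤ (T.glob L).den T.χ (rt T L H) s x *
        (Sk.rw T L s x ^ (2 * q - 2) * nsq (rt T L H s) (E s) x) ∧
        (T.glob L).den T.χ (rt T L H) s x * (Sk.rw T L s x ^ (2 * q - 2) *
          nsq (rt T L H s) (E s) x) ≤ 256 * C1 * B ^ 2 * rbD δ l x := by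
      intro x hx
      have d0 := rbD_nonneg (δ := δ) (l := l) x
      by_cases c0 : T.χ s ((T.glob L).c s x) = 0
      · rw [Atl.den, c0, zero_mul, mul_zero, zero_mul]
        exact ⟨le_rfl, by positivity⟩
      have hk := gK_of_χ h hL hx c0
      obtain ⟨ρ0, hd⟩ := hl x hk
      have he : Ell Λ⁻¹ Λ (H s x) := by
        rcases s with a | w
        · exact hH.ellb a x ((mem_closedBall_zero_iff.1 hk).trans (by norm_num))
        · exact rb_ell hΛ (hH.elln w x hx)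
      obtain ⟨p1, p2⟩ := hC (H s) (E s) x he
      have s0 : 0 ≤ ∑ j, E s x ![j] ^ 2 := Finset.sum_nonneg fun _ _ => sq_nonneg _
      have p0 : 0 ≤ √(H s x).det * nsq (H s) (E s) x :=
        nonneg_of_mul_nonneg_right (s0.trans p1) (by linarith)
      have c1' : T.χ s ((T.glob L).c s x) ≤ 1 := (hp.sum s x hx) ▸
        Finset.single_le_sum (fun a _ => hp.nonneg a _) (Finset.mem_univ s)
      have c2 : (Nat.card ((T.glob L).Γ s) : ℝ)⁻¹ ≤ 1 := Nat.cast_inv_le_one _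
      have c3 := hp.nonneg s ((T.glob L).c s x)
      have e0 := eps_pos L (T.un s)
      have er : Sk.rw T L s x = T.eps L (T.un s) * scl T s x := by cases s <;> rfl
      have ed : rad T s x = scl T s x / 8 := by cases s <;> rfl
      have r0 : 0 < Sk.rw T L s x := er ▸ mul_pos e0 ρ0
      have e1 : Sk.rw T L s x ^ (2 * q - 2) = (Sk.rw T L s x ^ q) ^ 2 / Sk.rw T L s x ^ 2 := by
        rw [show 2 * q - 2 = q * (2 : ℕ) - (2 : ℕ) by push_cast; ring, Real.rpow_sub r0,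
          Real.rpow_mul r0.le, Real.rpow_natCast, Real.rpow_natCast]
      set u := Sk.rw T L s x ^ q with hu
      have u0 : 0 ≤ u := Real.rpow_nonneg r0.le _
      have e2 : (T.glob L).den T.χ (rt T L H) s x * (Sk.rw T L s x ^ (2 * q - 2) *
          nsq (rt T L H s) (E s) x) = (Nat.card ((T.glob L).Γ s) : ℝ)⁻¹ *
            T.χ s ((T.glob L).c s x) *
            (u ^ 2 / scl T s x ^ 2 * (√(H s x).det * nsq (H s) (E s) x)) := by
        rw [Atl.den, e1, rt_eq, nsq_smul_met (eps2_ne L _), sqrt_det_smul, er]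
        field_simp
      have b1 : ∀ j, u ^ 2 * E s x ![j] ^ 2 ≤ 64 * (B ^ 2 * kap T δ L s x ^ 2 / scl T s x ^ 2) := by
        intro j
        have a1 := hE s x hk j
        have a2 : clY T E s x 0 ![j] = scl T s x / 8 * E s x ![j] := by
          simp [clY, Ga.pt, ed]
        rw [a2] at a1
        have a3 := pow_le_pow_left₀ (by positivity) a1 2
        rw [mul_pow, sq_abs, mul_pow, mul_pow] at a3
        rw [← mul_div_assoc, le_div_iff₀ (by positivity)]
        nlinarith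
      have b2 : u ^ 2 * ∑ j, E s x ![j] ^ 2 ≤
          256 * (B ^ 2 * kap T δ L s x ^ 2 / scl T s x ^ 2) := by
        rw [Finset.mul_sum]
        refine (Finset.sum_le_sum fun j _ => b1 j).trans (le_of_eq ?_)
        simp; ring
      have b3 : u ^ 2 / scl T s x ^ 2 * (√(H s x).det * nsq (H s) (E s) x) ≤
          256 * C1 * B ^ 2 * rbD δ l x := by
        calc _ ≤ u ^ 2 / scl T s x ^ 2 * (C1 * ∑ j, E s x ![j] ^ 2) :=
              mul_le_mul_of_nonneg_left p2 (by positivity)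
          _ = C1 / scl T s x ^ 2 * (u ^ 2 * ∑ j, E s x ![j] ^ 2) := by ring
          _ ≤ C1 / scl T s x ^ 2 * (256 * (B ^ 2 * kap T δ L s x ^ 2 / scl T s x ^ 2)) :=
              mul_le_mul_of_nonneg_left b2 (by positivity)
          _ = 256 * C1 * B ^ 2 * (kap T δ L s x ^ 2 / scl T s x ^ 4) := by field_simp
          _ ≤ _ := mul_le_mul_of_nonneg_left hd (by positivity)
      have b0 : 0 ≤ u ^ 2 / scl T s x ^ 2 * (√(H s x).det * nsq (H s) (E s) x) := by positivity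
      rw [e2]
      exact ⟨by positivity, (mul_le_of_le_one_left b0 (mul_le_one₀ c2 c3 c1')).trans b3⟩
    have hU := ((h.glob_ok hL).isOpen s).measurableSet
    refine (integral_mono_of_nonneg ((ae_restrict_mem hU).mono fun x hx => (pt x hx).1)
      hi.integrableOn ((ae_restrict_mem hU).mono fun x hx => (pt x hx).2)).trans ?_
    refine (setIntegral_le_integral hi (Eventually.of_forall fun x =>
      mul_nonneg (by positivity) (rbD_nonneg x))).trans (le_of_eq ?_)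
    rw [integral_const_mul, rbD_integral hδ l0, ← hI]; ring
  refine (Finset.sum_le_sum fun s _ => key s).trans ?_
  rw [Finset.sum_const, Finset.card_univ, nsmul_eq_mul, ← mul_assoc, mul_pow]
  exact mul_le_mul_of_nonneg_right (by nlinarith) (sq_nonneg B)

end Crest.Agent.N207.M

end
end

-- ▼ part N207/M/Trf
section

/-!
# Row 207, X3 (helper97): the leaf `TRF`
-/

set_option autoImplicit false

open scoped ContDiff
open Metric Set Filter Topology
open Crest.GeometryTopology.CoordMetric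
open Crest.Agent.NLib.Ell Crest.Agent.N207.I Crest.Agent.N207.I.TD Crest.Agent.N207.CB
  Crest.Agent.N207.Ga Crest.Agent.N207.K Crest.Agent.R273.SchA_152

noncomputable section

namespace Crest.Agent.N207.M

namespace Tf

section atl

variable {X : Type*} {α : Type} {A : Atl X α} {m : ℕ}

/-- transfer of a cell bound through one change of charts -/
theorem one_tr (h : A.Ok) {s s' : α} {z0 : E4} {H : E4 → E4} (t : A.Tr s s' z0 H) {ρ : ℝ}
    (hρ : 0 < ρ) (k m : ℕ) : ∃ R C : ℝ, 0 < R ∧ 0 < C ∧ ∀ (F : α → Tn 4 m) (N : ℝ), 0 ≤ N →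
      A.Compat F → (∀ I, CKA (1 / 2) B1 k N fun y => ρ * F s' (H z0 + ρ • y) I) →
      ∀ I, CKA (1 / 2) (ball z0 R) k (C * N) fun z => F s z I := by
  have hc : ContinuousAt (fun z => ρ⁻¹ • (H z - H z0)) z0 :=
    (t.sm.self_of_nhds.continuousAt.sub continuousAt_const).const_smul ρ⁻¹
  obtain ⟨ε, hε, hb⟩ := Metric.eventually_nhds_iff_ball.1 ((tr_evt h t).and
    (hc.eventually (isOpen_ball.mem_nhds (x := ρ⁻¹ • (H z0 - H z0)) (s := ball 0 1) (by simp))))
  have hH : ContDiffOn ℝ ∞ H (ball z0 ε) := fun z hz =>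
    (hb z hz).1.sm.self_of_nhds.contDiffWithinAt
  have hR : closedBall z0 (ε / 2) ⊆ ball z0 ε := closedBall_subset_ball (half_lt_self hε)
  obtain ⟨C, hC, hp⟩ := precomp (Φ := fun z => ρ⁻¹ • (H z - H z0)) (a := 1 / 2) isOpen_ball
    (isOpen_ball (x := (0 : E4)) (ε := 1)) ((hH.sub contDiffOn_const).const_smul _) hR
    (fun z hz => (hb z (hR (ball_subset_closedBall hz))).2) (by norm_num) (by norm_num) k
  have hD : ContDiffOn ℝ ∞ (fderiv ℝ H) (ball z0 ε) :=
    hH.fderiv_of_isOpen isOpen_ball (by exact_mod_cast le_rfl)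
  obtain ⟨V, hV⟩ := exists_cka (a := 1 / 2) (g := fun z (I J : Fin m → Fin 4) =>
      ρ⁻¹ * ∏ p, fderiv ℝ H z (EuclideanSpace.single (I p) 1) (J p)) isOpen_ball
    (contDiffOn_pi.2 fun I => contDiffOn_pi.2 fun J => contDiffOn_const.mul
      (contDiffOn_prod fun p _ => (EuclideanSpace.proj (𝕜 := ℝ) (J p)).contDiff.comp_contDiffOn
        (hD.clm_apply contDiffOn_const))) hR (by norm_num) (by norm_num) k
  have hV0 : 0 ≤ V := hV.nonneg (mem_ball_self (half_pos hε))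
  refine ⟨ε / 2, Fintype.card (Fin m → Fin 4) * (2 ^ (k + 1) * (V * C)) + 1, half_pos hε,
    by positivity, fun F N hN0 hF hN I => ?_⟩
  refine ((CKA.sum_le isOpen_ball fun J : Fin m → Fin 4 => CKA.mul isOpen_ball
    ((hV.apply isOpen_ball I).apply isOpen_ball J) (hp _ _ _ (hN J))).congr
    isOpen_ball fun z hz => ?_).mono (by nlinarith)
  have e := congrFun (hF s s' z H (hb z (hR (ball_subset_closedBall hz))).1) I
  refine e.trans ?_
  rw [smul_inv_smul₀ hρ.ne', add_sub_cancel, pullT, evT]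
  refine Finset.sum_congr rfl fun J _ => ?_
  field_simp

/-- cell bounds give bounds on the balls of radius `t` around the points of `K0` -/
def Loc (A : Atl X α) (K : α → Set E4) (ρ : α → E4 → ℝ) (k m : ℕ) (s : α) (K0 : Set E4) (t : ℝ) :
    Prop :=
  ∀ z ∈ K0, 0 < t → ∀ (F : α → Tn 4 m) (N : ℝ), 0 ≤ N → A.Compat F →
    (∀ s, ∀ x ∈ K s, ∀ I, CKA (1 / 2) B1 k N fun y => ρ s x * F s (x + ρ s x • y) I) →
    ∀ I, CKA (1 / 2) (ball z t) k (t⁻¹ * N) fun z => F s z I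

theorem loc_cpt {K : α → Set E4} (h : A.Ok) {ρ : α → E4 → ℝ} (hρ : ∀ s, ∀ x ∈ K s, 0 < ρ s x)
    (hc : ∀ s, ∀ z ∈ A.U s, ∃ s', ∃ x ∈ K s', x ∈ A.U s' ∧ A.c s' x = A.c s z) (k m : ℕ) {s : α}
    {K0 : Set E4} (hK : IsCompact K0) (hU : K0 ⊆ A.U s) :
    ∀ᶠ t in 𝓝 (0 : ℝ), Loc A K ρ k m s K0 t := by
  refine hK.eventually_forall_of_forall_eventually fun z0 hz0 => ?_
  obtain ⟨s', x', hx', hx'', e⟩ := hc s z0 (hU hz0)
  obtain ⟨H, t, rfl⟩ := h.loc s s' z0 (hU hz0) x' hx'' e.symm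
  obtain ⟨R, C, hR, hC, hb⟩ := one_tr h t (hρ s' _ hx') k m
  have c1 : Continuous fun p : ℝ × E4 => p.1 + dist p.2 z0 := by fun_prop
  have c2 : Continuous fun p : ℝ × E4 => p.1 * C := by fun_prop
  filter_upwards [c1.continuousAt.eventually (gt_mem_nhds (a := R) (by simpa using hR)),
    c2.continuousAt.eventually (gt_mem_nhds (a := 1) (by simp))] with p h1 h2 h0 F N hN0 hF hN I
  refine ((hb F N hN0 hF (hN s' _ hx') I).subset (ball_subset_ball' h1.le)).mono
    (mul_le_mul_of_nonneg_right ?_ hN0)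
  rw [← one_div, le_div_iff₀' h0]
  exact h2.le

end atl

variable {M : Type*} {T : TD M} {L : T.V → ℝ} {F : T.S → Tn 4 1} {γ N : ℝ}

/-- the family read in the charts of `base v` -/
def fb (L : T.V → ℝ) (F : T.S → Tn 4 1) (v : T.V) : T.S → Tn 4 1 := fun s u =>
  (sc (lm L) s v)⁻¹ • F s ((sc (lm L) s v)⁻¹ • u)

theorem fb_compat (h : T.Ok) (hL : T.Long L) (hF : (T.glob L).Compat F) (v : T.V) :
    (T.base v).Compat (fb L F v) := by
  intro a b u H t
  have S := h.str_glob hL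
  have pa := S.sc_pos a v
  have pb := S.sc_pos b v
  set p := sc (lm L) a v with hp
  set q := sc (lm L) b v with hq
  have e0 : p • p⁻¹ • u = u := smul_inv_smul₀ pa.ne' u
  have hc : Tendsto (fun z : E4 => p • z) (𝓝 (p⁻¹ • u)) (𝓝 u) := by
    have := (continuous_const_smul p).tendsto (p⁻¹ • u)
    rwa [e0] at this
  have t' : (T.glob L).Tr a b (p⁻¹ • u) fun z => q⁻¹ • H (p • z) := by
    refine ⟨(S.conv' trivial (e0.symm ▸ t.mem)).1,
      (S.conv' (v := v) trivial (by rw [smul_inv_smul₀ pb.ne', e0]; exact t.mem')).1, ?_, ?_⟩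
    · exact (hc.eventually t.sm).mono fun z hz =>
        (hz.comp z (contDiff_const_smul p).contDiffAt).const_smul _
    · filter_upwards [hc.eventually (tr_evt (h.base v) t)] with z hz
      rw [(S.conv' (v := v) trivial hz.mem).2,
        (S.conv' (v := v) trivial (by rw [smul_inv_smul₀ pb.ne']; exact hz.mem')).2,
        smul_inv_smul₀ pb.ne', hz.eq.self_of_nhds]
  have hd : fderiv ℝ (fun z => q⁻¹ • H (p • z)) (p⁻¹ • u) = (q⁻¹ * p) • fderiv ℝ H u := by
    have h1 : HasFDerivAt H (fderiv ℝ H u) (p • p⁻¹ • u) :=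
      e0.symm ▸ (t.sm.self_of_nhds.differentiableAt (by simp)).hasFDerivAt
    refine (((h1.comp _ ((hasFDerivAt_id _).const_smul p)).const_smul q⁻¹).fderiv).trans ?_
    ext w
    simp [mul_assoc]
  funext I
  have e := congrFun (hF a b _ _ t') I
  simp only [pullT, evT, hd, e0, fb, ← hp, ← hq, Pi.smul_apply, smul_eq_mul, e, Finset.mul_sum,
    Finset.univ_unique, Finset.prod_singleton, ContinuousLinearMap.smul_apply, PiLp.smul_apply]
  refine Finset.sum_congr rfl fun J _ => ?_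
  field_simp

/-- the cells which cover `base v` -/
def kc (T : TD M) (v : T.V) : T.S → Set E4 :=
  Sum.elim (fun b => {y | T.vx b = v ∧ ‖y‖ < 1}) fun w =>
    {y | (w = v ∧ 2 ≤ ‖y‖ ∧ ‖y‖ < 4) ∨ (T.kid v w ∧ T.r / 4 < ‖y‖ ∧ ‖y‖ ≤ T.r / 2)}

theorem kc_cov (h : T.Ok) (v : T.V) (s : T.S) (z : E4) (hz : z ∈ (T.base v).U s) :
    ∃ s', ∃ x ∈ kc T v s', x ∈ (T.base v).U s' ∧ (T.base v).c s' x = (T.base v).c s z := by
  have hr := h.r_pos
  rcases h.cover v s z hz with ⟨b, hb, y, hy, e⟩ | ⟨y, h1, h2, e⟩ | ⟨w, hw, y, h1, h2, e⟩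
  · rw [mem_ball_zero_iff] at hy
    exact ⟨Sum.inl b, y, ⟨hb, hy⟩, mem_base_inl.2 ⟨hb, by linarith⟩, e⟩
  · exact ⟨Sum.inr v, y, Or.inl ⟨rfl, h1, h2⟩, mem_base_out.2 ⟨by linarith, h2⟩,
      by rw [base_c_out, e]⟩
  · exact ⟨Sum.inr w, y, Or.inr ⟨hw, h1, h2⟩, (mem_base_inn (h.kid_ne hw)).2 ⟨hw, h1, by linarith⟩,
      by rw [base_c_inn (h.kid_ne hw), e]⟩

theorem kc_rad (h : T.Ok) (v : T.V) (s : T.S) (x : E4) (hx : x ∈ kc T v s) : 0 < rad T s x := by
  have hr := h.r_pos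
  cases s with
  | inl a => norm_num [rad]
  | inr w =>
    have : 0 < ‖x‖ := by rcases hx with h1 | h1 <;> linarith [h1.2.1]
    simpa [rad] using this

theorem kap_le (h : T.Ok) (hγ : 0 < γ) {s : T.S} {x : E4} (hx : x ∈ T.gK L s) :
    kap T γ L s x ≤ 2 := by
  cases s with
  | inl a => norm_num [kap]
  | inr w =>
    have h1 : ‖x‖ ^ (-γ) ≤ 1 :=
      Real.rpow_le_one_of_one_le_of_nonpos (by linarith [hx.1]) (by linarith)
    simp only [kap, Sum.elim_inr, wt]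
    split_ifs with hw
    · linarith
    · have h2 := hx.2 hw
      have h3 : Real.exp (-L w) * ‖x‖ ≤ 1 := by
        rw [Real.exp_neg, inv_mul_le_iff₀ (Real.exp_pos _)]
        nlinarith [h.r_lt, Real.exp_pos (L w)]
      linarith [Real.rpow_le_one (by positivity) h3 hγ.le]

theorem one_idx (I : Fin 1 → Fin 4) : I = ![I 0] := by
  funext i; fin_cases i; rfl

theorem fb_cell (h : T.Ok) (hL : T.Long L) (hγ : 0 < γ) (hN : 0 ≤ N) (hY : YN T γ L N F) (v : T.V)
    (s : T.S) (x : E4) (hx : x ∈ kc T v s) (I : Fin 1 → Fin 4) :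
    CKA (1 / 2) B1 2 (2 * N) fun y => rad T s x * fb L F v s (x + rad T s x • y) I := by
  have hr := h.r_pos
  have hp := (h.str_glob hL).sc_pos s v
  have h1 : (sc (lm L) s v)⁻¹ • x ∈ T.gK L s ∧
      rad T s ((sc (lm L) s v)⁻¹ • x) = (sc (lm L) s v)⁻¹ * rad T s x := by
    cases s with
    | inl a => exact ⟨mem_gK_inl.2 (by simp only [sc, Sum.elim_inl, inv_one, one_smul]; linarith [hx.2]),
        by simp [sc, rad]⟩
    | inr w =>
      refine ⟨?_, by
        simp only [rad, Sum.elim_inr, norm_smul, norm_inv, Real.norm_of_nonneg hp.le]; ring⟩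
      rcases hx with ⟨rfl, h1, h2⟩ | ⟨hw, h1, h2⟩
      · simp only [sc, Sum.elim_inr, lm, if_true, inv_one, one_smul]
        exact ⟨by linarith, fun hw => by linarith [hL w hw]⟩
      · simp only [sc, Sum.elim_inr, lm, if_neg (h.kid_ne hw), Real.exp_neg, inv_inv]
        have h3 := hL w hw.1
        have h4 := Real.exp_pos (L w)
        rw [mem_gK_inr, norm_smul, Real.norm_of_nonneg h4.le]
        exact ⟨by nlinarith, fun _ => by nlinarith⟩
  refine ((hY s _ h1.1 (I 0)).congr isOpen_ball fun y _ => ?_).mono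
    (by nlinarith [kap_le h hγ h1.1])
  rw [← one_idx I]
  simp only [clY, pt, fb, h1.2, smul_add, smul_smul, Pi.smul_apply, smul_eq_mul]
  ring

theorem nrm_bb (x : E4) {y : E4} (hy : y ∈ BB) {r : ℝ} (hr : 0 ≤ r) :
    ‖x‖ - 2 * r ≤ ‖x + r • y‖ ∧ ‖x + r • y‖ ≤ ‖x‖ + 2 * r := by
  have h1 : ‖r • y‖ ≤ 2 * r := by
    rw [norm_smul, Real.norm_of_nonneg hr, mul_comm]
    exact mul_le_mul_of_nonneg_right (mem_ball_zero_iff.1 hy).le hr
  have h2 := norm_sub_le (x + r • y) (r • y)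
  rw [add_sub_cancel_right] at h2
  exact ⟨by linarith, (norm_add_le _ _).trans (by linarith)⟩

theorem rad_gK {s : T.S} {x : E4} (hx : x ∈ T.gK L s) : 0 < rad T s x := by
  cases s with
  | inl a => norm_num [rad]
  | inr w =>
    have : 0 < ‖x‖ := by linarith [hx.1]
    simpa [rad] using this

/-- points in the collars -/
theorem far (h : T.Ok) (hL : T.Long L) (hγ : 0 < γ) (hN : 0 ≤ N) (hF : (T.glob L).Compat F)
    (hY : YN T γ L N F) {v : T.V} {s : T.S} {K0 : Set E4} {t : ℝ} (ht : 0 < t)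
    (P : Loc (T.base v) (kc T v) (rad T) 2 1 s K0 t) {x0 y0 : E4} (hx : x0 ∈ T.gK L s)
    (hz : sc (lm L) s v • pt T s x0 y0 ∈ K0) (h1 : sc (lm L) s v * rad T s x0 ≤ 1) (j : Fin 4) :
    CKA (1 / 2) (ball y0 t) 2 (t⁻¹ * (2 * N)) fun y => clY T F s x0 y ![j] := by
  have hp := (h.str_glob hL).sc_pos s v
  have hρ := mul_pos hp (rad_gK hx)
  have h4 := (P _ hz ht _ _ (by positivity) (fb_compat h hL hF v) (fb_cell h hL hγ hN hY v)
    ![j]).dilate isOpen_ball (by norm_num) (by norm_num) (sc (lm L) s v • x0)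
    (r := sc (lm L) s v * rad T s x0) (by rwa [abs_of_pos hρ])
  refine (((h4.subset fun y hy => ?_).const_mul isOpen_ball
    (sc (lm L) s v * rad T s x0)).congr isOpen_ball fun y _ => ?_).mono ?_
  · rw [mem_preimage, mem_ball_iff_norm, pt, smul_add, smul_smul, add_sub_add_left_eq_sub,
      ← smul_sub, norm_smul, Real.norm_of_nonneg hρ.le]
    exact (mul_le_of_le_one_left (norm_nonneg _) h1).trans_lt (mem_ball_iff_norm.1 hy)
  · simp only [clY, pt, fb, smul_add, smul_smul, Pi.smul_apply, smul_eq_mul,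
      inv_mul_cancel₀ hp.ne', inv_mul_cancel_left₀ hp.ne', one_smul]
    field_simp
  · rw [abs_of_pos hρ]
    exact mul_le_of_le_one_left (by positivity) h1

theorem rpow_cmp {a b : ℝ} (ha : 0 ≤ a) (hb : 0 ≤ b) (hγ : 0 < γ) (hγ1 : γ ≤ 1) (h : a ≤ 2 * b) :
    a ^ γ ≤ 2 * b ^ γ := by
  refine (Real.rpow_le_rpow ha h hγ.le).trans ?_
  rw [Real.mul_rpow zero_le_two hb]
  refine mul_le_mul_of_nonneg_right ?_ (Real.rpow_nonneg hb _)
  simpa using Real.rpow_le_rpow_of_exponent_le one_le_two hγ1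

theorem wt_cmp (hγ : 0 < γ) (hγ1 : γ ≤ 1) (w : T.V) {x z : E4} (hx : 0 < ‖x‖) (hz : 0 < ‖z‖)
    (h1 : ‖x‖ ≤ 2 * ‖z‖) (h2 : ‖z‖ ≤ 2 * ‖x‖) : T.wt γ L w z ≤ 2 * T.wt γ L w x := by
  have h3 : ‖z‖ ^ (-γ) ≤ 2 * ‖x‖ ^ (-γ) := by
    rw [Real.rpow_neg hz.le, Real.rpow_neg hx.le, ← Real.inv_rpow hz.le, ← Real.inv_rpow hx.le]
    refine rpow_cmp (by positivity) (by positivity) hγ hγ1 ?_
    rw [← div_eq_mul_inv, le_div_iff₀ hx, inv_mul_le_iff₀ hz]
    linarith
  have h4 : (Real.exp (-L w) * ‖z‖) ^ γ ≤ 2 * (Real.exp (-L w) * ‖x‖) ^ γ :=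
    rpow_cmp (by positivity) (by positivity) hγ hγ1 (by nlinarith [Real.exp_pos (-L w)])
  simp only [wt]
  split_ifs <;> linarith

/-- points in the support of the same chart -/
theorem near (hN : 0 ≤ N) (hY : YN T γ L N F) {s : T.S} {x0 y0 : E4} (hx : x0 ∈ T.gK L s)
    (hz : pt T s x0 y0 ∈ T.gK L s) (h2 : rad T s x0 ≤ 2 * rad T s (pt T s x0 y0))
    (h3 : kap T γ L s (pt T s x0 y0) ≤ 2 * kap T γ L s x0) (j : Fin 4) :
    CKA (1 / 2) (ball y0 (1 / 8)) 2 (32 * (N * kap T γ L s x0)) fun y => clY T F s x0 y ![j] := by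
  have hρ := rad_gK hx
  have hρ' := rad_gK hz
  have h0 := hY s _ hz j
  have h5 := h0.nonneg (mem_ball_self one_pos)
  have h4 := resc (w := fun p => rad T s (pt T s x0 y0) * F s p ![j]) (L := 2)
    (by norm_num) (by norm_num) (h0.subset (ball_subset_ball (by norm_num : (1 / 4 : ℝ) ≤ 1)))
    hρ hρ' (by norm_num) h2 rfl
  refine (((h4.subset (ball_subset_ball (by norm_num))).const_mul isOpen_ball
    (rad T s x0 / rad T s (pt T s x0 y0))).congr isOpen_ball fun y _ => ?_).mono ?_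
  · simp only [clY, pt, Pi.smul_apply, smul_eq_mul] at hρ' ⊢
    field_simp
  · rw [abs_of_pos (by positivity)]
    calc _ ≤ 2 * (2 ^ (2 + 1) * (N * (2 * kap T γ L s x0))) := by
          gcongr
          exact (div_le_iff₀ hρ').2 h2
      _ = _ := by ring

end Tf

open Tf in
theorem trf {M : Type*} {T : TD M} (h : T.Ok) : TRF T := by
  intro γ hγ hγ1
  have hr := h.r_pos
  have hr1 := h.r_lt
  have lc := fun v s => @loc_cpt _ _ _ (kc T v) (h.base v) (rad T) (kc_rad h v) (kc_cov h v) 2 1 s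
  have h1 := eventually_all.2 fun a => lc (T.vx a) (Sum.inl a) (cpt_ann 0 (7 / 4))
    fun z hz => mem_base_inl.2 ⟨rfl, by linarith [hz.2]⟩
  have h2 := eventually_all.2 fun w => lc w (Sum.inr w) (cpt_ann (9 / 8) (3 / 2))
    fun z hz => mem_base_out.2 ⟨by linarith [hz.1], by linarith [hz.2]⟩
  have h3 := eventually_all.2 fun w : {w // w ≠ T.root} => lc (T.par w) (Sum.inr w)
    (cpt_ann (3 / 4 * T.r) (15 / 16 * T.r)) fun z hz => (mem_base_inn (h.par_ne w.2)).2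
      ⟨⟨w.2, rfl⟩, by linarith [hz.1], by linarith [hz.2]⟩
  obtain ⟨t, ⟨⟨⟨a1, a2⟩, a3⟩, ht8⟩, ht⟩ := (((((h1.and h2).and h3).and
    (Iio_mem_nhds (by norm_num : (0 : ℝ) < 1 / 8))).filter_mono
    (nhdsWithin_le_nhds (s := Ioi 0))).and self_mem_nhdsWithin).exists
  have ht : 0 < t := ht
  have ht8 : t < 1 / 8 := ht8
  refine ⟨2 / t * (32 + t⁻¹ * (4 / T.r)), 0, by positivity, fun L hL F N hN hF hY s x0 hx j => ?_⟩
  have hρ := rad_gK hx
  rw [mul_assoc, mul_assoc]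
  refine CKA.of_local (by norm_num) (by norm_num) ht (by linarith) fun y0 hy => ?_
  have hn := nrm_bb x0 hy hρ.le
  have k0 : 0 ≤ N * kap T γ L s x0 := (hY s x0 hx j).nonneg (mem_ball_self one_pos)
  have nr := fun a b c => ((near hN hY hx (y0 := y0) a b c j).subset
    (ball_subset_ball ht8.le)).mono (mul_le_mul_of_nonneg_right
      (le_add_of_nonneg_right (by positivity : 0 ≤ t⁻¹ * (4 / T.r))) k0)
  have fr : T.r / 2 ≤ kap T γ L s x0 →
      t⁻¹ * (2 * N) ≤ (32 + t⁻¹ * (4 / T.r)) * (N * kap T γ L s x0) := fun hk => by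
    have h4 : 2 * N ≤ 4 / T.r * (N * kap T γ L s x0) :=
      calc 2 * N = 4 / T.r * (N * (T.r / 2)) := by field_simp; ring
        _ ≤ _ := by gcongr
    have h5 := mul_le_mul_of_nonneg_left h4 (inv_pos.2 ht).le
    nlinarith
  by_cases hz : pt T s x0 y0 ∈ T.gK L s
  · cases s with
    | inl a => exact nr hz (by norm_num [rad]) (by norm_num [kap])
    | inr w =>
      simp only [rad, Sum.elim_inr] at hn hρ
      refine nr hz (by simp only [rad, pt, Sum.elim_inr]; linarith [hn.1])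
        (wt_cmp hγ hγ1 w (by linarith) ?_ ?_ ?_) <;>
        simp only [rad, pt, Sum.elim_inr] <;> linarith [hn.1, hn.2]
  · cases s with
    | inl a =>
      have h4 := mem_gK_inl.1 hx
      simp only [rad, Sum.elim_inl] at hn
      refine (far h hL.1 hγ hN hF.compat hY ht (a1 a) hx ⟨norm_nonneg _, ?_⟩
        (by norm_num [sc, rad]) j).mono (fr (by simp only [kap, Sum.elim_inl]; linarith))
      simp only [sc, rad, pt, Sum.elim_inl, one_smul]
      linarith [hn.2]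
    | inr w =>
      obtain ⟨h4, h5⟩ := mem_gK_inr.1 hx
      have hE := Real.exp_pos (L w)
      have w0 : 0 ≤ ‖x0‖ ^ (-γ) := by positivity
      have w1 : 0 ≤ (Real.exp (-L w) * ‖x0‖) ^ γ := by positivity
      simp only [rad, Sum.elim_inr] at hn
      simp only [mem_gK_inr, pt, rad, Sum.elim_inr, not_and_or, not_le, Classical.not_imp] at hz
      rcases hz with hz | ⟨hw, hz⟩
      · refine (far h hL.1 hγ hN hF.compat hY ht (a2 w) hx ?_ ?_ j).mono (fr ?_)
        · simp only [sc, lm, rad, pt, Sum.elim_inr, if_true, one_smul]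
          exact ⟨by linarith [hn.1], hz.le⟩
        · simp only [sc, lm, rad, Sum.elim_inr, if_true]
          linarith [hn.1]
        · have h6 := rpow_cmp (a := 1) (b := ‖x0‖⁻¹) zero_le_one (by positivity) hγ hγ1 (by
            rw [← div_eq_mul_inv, le_div_iff₀ (by linarith)]; linarith [hn.1])
          rw [Real.one_rpow, Real.inv_rpow (norm_nonneg _), ← Real.rpow_neg (norm_nonneg _)] at h6
          simp only [kap, Sum.elim_inr, wt]
          split_ifs <;> linarith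
      · have h6 := h5 hw
        have e : sc (lm L) (Sum.inr w) (T.par w) = (Real.exp (L w))⁻¹ := by
          simp only [sc, lm, Sum.elim_inr, if_neg (h.par_ne hw), Real.exp_neg]
        refine (far h hL.1 hγ hN hF.compat hY ht (a3 ⟨w, hw⟩) hx ?_ ?_ j).mono (fr ?_)
        · rw [e]
          simp only [rad, pt, Sum.elim_inr, mem_setOf_eq, norm_smul, norm_inv,
            Real.norm_of_nonneg hE.le]
          rw [le_inv_mul_iff₀ hE, inv_mul_le_iff₀ hE]
          constructor <;> linarith [hn.2]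
        · rw [e, inv_mul_le_iff₀ hE]
          simp only [rad, Sum.elim_inr]
          nlinarith
        · have h7 : T.r / 2 ≤ Real.exp (-L w) * ‖x0‖ := by
            rw [Real.exp_neg, le_inv_mul_iff₀ hE]
            nlinarith [hn.2]
          have h8 := (Real.self_le_rpow_of_le_one (by positivity) (by linarith) hγ1).trans
            (Real.rpow_le_rpow (by positivity) h7 hγ.le)
          simp only [kap, Sum.elim_inr, wt, if_neg hw]
          linarith

end Crest.Agent.N207.M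

end
end

-- ▼ part N207/M/We1
section

/-!
# Row 207, X3 (helper99): the weighted energy identity on an atlas
-/

set_option autoImplicit false

open scoped ContDiff
open Set Filter Topology MeasureTheory
open Crest.GeometryTopology.CoordMetric
open Crest.Agent.N207.I

noncomputable section

namespace Crest.Agent.N207.M.We

section pt

variable {n k : ℕ} {G : MetricField n} {U : Set (En n)} {y : En n} {f : En n → ℝ} {T : Tn n k}

theorem slA_smT (hf : DifferentiableAt ℝ f y) (hT : DfT T y) (a : Fin n) :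
    slA a (cov G (smT f T) y) = pderiv a f y • T y + f y • slA a (cov G T y) := by
  funext I
  exact cov_smT_cons hf hT a I

theorem nsq_smT (f : En n → ℝ) (T : Tn n k) : nsq G (smT f T) y = f y ^ 2 * nsq G T y := by
  have h : smT f T y = f y • T y := rfl
  simp only [nsq, ip, h, ipA_smul_left, ipA_smul_right]
  ring

theorem ip_smT (f : En n → ℝ) (T S : Tn n k) : ip G (smT f T) S y = f y * ip G T S y := by
  have h : smT f T y = f y • T y := rfl
  simp only [ip, h, ipA_smul_left]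

theorem nsq_cov_smT (hG : IsRiemannianOn G U) (hy : y ∈ U) (hf : DifferentiableAt ℝ f y)
    (hT : DfT T y) : nsq G (cov G (smT f T)) y =
      ip G (cov G (smT (fun z => f z * f z) T)) (cov G T) y + nsq G (dT f) y * nsq G T y := by
  have hs := ginv_symm hG hy
  have e1 : nsq G (dT f) y = ∑ a, ∑ b, (G y)⁻¹ a b * (pderiv a f y * pderiv b f y) := by
    rw [nsq, ip, ipA_one]; rfl
  have e2 : ∑ a, ∑ b, (G y)⁻¹ a b * (f y * pderiv b f y * ipA (G y)⁻¹ (slA a (cov G T y)) (T y)) =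
      ∑ a, ∑ b, (G y)⁻¹ a b * (f y * pderiv a f y * ipA (G y)⁻¹ (T y) (slA b (cov G T y))) := by
    rw [Finset.sum_comm]
    exact Finset.sum_congr rfl fun a _ => Finset.sum_congr rfl fun b _ => by
      rw [hs b a, ipA_comm hs]
  rw [e1, nsq, ip, ip, ipA_succ, ipA_succ, nsq, ip, Finset.sum_mul, ← sub_eq_zero,
    ← sub_eq_zero.2 e2]
  simp only [slA_smT hf hT, slA_smT (f := fun z => f z * f z) (hf.mul hf) hT, pd_mul _ hf hf, ipA_add_left, ipA_add_right,
    ipA_smul_left, ipA_smul_right, Finset.sum_mul, ← Finset.sum_add_distrib,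
    ← Finset.sum_sub_distrib]
  exact Finset.sum_congr rfl fun a _ => Finset.sum_congr rfl fun b _ => by ring

theorem nsq_dT_exp (σ : ℝ) (hf : DifferentiableAt ℝ f y) :
    nsq G (dT fun z => Real.exp (σ * f z)) y = (σ * Real.exp (σ * f y)) ^ 2 * nsq G (dT f) y := by
  have e : (dT fun z => Real.exp (σ * f z)) y = (σ * Real.exp (σ * f y)) • dT f y := by
    funext I
    have h1 : HasDerivAt (fun t => Real.exp (σ * t)) (Real.exp (σ * f y) * σ) (f y) := by
      simpa using ((hasDerivAt_id (f y)).const_mul σ).exp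
    simp only [dT, Pi.smul_apply, smul_eq_mul]
    rw [pd_comp (φ := fun t => Real.exp (σ * t)) _ h1.differentiableAt hf, h1.deriv]
    ring
  simp only [nsq, ip, e, ipA_smul_left, ipA_smul_right]
  ring

theorem young (hG : IsRiemannianOn G U) (hy : y ∈ U) (S T : Tn n k) {e : ℝ} (he : 0 < e) :
    -ip G S T y ≤ e * nsq G S y + nsq G T y / (4 * e) := by
  have h := Ar.ipA_nonneg (hG.posDef y hy) ((2 * e) • S y + T y)
  simp only [ipA_add_left, ipA_add_right, ipA_smul_left, ipA_smul_right,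
    ipA_comm (ginv_symm hG hy) (T y) (S y)] at h
  rw [neg_le_iff_add_nonneg', nsq, nsq, ip, ip, ip]
  refine (div_nonneg h (show 0 ≤ 4 * e by positivity)).trans (le_of_eq ?_)
  field_simp
  ring

end pt

variable {X : Type*} {α : Type} [Fintype α] {A : Atl X α} {G : α → MetricField 4}
  {χ : α → X → ℝ} {K : α → Set E4} {k : ℕ} {T : α → Tn 4 k} {S : Set X} {f : α → E4 → ℝ}

theorem intg_w (h : A.Ok) (hG : A.IsMet G) (hχ : A.PoU χ K) (hS : A.CS S) (hT : A.Sec T)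
    (hv : A.Van T S) {R : α → Tn 4 k} (hR : A.Sec R) (hf : A.Ct f) :
    A.Intg χ G fun a x => f a x * ip (G a) (T a) (R a) x :=
  Atl.intg_of_cs h hG hχ hS (fun a => (hf a).mul (hT.ct_ip hG hR a))
    ((hv.ip_left (G := G) R).of_imp fun b y _ e => by rw [e, mul_zero])

/-- the weighted energy identity -/
theorem wid (h : A.Ok) (hG : A.IsMet G) (hχ : A.PoU χ K) (hS : A.CS S) (hT : A.Sec T)
    (hv : A.Van T S) (hc : A.CompF f) (hs : ∀ a, ContDiffOn ℝ ∞ (f a) (A.U a)) :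
    A.int χ G (fun a x => nsq (G a) (cov (G a) (smT (f a) (T a))) x) =
      A.int χ G (fun a x => f a x ^ 2 * -ip (G a) (T a) (lapT (G a) (T a)) x) +
        A.int χ G fun a x => nsq (G a) (dT (f a)) x * nsq (G a) (T a) x := by
  obtain ⟨S', h1, hS', hcl⟩ := hS.exists_cl h
  replace hv := hv.mono h1
  have s2 : A.Sec fun a => smT (fun z => f a z * f a z) (T a) :=
    hT.smT (hc.map fun t => t * t) fun a => (hs a).mul (hs a)
  have v2 := hv.smT_right fun a z => f a z * f a z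
  have g := Atl.green_lap h hG hχ s2 hT hS' v2
  have i1 := Atl.intg_of_cs h hG hχ hS' ((s2.cov h hG).ct_ip hG (hT.cov h hG))
    ((v2.cov h hcl).ip_left fun a => cov (G a) (T a))
  have sd := Atl.Sec.dT h hG hc hs
  have i2 : A.Intg χ G fun a x => nsq (G a) (dT (f a)) x * nsq (G a) (T a) x :=
    intg_w h hG hχ hS' hT hv hT (sd.ct_ip hG sd)
  rw [Atl.int_congr h (g := fun a x => ip (G a) (cov (G a) (smT (fun z => f a z * f a z) (T a)))
    (cov (G a) (T a)) x + nsq (G a) (dT (f a)) x * nsq (G a) (T a) x) fun a x hx =>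
      nsq_cov_smT (hG.riem a) hx (dAt (hs a) (h.isOpen a) hx) (hT.dfT h hx), Atl.int_add i1 i2]
  congr 1
  refine g.trans ?_
  rw [← Atl.int_neg]
  exact Atl.int_congr h fun a x _ => by rw [ip_smT]; ring

/-- the weighted estimate from the two Hardy inequalities -/
theorem west (h : A.Ok) (hG : A.IsMet G) (hχ : A.PoU χ K) (hS : A.CS S) (hT : A.Sec T)
    (hv : A.Van T S) (hc : A.CompF f) (hs : ∀ a, ContDiffOn ℝ ∞ (f a) (A.U a))
    {r : α → E4 → ℝ} (hr : A.Ct r) (hp : ∀ a, ∀ x ∈ A.U a, 0 < r a x) {θ c : ℝ} (hθ : θ < 1)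
    (hc0 : 0 < c)
    (h4 : A.int χ G (fun a x => nsq (G a) (dT (f a)) x * nsq (G a) (T a) x) ≤
      θ * A.int χ G fun a x => nsq (G a) (cov (G a) (smT (f a) (T a))) x)
    (hh : c * A.int χ G (fun a x => f a x ^ 2 / r a x ^ 2 * nsq (G a) (T a) x) ≤
      A.int χ G fun a x => nsq (G a) (cov (G a) (smT (f a) (T a))) x) :
    A.int χ G (fun a x => f a x ^ 2 / r a x ^ 2 * nsq (G a) (T a) x) ≤ (((1 - θ) * c) ^ 2)⁻¹ *
      A.int χ G fun a x => f a x ^ 2 * r a x ^ 2 * nsq (G a) (lapT (G a) (T a)) x := by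
  have e := wid h hG hχ hS hT hv hc hs
  obtain ⟨S', h1, hS', hcl⟩ := hS.exists_cl h
  replace hv := hv.mono h1
  have sl := hT.lapT h hG
  have cf : A.Ct f := fun a => (hs a).continuousOn
  have i1 : A.Intg χ G fun a x => f a x ^ 2 / r a x ^ 2 * nsq (G a) (T a) x :=
    intg_w h hG hχ hS' hT hv hT fun a => ((cf a).pow 2).div ((hr a).pow 2)
      fun x hx => (pow_pos (hp a x hx) 2).ne'
  have i2 : A.Intg χ G fun a x => f a x ^ 2 * r a x ^ 2 * nsq (G a) (lapT (G a) (T a)) x :=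
    intg_w h hG hχ hS' sl (hv.lapT h hcl) sl fun a => ((cf a).pow 2).mul ((hr a).pow 2)
  have i3 : A.Intg χ G fun a x => f a x ^ 2 * -ip (G a) (T a) (lapT (G a) (T a)) x :=
    (intg_w h hG hχ hS' hT hv sl (f := fun a x => -f a x ^ 2) fun a => ((cf a).pow 2).neg).congr h
      fun a x _ => by ring
  set η := (1 - θ) * c / 2 with hη
  have h0 : 0 < η := by rw [hη]; have := sub_pos.2 hθ; positivity
  have m := Atl.int_mono h hχ i3 ((i1.const_mul η).add (i2.const_mul (4 * η)⁻¹)) fun a x hx => by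
    have p := hp a x hx
    have := mul_le_mul_of_nonneg_left (young (hG.riem a) hx (T a) (lapT (G a) (T a))
      (e := η / r a x ^ 2) (by positivity)) (sq_nonneg (f a x))
    refine this.trans (le_of_eq ?_)
    field_simp
  rw [Atl.int_add (i1.const_mul η) (i2.const_mul _), Atl.int_const_mul, Atl.int_const_mul] at m
  set Y := A.int χ G fun a x => f a x ^ 2 / r a x ^ 2 * nsq (G a) (T a) x
  set Z := A.int χ G fun a x => f a x ^ 2 * r a x ^ 2 * nsq (G a) (lapT (G a) (T a)) x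
  set W := A.int χ G fun a x => nsq (G a) (cov (G a) (smT (f a) (T a))) x
  have k1 : (1 - θ) * (c * Y) ≤ (1 - θ) * W := mul_le_mul_of_nonneg_left hh (sub_pos.2 hθ).le
  have k2 : η * Y ≤ (4 * η)⁻¹ * Z := by rw [hη] at m ⊢; nlinarith
  have k3 : (1 - θ) * c = 2 * η := by rw [hη]; ring
  rw [k3]
  refine le_of_mul_le_mul_left (k2.trans (le_of_eq ?_)) h0
  field_simp
  ring

end Crest.Agent.N207.M.We

end
end

-- ▼ part N207/CB/Gl1
section

/-!
# Row 207, block L (helper77): `GLB`, tools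
-/

set_option autoImplicit false
set_option linter.unusedSectionVars false

open scoped ContDiff
open Metric Set Filter Topology MeasureTheory
open Crest.GeometryTopology.CoordMetric
open Crest.Agent.NLib.Ell Crest.Agent.N207.I Crest.Agent.N207.Lg Crest.Agent.N207.J

noncomputable section

namespace Crest.Agent.N207.CB.Gl

section fp

variable {V : Type} [Fintype V] {A B : V → Type} [∀ v, NormedAddCommGroup (A v)]
  [∀ v, NormedSpace ℂ (A v)] [∀ v, NormedAddCommGroup (B v)] [∀ v, NormedSpace ℂ (B v)]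
  {P : Type} [NormedAddCommGroup P] [NormedSpace ℂ P]

/-- componentwise scaling -/
def scl2 (R r : V → ℝ) (x : (∀ v, A v) × ∀ v, B v) : (∀ v, A v) × ∀ v, B v :=
  (fun v => (R v : ℂ) • x.1 v, fun v => (r v : ℂ) • x.2 v)

theorem diff_scl2 (R r : V → ℝ) : Differentiable ℂ (scl2 (A := A) (B := B) R r) := by
  unfold scl2; fun_prop

omit [Fintype V] in
theorem scl2_inv {R r R' r' : V → ℝ} (hR : ∀ v, R v * R' v = 1) (hr : ∀ v, r v * r' v = 1)
    (x : (∀ v, A v) × ∀ v, B v) : scl2 R r (scl2 R' r' x) = x := by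
  refine Prod.ext (funext fun v => ?_) (funext fun v => ?_) <;>
    simp only [scl2, smul_smul, ← Complex.ofReal_mul, hR, hr, Complex.ofReal_one, one_smul]

/-- closed and open boxes -/
def Bx (R r : V → ℝ) (c : ℝ) : Set ((∀ v, A v) × ∀ v, B v) :=
  {x | ∀ v, ‖x.1 v‖ ≤ c * R v ∧ ‖x.2 v‖ ≤ c * r v}

theorem scl2_mem {R r : V → ℝ} (hR : ∀ v, 0 < R v) (hr : ∀ v, 0 < r v) {c : ℝ}
    {x : (∀ v, A v) × ∀ v, B v} (hx : ‖x‖ ≤ c) : scl2 R r x ∈ Bx R r c := fun v => by
  have h1 := ((norm_le_pi_norm x.1 v).trans (norm_fst_le x)).trans hx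
  have h2 := ((norm_le_pi_norm x.2 v).trans (norm_snd_le x)).trans hx
  have := hR v; have := hr v
  simp only [scl2, norm_smul, Complex.norm_real, Real.norm_of_nonneg (hR v).le,
    Real.norm_of_nonneg (hr v).le, mul_comm c]
  constructor <;> gcongr

theorem norm_scl2 {R r : V → ℝ} (hR : ∀ v, 0 < R v) (hr : ∀ v, 0 < r v)
    {x : (∀ v, A v) × ∀ v, B v} (hx : x ∈ Bx R r 1) :
    ‖scl2 (fun v => (R v)⁻¹) (fun v => (r v)⁻¹) x‖ ≤ 1 := by
  refine max_le ((pi_norm_le_iff_of_nonneg zero_le_one).2 fun v => ?_)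
    ((pi_norm_le_iff_of_nonneg zero_le_one).2 fun v => ?_)
  · simp only [scl2, norm_smul, Complex.norm_real, Real.norm_of_nonneg (inv_pos.2 (hR v)).le]
    rw [inv_mul_le_iff₀ (hR v)]; linarith [(hx v).1]
  · simp only [scl2, norm_smul, Complex.norm_real, Real.norm_of_nonneg (inv_pos.2 (hr v)).le]
    rw [inv_mul_le_iff₀ (hr v)]; linarith [(hx v).2]

/-- the fixed point in a box -/
theorem fpw [∀ v, CompleteSpace (A v)] [∀ v, CompleteSpace (B v)] {R r : V → ℝ}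
    (hR : ∀ v, 0 < R v) (hr : ∀ v, 0 < r v)
    {T : P → ((∀ v, A v) × ∀ v, B v) → (∀ v, A v) × ∀ v, B v} {U : Set P} (hU : IsOpen U)
    (hd : DifferentiableOn ℂ (fun p : P × _ => T p.1 p.2) (U ×ˢ Bx R r 4))
    (hb : ∀ p ∈ U, ∀ x ∈ Bx R r 4, T p x ∈ Bx R r 1) :
    ∃ x : P → (∀ v, A v) × ∀ v, B v, DifferentiableOn ℂ x U ∧ ∀ p ∈ U, x p ∈ Bx R r 1 ∧
      T p (x p) = x p ∧ ∀ S : Set _, IsClosed S → 0 ∈ S →
        (∀ y ∈ S, y ∈ Bx R r 1 → T p y ∈ S) → x p ∈ S := by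
  have i1 := scl2_inv (A := A) (B := B) (fun v => mul_inv_cancel₀ (hR v).ne')
    fun v => mul_inv_cancel₀ (hr v).ne'
  have d1 := diff_scl2 (A := A) (B := B) R r
  have d2 := diff_scl2 (A := A) (B := B) (fun v => (R v)⁻¹) fun v => (r v)⁻¹
  have d3 : DifferentiableOn ℂ (fun p : P × ((∀ v, A v) × ∀ v, B v) => T p.1 (scl2 R r p.2))
      (U ×ˢ ball 0 4) := hd.comp (f := fun p : P × _ => (p.1, scl2 R r p.2)) (by fun_prop)
    fun p hp => ⟨hp.1, scl2_mem hR hr (mem_ball_zero_iff.1 hp.2).le⟩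
  obtain ⟨x, h1, h2⟩ := fp0 (T := fun p x => scl2 (fun v => (R v)⁻¹) (fun v => (r v)⁻¹)
    (T p (scl2 R r x))) hU (d2.comp_differentiableOn d3)
    fun p hp x hx => norm_scl2 hR hr (hb p hp _ (scl2_mem hR hr (mem_ball_zero_iff.1 hx).le))
  refine ⟨fun p => scl2 R r (x p), d1.comp_differentiableOn h1, fun p hp =>
    ⟨scl2_mem hR hr (h2 p hp).1, ?_, fun S hS h0 hT => (h2 p hp).2.2 (scl2 R r ⁻¹' S)
      (hS.preimage d1.continuous) ?_ fun y hy h3 => ?_⟩⟩
  · have := congrArg (scl2 R r) (h2 p hp).2.1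
    rwa [i1] at this
  · rwa [mem_preimage, show scl2 R r (0 : (∀ v, A v) × ∀ v, B v) = 0 by ext <;> simp [scl2]]
  · rw [mem_preimage, i1]
    exact hT _ hy (scl2_mem hR hr h3)

theorem Bx_norm {R r : V → ℝ} {c m : ℝ} (hm : 0 < m) (h : ∀ v, c * R v < m ∧ c * r v < m)
    {x : (∀ v, A v) × ∀ v, B v} (hx : x ∈ Bx R r c) : ‖x‖ < m :=
  max_lt ((pi_norm_lt_iff hm).2 fun v => (hx v).1.trans_lt (h v).1)
    ((pi_norm_lt_iff hm).2 fun v => (hx v).2.trans_lt (h v).2)

end fp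

open Classical in
/-- corestriction -/
def toS {X : Type} [NormedAddCommGroup X] [NormedSpace ℂ X] (S : Submodule ℂ X) (m : X) : S :=
  if h : m ∈ S then ⟨m, h⟩ else 0

theorem toS_val {X : Type} [NormedAddCommGroup X] [NormedSpace ℂ X] {S : Submodule ℂ X} {m : X}
    (h : m ∈ S) : (toS S m).1 = m := by rw [toS, dif_pos h]

variable {M : Type*} {T : TD M} {u v : T.V}

/-- the square of a complex matrix -/
def sqC (a : MtC) : MtC := fun p q => ∑ r, a p r * a r q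

theorem sqC_cm (a : Mt) : sqC (cm a) = cm (a * a) := by
  ext p q; simp [sqC, cm, Matrix.mul_apply]


theorem norm_entry (a : MtC) (p q : Fin 4) : ‖a p q‖ ≤ ‖a‖ :=
  (norm_le_pi_norm (a p) q).trans (norm_le_pi_norm a p)

theorem norm_sqC (a : MtC) : ‖sqC a‖ ≤ 4 * ‖a‖ ^ 2 := by
  refine (pi_norm_le_iff_of_nonneg (by positivity)).2 fun p =>
    (pi_norm_le_iff_of_nonneg (by positivity)).2 fun q => (norm_sum_le _ _).trans
      ((Finset.sum_le_card_nsmul _ _ (‖a‖ ^ 2) fun r _ => ?_).trans (by simp))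
  rw [norm_mul, pow_two]
  exact mul_le_mul (norm_entry a p r) (norm_entry a r q) (norm_nonneg _) (norm_nonneg _)

theorem sqC_mem {a : MtC} (ha : a ∈ SC T u) : sqC a ∈ SC T u := by
  obtain ⟨h1, h2⟩ := SC_re_im ha
  convert add_mem (sub_mem (cm_mem h1.sq) (cm_mem h2.sq))
    (Submodule.smul_mem _ Complex.I (cm_mem (h1.jor h2))) using 1
  ext p q
  simp only [sqC, cm, Matrix.mul_apply, Matrix.add_apply, Matrix.of_apply, Pi.add_apply,
    Pi.sub_apply, Pi.smul_apply, smul_eq_mul, Fin.sum_univ_four]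
  apply Complex.ext <;> simp <;> ring

theorem SC_closed (u : T.V) : IsClosed (SC T u : Set MtC) := (SC T u).closed_of_finiteDimensional

theorem SC_root (a : SC T T.root) : a = 0 := by
  obtain ⟨h1, h2⟩ := SC_re_im a.2
  ext p q
  exact Complex.ext (congrFun (congrFun (h1.root rfl) p) q) (congrFun (congrFun (h2.root rfl) p) q)

theorem real_SC {a : SC T u} (h : ∀ p q, (a.1 p q).im = 0) : ∃ b, Adm T u b ∧ a.1 = cm b :=
  ⟨_, (SC_re_im a.2).1, by ext p q; apply Complex.ext <;> simp [cm, h]⟩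

theorem real_cv {κ : Type} {a : κ → ℂ} (h : ∀ j, (a j).im = 0) : ∃ b, a = cv b :=
  ⟨fun j => (a j).re, by ext j; apply Complex.ext <;> simp [cv, h]⟩

/-! ### the tree -/

theorem kid_ne (h : T.Ok) (hk : T.kid v u) : u ≠ v := by
  rintro rfl
  have := h.dep_par u hk.1
  rw [hk.2] at this
  omega

theorem dep_iter (h : T.Ok) (v : T.V) : ∀ j ≤ T.dep v, T.dep (T.par^[j] v) + j = T.dep v
  | 0, _ => rfl
  | j + 1, hj => by
    have h1 := dep_iter h v j (by omega)
    have h2 := h.dep_par (T.par^[j] v) fun e => by rw [e, h.dep_root] at h1; omega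
    rw [Function.iterate_succ_apply']
    omega

theorem dep_lt (h : T.Ok) (v : T.V) : T.dep v < Fintype.card T.V := by
  have := Fintype.card_le_of_injective (fun j : Fin (T.dep v + 1) => T.par^[j] v) fun i j e => by
    have h1 := dep_iter h v i (Nat.lt_succ_iff.1 i.2)
    have h2 := dep_iter h v j (Nat.lt_succ_iff.1 j.2)
    simp only at e
    rw [e] at h1
    exact Fin.ext (by omega)
  simpa using this

theorem eps_par (h : T.Ok) (L : T.V → ℝ) (hu : u ≠ T.root) :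
    T.eps L u = T.eps L (T.par u) * Real.exp (-L u) := by
  rw [TD.eps, TD.eps, h.dep_par u hu, Finset.sum_range_succ', ← Real.exp_add]
  simp only [Function.iterate_succ_apply, Function.iterate_zero_apply, neg_add]

/-! ### monotonicity -/

variable {Γ : Subgroup Iso4} {S S' : Set E4} {w : MetricField 4} {η η' : ℝ} {m : WithTop ℕ∞}

theorem inv_mono (h : Inv Γ m S w) (hS : S' ⊆ S) : Inv Γ m S' w :=
  ⟨fun a b => (h.sm a b).mono hS, fun x hx => h.symm x (hS hx), fun γ hγ x hx => h.eqv γ hγ x (hS hx)⟩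

theorem inv_bot (h : Inv Γ m S w) {c : Mt} (hc : c.IsSymm) : Inv ⊥ m S fun x => w x + c :=
  ⟨fun a b => (h.sm a b).add contDiffOn_const, fun x hx => (h.symm x hx).add hc, fun γ hγ x _ => by
    rw [Subgroup.mem_bot.1 hγ]
    ext p q
    exact (congrFun (congrFun (AI.pullT_id (matT fun x => w x + c)) x) ![p, q]).symm⟩

theorem b2_mono (h : B2 S η w) (h' : η ≤ η') : B2 S η' w :=
  fun x hx j hj a b => (h x hx j hj a b).trans h'

theorem b2_add (h : B2 S η w) {c : Mt} (h0 : 0 ≤ η') (hc : ∀ p q, |c p q| ≤ η') :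
    B2 S (η + η') fun x => w x + c := fun x hx j hj a b => by
  have := h x hx j hj a b
  rcases j with _ | j
  · simp only [pow_zero, one_mul, norm_iteratedFDeriv_zero, Matrix.add_apply] at this ⊢
    exact (norm_add_le _ _).trans (add_le_add this (hc a b))
  · simp only [← norm_iteratedFDeriv_fderiv, Matrix.add_apply] at this ⊢
    rw [show (fderiv ℝ fun y => w y a b + c a b) = fderiv ℝ fun y => w y a b from
      funext fun y => fderiv_add_const _]
    linarith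

theorem An_mono {I I' : Set ℝ} (h : I ⊆ I') : An I ⊆ An I' := fun _ hx => ⟨hx.1, h hx.2⟩

theorem asol_mono {I : Set ℝ} {en : ℝ} (h : ASol Γ I η en w) (h' : η ≤ η') : ASol Γ I η' en w :=
  ⟨h.inv, h.pos, h.eq, b2_mono h.bd h', h.int, h.en⟩

theorem cos_mono {g : T.V → Fam T} {T0 : ℝ} {κ : Type} [Fintype κ] {ψ : κ → Fam T} {a : T.V → Mt}
    {θ μ : κ → ℝ} {G : Fam T} (h : CoS T g T0 v ψ a η θ μ G) (h' : η ≤ η') :
    CoS T g T0 v ψ a η' θ μ G :=
  ⟨h.sm, h.pos, h.compat, h.eq, h.con,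
    fun s x hx y hy k hk p q => (h.small s x hx y hy k hk p q).trans h', h.mu.trans h'⟩

end Crest.Agent.N207.CB.Gl

end
end

-- ▼ part N207/CB/Gl2
section

/-!
# Row 207, block L (helper77): `GLB`, the global map
-/

set_option autoImplicit false
set_option linter.unusedSectionVars false

open scoped ContDiff
open Metric Set Filter Topology MeasureTheory
open Crest.GeometryTopology.CoordMetric
open Crest.Agent.NLib.Ell Crest.Agent.N207.I Crest.Agent.N207.Lg Crest.Agent.N207.J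

noncomputable section

namespace Crest.Agent.N207.CB.Gl

variable {M : Type*} (T : TD M)

/-- the unknowns -/
abbrev GX (κ : T.V → Type) : Type := (∀ v, XC T v 8 0 × (κ v → ℂ)) × ∀ v, SC T v

/-- the parameters -/
abbrev GP (κ : T.V → Type) (E : Type) : Type := ((Σ v, κ v) → ℂ) × (T.V → E × ℂ)

/-- the chosen pieces -/
structure GD (g : T.V → Fam T) (κ : T.V → Type) [∀ v, Fintype (κ v)] (ψ : ∀ v, κ v → Fam T)
    (T0 ε K η C : ℝ) where
  ok : T.Ok
  cl : ∀ v, IsClosed (XC T v 8 0 : Set (MC T v 8))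
  K0 : 0 ≤ K
  C1 : 1 ≤ C
  X : XN 8
  Y : XH 8
  cX : X.C ≤ C
  cY : Y.C ≤ C
  st : ∀ v, CoreStep T g (ψ v) v T0 ε K η
  A : ∀ v, XC T v 8 0 →L[ℂ] DD
  Ai : ∀ u, XC T (T.par u) 8 0 →L[ℂ] DD
  c : ∀ u, XC T (T.par u) 8 0 →L[ℂ] SC T u
  Θ : ∀ v, T.V → MJ 8 →L[ℂ] MC T v 8
  nA : ∀ v, ‖A v‖ ≤ C
  nAi : ∀ v, ‖Ai v‖ ≤ C
  nc : ∀ v, ‖c v‖ ≤ C
  nΘ : ∀ v u, ‖Θ v u‖ ≤ C
  hA : ∀ v (W : XC T v 8 0) (w : Fam T), SecN T v 8 w → Lf T 0 w W.1 →
    DatQ (unit T v v T0 w) 1 (A v W) ∧ Inv (T.Γ v) 2 (An (Ioo (1 / 2) (7 / 2))) (unit T v v T0 w) ∧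
      B2 (An (Ioo (1 / 2) (7 / 2))) (C * ‖W‖) (unit T v v T0 w)
  hAi : ∀ u, u ≠ T.root → ∀ (W : XC T (T.par u) 8 0) (w : Fam T), SecN T (T.par u) 8 w →
    Lf T 0 w W.1 → Inv (T.Γ u) 2 (An (Ioo (-(7 / 2)) (-(1 / 2)))) (unit T (T.par u) u T0 w) ∧
      B2 (An (Ioo (-(7 / 2)) (-(1 / 2)))) (C * ‖W‖) (unit T (T.par u) u T0 w) ∧
      ∃ c' : Mt, Adm T u c' ∧ (c u W).1 = cm c' ∧
        (∀ a b, pm (cf (fun x => unit T (T.par u) u T0 w x - c') a b) 0 (-3) = 0) ∧
        ∀ c'' : Mt, DatP (fun x => unit T (T.par u) u T0 w x + c'') (-1) (Ai u W) ∧ ∀ a b k,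
          qm (cf (fun x => unit T (T.par u) u T0 w x + c'') a b) k (-3) =
            qm (cf (unit T (T.par u) u T0 w) a b) k (-3)
  hΘ : ∀ v u W, Cpx (sgn T v u) W → Θ v u W ∈ XC T v 8 0
  hΘ' : ∀ v u (β : MetricField 4) (W : MJ 8), LfJ β W → Inv (T.Γ u) ∞ {x | x ≠ 0} β →
    (∀ x : E4, sgn T v u * Real.log ‖x‖ ≤ 22 / 10 → β x = 0) →
    Sec T v (endF T v u T0 β) ∧ Lf T 0 (endF T v u T0 β) (Θ v u W)
  reg : ∀ v, ∀ W ∈ XR T v 8 0, ∃ w, SecN T v 8 w ∧ Lf T 0 w W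

variable {T}

namespace GD

variable {g : T.V → Fam T} {κ : T.V → Type} [∀ v, Fintype (κ v)] {ψ : ∀ v, κ v → Fam T}
  {T0 ε K η C : ℝ} (D : GD T g κ ψ T0 ε K η C)

/-- parameters and unknowns -/
abbrev Q : Type := GP T κ D.X.E × GX T κ

def yc (x : GX T κ) (v : T.V) : DD := D.A v (x.1 v).1

def yp (x : GX T κ) (u : T.V) : DD := D.Ai u (x.1 (T.par u)).1

/-- the outputs of the neck `w` -/
def nk (q : D.Q) (w : T.V) : MJ 8 × MJ 8 × ℂ :=
  if w = T.root then ((D.Y.X (D.yc q.2 w)).1, 0, (D.Y.X (D.yc q.2 w)).2)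
  else D.X.X ((q.1.2 w).1, D.yc q.2 w, D.yp q.2 w)

/-- the collar inputs of the core `v` -/
def bM (q : D.Q) (v : T.V) : MC T v 8 :=
  D.Θ v v (D.nk q v).1 + ∑ w, if T.kid v w then D.Θ v w (D.nk q w).2.1 else 0

def z (q : D.Q) (v : T.V) : Zc T v (κ v) :=
  (q.2.1 v, q.2.2, toS _ (D.bM q v), fun j => q.1.1 ⟨v, j⟩)

/-- the global map -/
def Tm (q : D.Q) : GX T κ :=
  (fun v => (D.st v).Φ (D.z q v), fun u => (-(1 / 2) : ℂ) •
    (D.c u ((D.st (T.par u)).Φ (D.z q (T.par u))).1 + ⟨sqC (q.2.2 u).1, sqC_mem (q.2.2 u).2⟩))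

def Ep (q : D.Q) (v : T.V) : ℂ := ∏ j ∈ Finset.range (T.dep v), (q.1.2 (T.par^[j] v)).2

/-- the action -/
def F (q : D.Q) : ℂ :=
  ∑ v, (D.Ep q v * (D.st v).S (D.z q v) + ((Nat.card (T.Γ v) : ℂ)⁻¹ * (D.nk q v).2.2) *
    if v = T.root then (Real.exp (2 * T0) : ℂ) else D.Ep q (T.par v) * Real.exp (-(2 * T0)))

/-- the centre -/
def p0 : GP T κ D.X.E := (0, fun _ => (D.X.co 0 0, 0))

/-- size of the collar inputs -/
def bb (_ : GD T g κ ψ T0 ε K η C) (ρ m : ℝ) : ℝ :=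
  (Fintype.card T.V + 1) * (C * (C * ((C * m) ^ 2 + ρ)))

/-- smallness -/
structure Sm (ρ m : ℝ) : Prop where
  ρ0 : 0 < ρ
  ρ1 : ρ ≤ 1
  m0 : 0 < m
  hρ : ρ ≤ D.X.ε
  hX : (C + 6) * m ≤ D.X.ε
  hY : C * m ≤ D.Y.ε
  hε : m + D.bb ρ m + ρ < ε

/-- the domain -/
def Ω (ρ m : ℝ) : Set D.Q := ball D.p0 ρ ×ˢ ball 0 m

variable {D} {ρ m : ℝ} {q : D.Q}

include D in
theorem C0 : 0 < C := one_pos.trans_le D.C1

theorem nW (hq : q ∈ D.Ω ρ m) (v : T.V) : ‖q.2.1 v‖ < m :=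
  ((norm_le_pi_norm q.2.1 v).trans (norm_fst_le q.2)).trans_lt (mem_ball_zero_iff.1 hq.2)

theorem na (hq : q ∈ D.Ω ρ m) : ‖q.2.2‖ < m :=
  (norm_snd_le q.2).trans_lt (mem_ball_zero_iff.1 hq.2)

theorem nθ (hq : q ∈ D.Ω ρ m) : ‖q.1.1‖ < ρ := by
  have := (norm_fst_le _).trans_lt (mem_ball_iff_norm.1 hq.1)
  simpa [p0] using this

theorem nn (hq : q ∈ D.Ω ρ m) (w : T.V) : ‖(q.1.2 w).1 - D.X.co 0 0‖ < ρ ∧ ‖(q.1.2 w).2‖ < ρ := by
  have := ((norm_le_pi_norm _ w).trans (norm_snd_le _)).trans_lt (mem_ball_iff_norm.1 hq.1)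
  simpa [p0, Prod.norm_def] using this

theorem nyc (hq : q ∈ D.Ω ρ m) (v : T.V) : ‖D.yc q.2 v‖ < C * m :=
  ((D.A v).le_of_opNorm_le (D.nA v) _).trans_lt
    (mul_lt_mul_of_pos_left ((norm_fst_le _).trans_lt (nW hq v)) D.C0)

theorem nyp (hq : q ∈ D.Ω ρ m) (v : T.V) : ‖D.yp q.2 v‖ < C * m :=
  ((D.Ai v).le_of_opNorm_le (D.nAi v) _).trans_lt
    (mul_lt_mul_of_pos_left ((norm_fst_le _).trans_lt (nW hq _)) D.C0)

theorem memY (h : D.Sm ρ m) (hq : q ∈ D.Ω ρ m) (v : T.V) : D.yc q.2 v ∈ ball (0 : DD) D.Y.ε :=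
  mem_ball_zero_iff.2 ((nyc hq v).trans_le h.hY)

theorem memX (h : D.Sm ρ m) (hq : q ∈ D.Ω ρ m) (w : T.V) :
    ((q.1.2 w).1, D.yc q.2 w, D.yp q.2 w) ∈ ball ((D.X.co 0 0, 0) : D.X.E × DD × DD) D.X.ε := by
  have h1 : C * m ≤ D.X.ε := by nlinarith [h.hX, h.m0]
  rw [mem_ball_iff_norm, Prod.mk_sub_mk, sub_zero]
  exact max_lt ((nn hq w).1.trans_le h.hρ)
    (max_lt ((nyc hq w).trans_le h1) ((nyp hq w).trans_le h1))

theorem nnk (h : D.Sm ρ m) (hq : q ∈ D.Ω ρ m) (w : T.V) :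
    ‖(D.nk q w).1‖ ≤ C * ((C * m) ^ 2 + ρ) ∧ ‖(D.nk q w).2.1‖ ≤ C * ((C * m) ^ 2 + ρ) ∧
      ‖(D.nk q w).2.2‖ ≤ C := by
  have := D.C0
  have := h.ρ0
  unfold nk
  split_ifs
  · obtain ⟨h1, h2⟩ := D.Y.bd _ (memY h hq w)
    refine ⟨h1.trans (mul_le_mul D.cY ?_ (by positivity) (by positivity)),
      by rw [norm_zero]; positivity, h2.trans D.cY⟩
    linarith [pow_le_pow_left₀ (norm_nonneg _) (nyc hq w).le 2]
  · obtain ⟨h1, h2, h3⟩ := D.X.bd _ (memX h hq w)
    have h4 := mul_le_mul D.cX (add_le_add (pow_le_pow_left₀ (norm_nonneg (D.yc q.2 w, D.yp q.2 w))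
      (max_le (nyc hq w).le (nyp hq w).le) 2) (nn hq w).1.le) (by positivity) (by positivity)
    exact ⟨h1.trans h4, h2.trans h4, h3.trans D.cX⟩

theorem sgn_self (v : T.V) : sgn T v v = 1 := if_pos rfl

include D in
theorem sgn_kid {v w : T.V} (hk : T.kid v w) : sgn T v w = -1 := if_neg (kid_ne D.ok hk)

theorem bM_mem (h : D.Sm ρ m) (hq : q ∈ D.Ω ρ m) (v : T.V) : D.bM q v ∈ XC T v 8 0 := by
  refine add_mem (D.hΘ v v _ ?_) (Submodule.sum_mem _ fun w _ => ?_)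
  · rw [sgn_self, nk]
    split_ifs
    exacts [D.Y.cpx _ (memY h hq v), (D.X.cpx _ (memX h hq v)).1]
  · split_ifs with hk
    · refine D.hΘ v w _ ?_
      rw [D.sgn_kid hk, nk, if_neg hk.1]
      exact (D.X.cpx _ (memX h hq w)).2
    · exact zero_mem _

theorem nbM (h : D.Sm ρ m) (hq : q ∈ D.Ω ρ m) (v : T.V) : ‖D.bM q v‖ ≤ D.bb ρ m := by
  have := D.C0
  have := h.ρ0
  have h1 : ∀ u (W : MJ 8), ‖W‖ ≤ C * ((C * m) ^ 2 + ρ) →
      ‖D.Θ v u W‖ ≤ C * (C * ((C * m) ^ 2 + ρ)) := fun u W hW =>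
    ((D.Θ v u).le_of_opNorm_le (D.nΘ v u) W).trans (by gcongr)
  refine (norm_add_le _ _).trans ((add_le_add (h1 _ _ (nnk h hq v).1) ((norm_sum_le _ _).trans
    (Finset.sum_le_card_nsmul _ _ (C * (C * ((C * m) ^ 2 + ρ))) fun w _ => ?_))).trans ?_)
  · split_ifs
    · exact h1 _ _ (nnk h hq w).2.1
    · rw [norm_zero]; positivity
  · rw [bb, Finset.card_univ, nsmul_eq_mul]; linarith

theorem nb (h : D.Sm ρ m) (hq : q ∈ D.Ω ρ m) (v : T.V) : ‖(D.z q v).2.2.1‖ ≤ D.bb ρ m :=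
  (congrArg norm (toS_val (bM_mem h hq v))).trans_le (nbM h hq v)

theorem nzθ (hq : q ∈ D.Ω ρ m) (v : T.V) : ‖(D.z q v).2.2.2‖ ≤ ρ :=
  ((pi_norm_le_iff_of_nonneg (norm_nonneg _)).2 fun j => norm_le_pi_norm q.1.1 ⟨v, j⟩).trans
    (nθ hq).le

theorem nz (h : D.Sm ρ m) (hq : q ∈ D.Ω ρ m) (v : T.V) : ‖D.z q v‖ ≤ m + D.bb ρ m + ρ := by
  have h1 := (norm_nonneg _).trans (nb h hq v)
  have := h.ρ0
  have := h.m0
  exact max_le ((nW hq v).le.trans (by linarith)) (max_le ((na hq).le.trans (by linarith))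
    (max_le ((nb h hq v).trans (by linarith)) ((nzθ hq v).trans (by linarith))))

theorem memz (h : D.Sm ρ m) (hq : q ∈ D.Ω ρ m) (v : T.V) : D.z q v ∈ ball (0 : Zc T v (κ v)) ε :=
  mem_ball_zero_iff.2 ((nz h hq v).trans_lt h.hε)

theorem nΦ (h : D.Sm ρ m) (hq : q ∈ D.Ω ρ m) (v : T.V) : ‖(D.Tm q).1 v‖ ≤
    K * (η + ρ + ‖q.2.2 v‖ + D.bb ρ m + (m + D.bb ρ m + ρ) ^ 2) := by
  refine ((D.st v).bΦ _ (memz h hq v)).trans (mul_le_mul_of_nonneg_left ?_ D.K0)
  have := pow_le_pow_left₀ (norm_nonneg _) (nz h hq v) 2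
  have h2 : ‖(D.z q v).2.1 v‖ = ‖q.2.2 v‖ := rfl
  linarith [nb h hq v, nzθ hq v]

theorem nT2 (q : D.Q) (u : T.V) :
    ‖(D.Tm q).2 u‖ ≤ (C * ‖(D.Tm q).1 (T.par u)‖ + 4 * ‖q.2.2 u‖ ^ 2) / 2 := by
  have h1 := ((D.c u).le_of_opNorm_le (D.nc u) ((D.Tm q).1 (T.par u)).1).trans
    (mul_le_mul_of_nonneg_left (norm_fst_le _) D.C0.le)
  have h2 := (norm_add_le _ (⟨sqC (q.2.2 u).1, sqC_mem (q.2.2 u).2⟩ : SC T u)).trans
    (add_le_add h1 (norm_sqC (q.2.2 u).1))
  refine (norm_smul_le _ _).trans ((mul_le_mul_of_nonneg_left h2 (norm_nonneg _)).trans_eq ?_)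
  simp [div_eq_inv_mul]

/-! ### holomorphy -/

theorem isOpen_Ω : IsOpen (D.Ω ρ m) := isOpen_ball.prod isOpen_ball

theorem diff_nk (h : D.Sm ρ m) (w : T.V) : DifferentiableOn ℂ (fun q => D.nk q w) (D.Ω ρ m) := by
  unfold nk
  split_ifs
  · have : DifferentiableOn ℂ (fun q : D.Q => D.Y.X (D.yc q.2 w)) (D.Ω ρ m) :=
      D.Y.hol.comp (by unfold yc; fun_prop) fun q hq => memY h hq w
    exact this.fst.prodMk ((differentiableOn_const _).prodMk this.snd)
  · exact D.X.hol.comp (by unfold yc yp; fun_prop) fun q hq => memX h hq w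

theorem diff_z (h : D.Sm ρ m) (v : T.V) : DifferentiableOn ℂ (fun q => D.z q v) (D.Ω ρ m) := by
  have h1 : DifferentiableOn ℂ (fun q => D.bM q v) (D.Ω ρ m) := by
    refine ((D.Θ v v).differentiable.comp_differentiableOn (diff_nk h v).fst).add
      (DifferentiableOn.fun_sum fun w _ => ?_)
    split_ifs
    · exact (D.Θ v w).differentiable.comp_differentiableOn (diff_nk h w).snd.fst
    · exact differentiableOn_const _
  have h2 : DifferentiableOn ℂ (fun q => toS (XC T v 8 0) (D.bM q v)) (D.Ω ρ m) :=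
    diffOn_sub (D.cl v) isOpen_Ω (fun q hq => nb h hq v)
      (h1.congr fun q hq => toS_val (bM_mem h hq v))
  unfold z
  fun_prop

theorem diff_Tm (h : D.Sm ρ m) : DifferentiableOn ℂ D.Tm (D.Ω ρ m) := by
  have h1 : ∀ v, DifferentiableOn ℂ (fun q => (D.st v).Φ (D.z q v)) (D.Ω ρ m) := fun v =>
    (D.st v).hΦ.comp (diff_z h v) fun q hq => memz h hq v
  refine (differentiableOn_pi.2 h1).prodMk (differentiableOn_pi.2 fun u => ?_)
  refine DifferentiableOn.const_smul (DifferentiableOn.add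
    ((D.c u).differentiable.comp_differentiableOn (h1 _).fst) ?_) (-(1 / 2) : ℂ)
  refine diffOn_sub (SC_closed u) isOpen_Ω (M := 4 * m ^ 2) (fun q hq => (norm_sqC _).trans ?_) ?_
  · have : ‖(q.2.2 u).1‖ ≤ m := (norm_le_pi_norm q.2.2 u).trans (na hq).le
    gcongr
  · have : Differentiable ℂ fun q : D.Q => (q.2.2 u).1 :=
      (SC T u).subtypeL.differentiable.comp (by fun_prop)
    exact ((show Differentiable ℂ sqC by unfold sqC; fun_prop).comp this).differentiableOn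

theorem diff_F (h : D.Sm ρ m) : DifferentiableOn ℂ D.F (D.Ω ρ m) := by
  have h1 : ∀ v, DifferentiableOn ℂ (fun q => D.Ep q v) (D.Ω ρ m) := fun v => by
    unfold Ep
    induction T.dep v with
    | zero => simp
    | succ n ih =>
      simp only [Finset.prod_range_succ]
      exact ih.mul (by fun_prop)
  refine DifferentiableOn.fun_sum fun v _ => ((h1 v).mul ((D.st v).hS.comp (diff_z h v)
    fun q hq => memz h hq v)).add (((diff_nk h v).snd.snd.const_mul _).mul ?_)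
  split_ifs
  exacts [differentiableOn_const _, (h1 _).mul_const _]

theorem bd_F (h : D.Sm ρ m) : ∃ B, ∀ q ∈ D.Ω ρ m, ‖D.F q‖ ≤ B := by
  refine ⟨∑ v, ((D.st v).B + ‖(Nat.card (T.Γ v) : ℂ)⁻¹‖ * C *
    (Real.exp (2 * T0) + Real.exp (-(2 * T0)))), fun q hq => ?_⟩
  have h1 : ∀ v, ‖D.Ep q v‖ ≤ 1 := fun v => (Finset.norm_prod_le _ _).trans
    (Finset.prod_le_one (fun _ _ => norm_nonneg _) fun j _ => (nn hq _).2.le.trans h.ρ1)
  have := D.C0
  refine norm_sum_le_of_le _ fun v _ => norm_add_le_of_le ?_ ?_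
  · rw [norm_mul]
    exact (mul_le_of_le_one_left (norm_nonneg _) (h1 v)).trans ((D.st v).bS _ (memz h hq v))
  · rw [norm_mul, norm_mul]
    refine mul_le_mul (mul_le_mul_of_nonneg_left (nnk h hq v).2.2 (norm_nonneg _)) ?_
      (norm_nonneg _) (by positivity)
    split_ifs
    · rw [Complex.norm_real, Real.norm_of_nonneg (Real.exp_pos _).le]
      linarith [Real.exp_pos (-(2 * T0))]
    · rw [norm_mul, Complex.norm_real, Real.norm_of_nonneg (Real.exp_pos _).le]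
      nlinarith [Real.exp_pos (-(2 * T0)), Real.exp_pos (2 * T0), h1 (T.par v)]

end GD

end Crest.Agent.N207.CB.Gl

end
end

-- ▼ part N207/CB/Gl3
section

/-!
# Row 207, block L (helper77): `GLB`, real points
-/

set_option autoImplicit false
set_option linter.unusedSectionVars false

open scoped ContDiff
open Metric Set Filter Topology MeasureTheory
open Crest.GeometryTopology.CoordMetric
open Crest.Agent.NLib.Ell Crest.Agent.N207.I Crest.Agent.N207.Lg Crest.Agent.N207.J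

noncomputable section

namespace Crest.Agent.N207.CB.Gl

variable {M : Type*} {T : TD M} {g : T.V → Fam T} {κ : T.V → Type} [∀ v, Fintype (κ v)]
  {ψ : ∀ v, κ v → Fam T} {T0 ε K η C : ℝ}

variable (T κ) in
/-- the real unknowns -/
def RS : Set (GX T κ) := {x | ∀ v, (x.1 v).1.1 ∈ XR T v 8 0 ∧ (∀ j, ((x.1 v).2 j).im = 0) ∧
  ∀ p q, ((x.2 v).1 p q).im = 0}

theorem RS_closed : IsClosed (RS T κ) := by
  simp only [RS, ofPred_forall, ofPred_and]
  refine isClosed_iInter fun v => (isClosed_closure.preimage (f := fun x : GX T κ => (x.1 v).1.1)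
    (by fun_prop)).inter ((isClosed_iInter fun j => isClosed_eq (by fun_prop) continuous_const).inter
      (isClosed_iInter fun p => isClosed_iInter fun q => isClosed_eq (Complex.continuous_im.comp
        ((continuous_apply_apply p q).comp (continuous_subtype_val.comp
          ((continuous_apply v).comp continuous_snd)))) continuous_const))

theorem RS_zero : (0 : GX T κ) ∈ RS T κ := fun _ => ⟨XR_zero, fun _ => rfl, fun _ _ => rfl⟩

/-- the collar inputs as a family on `core v` -/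
def bF (T0 : ℝ) (βc βp : T.V → MetricField 4) (v : T.V) : Fam T :=
  endF T v v T0 (βc v) + ∑ w, if T.kid v w then endF T v w T0 (βp w) else 0

theorem bF_inr (h : T.Ok) (βc βp : T.V → MetricField 4) (v u : T.V) (x : E4) :
    bF T0 βc βp v (Sum.inr u) x = if u = v then βc v (Real.exp (-(sgn T v u * T0)) • x)
      else if T.kid v u then βp u (Real.exp (-(sgn T v u * T0)) • x) else 0 := by
  simp only [bF, Pi.add_apply, Finset.sum_apply]
  rw [Finset.sum_eq_single u (fun w _ hw => by split_ifs <;> simp [endF, onE, hw.symm]) (by simp)]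
  by_cases hu : u = v
  · subst hu
    have : ¬T.kid u u := fun hk => kid_ne h hk rfl
    simp [endF, onE, this]
  · by_cases hk : T.kid v u <;> simp [endF, onE, hu, hk]

theorem bF_inl (βc βp : T.V → MetricField 4) (v : T.V) (b : T.B) (x : E4) :
    bF T0 βc βp v (Sum.inl b) x = 0 := by
  simp only [bF, Pi.add_apply, Finset.sum_apply]
  rw [Finset.sum_eq_zero fun w _ => by split_ifs <;> simp [endF, onE]]
  simp [endF, onE]

theorem unit_self (h : T.Ok) (βc βp : T.V → MetricField 4) (v : T.V) :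
    unit T v v T0 (bF T0 βc βp v) = βc v := by
  funext x
  rw [unit, bF_inr h, if_pos rfl, smul_smul, ← Real.exp_add]; simp

theorem unit_kid (h : T.Ok) (βc βp : T.V → MetricField 4) {v u : T.V} (hk : T.kid v u) :
    unit T v u T0 (bF T0 βc βp v) = βp u := by
  funext x
  rw [unit, bF_inr h, if_neg (kid_ne h hk), if_pos hk, smul_smul, ← Real.exp_add]; simp

theorem log_tau (v u : T.V) {x : E4} (hx : x ≠ 0) :
    sgn T v u * Real.log ‖Real.exp (-(sgn T v u * T0)) • x‖ = tau T v u T0 x := by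
  rw [norm_smul, Real.norm_of_nonneg (Real.exp_pos _).le,
    Real.log_mul (Real.exp_pos _).ne' (norm_ne_zero_iff.2 hx), Real.log_exp, sgn, tau]
  split_ifs <;> ring

namespace GD

variable (D : GD T g κ ψ T0 ε K η C)

/-- real parameters -/
structure RP (θ : (Σ v, κ v) → ℝ) (L : T.V → ℝ) (p : GP T κ D.X.E) : Prop where
  hθ : p.1 = cv θ
  hn : ∀ w, p.2 w = (D.X.N ((L w - 2 * T0 : ℝ) : ℂ), Complex.exp (-2 * (L w : ℂ)))
  hl : ∀ w, D.X.ℓ0 ≤ L w - 2 * T0

/-- the necks at a real point -/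
structure Nk (ρ m : ℝ) (L : T.V → ℝ) (q : D.Q) (u βc βp : T.V → MetricField 4) (en : T.V → ℝ)
    (v : T.V) : Prop where
  sol : ASol (T.Γ v) (nI T T0 L v) (C * (C * m + ρ)) (en v) (u v)
  co : ∃ e, C * m ≤ e ∧ ColO (T.Γ v) e (D.yc q.2 v) (u v) (βc v)
  lc : LfJ (βc v) (D.nk q v).1
  ci : v ≠ T.root →
    ColI (T.Γ v) D.X.ε (D.yp q.2 v) (fun x => u v (Real.exp (L v - 2 * T0) • x)) (βp v) ∧
      LfJ (βp v) (D.nk q v).2.1
  en : (D.nk q v).2.2 =
    (((if v = T.root then 1 else Real.exp (-2 * (L v - 2 * T0))) * en v : ℝ) : ℂ)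
  dec : v = T.root → ∀ x ∈ An (Ioi 1), ∀ j ≤ 2, ∀ a b,
    ‖x‖ ^ j * ‖iteratedFDeriv ℝ j (fun z => u v z a b) x‖ ≤
      C * (C * m + ρ) * (Real.exp 4 / ‖x‖) ^ (3 / 2 : ℝ)

variable {D} {ρ m : ℝ} {q : D.Q} {θ : (Σ v, κ v) → ℝ} {L : T.V → ℝ}

theorem exists_nk (h : D.Sm ρ m) (hq : q ∈ D.Ω ρ m) (hp : D.RP θ L q.1) (hx : q.2 ∈ RS T κ) :
    ∃ u βc βp en, ∀ v, D.Nk ρ m L q u βc βp en v := by
  have C0 := D.C0
  have := h.ρ0
  have := h.m0
  have key : ∀ v, ∃ u βc βp en, D.Nk ρ m L q (fun _ => u) (fun _ => βc) (fun _ => βp)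
      (fun _ => en) v := fun v => by
    obtain ⟨w, w1, w2⟩ := D.reg v _ (hx v).1
    obtain ⟨a1, a2, -⟩ := D.hA v _ w w1 w2
    have a3 := inv_mono a2 (An_mono (Ioo_subset_Ioo_right (by norm_num : (3 / 2 : ℝ) ≤ 7 / 2)))
    by_cases hv : v = T.root
    · obtain ⟨u, βc, en, b1, b2, b3, b4, b5⟩ := D.Y.real _ _ (memY h hq v) _ a3 a1
      have b0 : D.Y.C * ‖D.yc q.2 v‖ ≤ C * (C * m + ρ) :=
        mul_le_mul D.cY (by linarith [nyc hq v]) (norm_nonneg _) C0.le
      refine ⟨u, βc, 0, en, by rw [nI, if_pos hv]; exact asol_mono b1 b0, ⟨_, h.hY, b2⟩,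
        by rw [nk, if_pos hv]; exact b3, fun e => absurd hv e,
        by rw [nk, if_pos hv, if_pos hv, one_mul]; exact b4, fun _ x hx j hj a b =>
          (b5 x hx j hj a b).trans (mul_le_mul_of_nonneg_right b0 (by positivity))⟩
    · obtain ⟨w', w3, w4⟩ := D.reg _ _ (hx (T.par v)).1
      obtain ⟨a4, -, c', -, -, -, a5⟩ := D.hAi v hv _ w' w3 w4
      have a6 := (a5 0).1
      simp only [add_zero] at a6
      have e : (q.1.2 v).1 = D.X.N ((L v - 2 * T0 : ℝ) : ℂ) := by rw [hp.hn]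
      have n1 := (nn hq v).1
      have mx := memX h hq v
      rw [e] at mx n1
      obtain ⟨u, βc, βp, en, b1, b2, b3, b4, b5, b6⟩ := D.X.real _ _ (hp.hl v) _ mx _ _ a3 a1
        (inv_mono a4 (An_mono (Ioo_subset_Ioo_left (by norm_num)))) a6
      refine ⟨u, βc, βp, en, ?_, ⟨_, by nlinarith [h.hX], b2⟩, by rw [nk, if_neg hv, e]; exact b4,
        fun _ => ⟨b3, by rw [nk, if_neg hv, e]; exact b5⟩,
        by rw [nk, if_neg hv, if_neg hv, e]; exact b6, fun e => absurd e hv⟩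
      rw [nI, if_neg hv]
      exact asol_mono b1 (mul_le_mul D.cX (add_le_add (max_le (nyc hq v).le (nyp hq v).le) n1.le)
        (by positivity) C0.le)
  choose u βc βp en hk using key
  exact ⟨u, βc, βp, en, fun v => ⟨(hk v).sol, (hk v).co, (hk v).lc, (hk v).ci, (hk v).en, (hk v).dec⟩⟩

variable {u βc βp : T.V → MetricField 4} {en : T.V → ℝ}

theorem supp_c (hk : ∀ v, D.Nk ρ m L q u βc βp en v) (v : T.V) (x : E4)
    (hx : sgn T v v * Real.log ‖x‖ ≤ 22 / 10) : βc v x = 0 := by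
  obtain ⟨e, -, h1⟩ := (hk v).co
  exact h1.supp x (Or.inl (by rwa [sgn_self, one_mul] at hx))

theorem supp_p (hk : ∀ v, D.Nk ρ m L q u βc βp en v) {v w : T.V} (hw : T.kid v w) (x : E4)
    (hx : sgn T v w * Real.log ‖x‖ ≤ 22 / 10) : βp w x = 0 :=
  ((hk w).ci hw.1).1.supp x (Or.inl (by rwa [D.sgn_kid hw, neg_one_mul] at hx))

theorem sec_bF (hk : ∀ v, D.Nk ρ m L q u βc βp en v) (v : T.V) :
    Sec T v (bF T0 βc βp v) ∧ Lf T 0 (bF T0 βc βp v) (D.bM q v) := by
  obtain ⟨e, -, h1⟩ := (hk v).co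
  have h2 := D.hΘ' v v _ _ (hk v).lc h1.inv (supp_c hk v)
  have h3 := fun w (hw : T.kid v w) =>
    D.hΘ' v w _ _ ((hk w).ci hw.1).2 ((hk w).ci hw.1).1.inv (supp_p hk hw)
  refine ⟨h2.1.add (Sec.sum _ fun w _ => ?_), fun i => ?_⟩
  · split_ifs with hw
    exacts [(h3 w hw).1, Sec.zero]
  · rw [bF, Pi.add_apply, Finset.sum_apply]
    refine (h2.2 i).add (LfAt.sum _ fun w _ => ?_)
    split_ifs with hw
    exacts [(h3 w hw).2 i, LfAt.zero]

theorem bF_zero (hk : ∀ v, D.Nk ρ m L q u βc βp en v) (v : T.V) (s : T.S) (x : E4)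
    (hx : x ∈ UR T v T0 (22 / 10) s) : bF T0 βc βp v s x = 0 := by
  rcases s with b | w
  · exact bF_inl ..
  · have h1 := (log_tau (T0 := T0) v w (end_ne hx.1)).trans_le (hx.2 w rfl).le
    rw [bF_inr D.ok]
    split_ifs with e hw
    · subst e; exact supp_c hk _ _ h1
    · exact supp_p hk hw _ h1
    · rfl

theorem exists_zr (h : D.Sm ρ m) (hq : q ∈ D.Ω ρ m) (hp : D.RP θ L q.1) (hx : q.2 ∈ RS T κ)
    (hk : ∀ v, D.Nk ρ m L q u βc βp en v) :
    ∃ (μ : ∀ v, κ v → ℝ) (a : T.V → Mt), ∀ v, ZR T (D.z q v) (μ v) a fun j => θ ⟨v, j⟩ := by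
  choose μ hμ using fun v => real_cv (hx v).2.1
  choose a ha using fun v => real_SC (hx v).2.2
  refine ⟨μ, a, fun v => ⟨(hx v).1, hμ v, ha, ?_, ?_⟩⟩
  · change (toS _ (D.bM q v)).1 ∈ _
    rw [toS_val (bM_mem h hq v)]
    exact subset_closure ⟨_, sec_bF hk v⟩
  · change (fun j => q.1.1 ⟨v, j⟩) = _
    rw [hp.hθ]; rfl

theorem Tm_real (h : D.Sm ρ m) (hq : q ∈ D.Ω ρ m) (hp : D.RP θ L q.1) (hx : q.2 ∈ RS T κ) :
    D.Tm q ∈ RS T κ := by
  obtain ⟨u, βc, βp, en, hk⟩ := exists_nk h hq hp hx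
  obtain ⟨μ, a, hz⟩ := exists_zr h hq hp hx hk
  have h1 := fun v => (D.st v).real _ (memz h hq v) _ _ _ (hz v)
  intro v
  refine ⟨(h1 v).1, fun j => ?_, fun p r => ?_⟩
  · obtain ⟨μ', e⟩ := (h1 v).2
    change (((D.st v).Φ (D.z q v)).2 j).im = 0
    rw [e]; exact Complex.ofReal_im _
  · by_cases hv : v = T.root
    · subst hv
      rw [SC_root ((D.Tm q).2 T.root)]; rfl
    · obtain ⟨w, w1, w2⟩ := D.reg _ _ (h1 (T.par v)).1
      obtain ⟨-, -, c', -, e, -⟩ := D.hAi v hv _ w w1 w2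
      have e2 : (q.2.2 v).1 = cm (a v) := ((hz v).ha v).2
      change ((-(1 / 2) : ℂ) * ((D.c v _).1 p r + sqC (q.2.2 v).1 p r)).im = 0
      rw [e, e2, sqC_cm]
      simp [cm]

theorem Ep_real (hp : D.RP θ L q.1) (v : T.V) : D.Ep q v = ((T.eps L v ^ 2 : ℝ) : ℂ) := by
  simp only [Ep, hp.hn, ← Complex.exp_sum, TD.eps, ← Real.exp_nat_mul, ← Finset.mul_sum]
  push_cast
  congr 1; ring

/-- the meaning of a real fixed point -/
theorem real_fix (h : D.Sm ρ m) (hq : q ∈ D.Ω ρ m) (hp : D.RP θ L q.1) (hx : q.2 ∈ RS T κ)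
    (hf : D.Tm q = q.2) {δ : ℝ} (hm : m ≤ 1) (h1 : K * (η + (m + D.bb ρ m + ρ)) ≤ δ)
    (h2 : C * (C * m + ρ) ≤ δ) :
    ∃ (a : T.V → Mt) (μ : (Σ v, κ v) → ℝ) (G : T.V → Fam T) (u : T.V → MetricField 4)
      (en : T.V → ℝ), (∀ w, Adm T w (a w)) ∧ (∀ w p r, |a w p r| ≤ m) ∧
      (∀ v, CoS T g T0 v (ψ v) a δ (fun j => θ ⟨v, j⟩) (fun j => μ ⟨v, j⟩) (G v)) ∧
      (∀ w, ASol (T.Γ w) (nI T T0 L w) δ (en w) (u w)) ∧
      (∀ w, ∀ x ∈ An (Ioo 1 2), G w (Sum.inr w) (Real.exp T0 • x) = 1 + u w x) ∧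
      (∀ w, w ≠ T.root → ∀ x ∈ An (Ioo (-2) (-1)), G (T.par w) (Sum.inr w) (Real.exp (-T0) • x) =
        1 + u w (Real.exp (L w - 2 * T0) • x)) ∧
      (∀ x ∈ An (Ioi 1), ∀ j ≤ 2, ∀ p r,
        ‖x‖ ^ j * ‖iteratedFDeriv ℝ j (fun z => u T.root z p r) x‖ ≤
          δ * (Real.exp 4 / ‖x‖) ^ (3 / 2 : ℝ)) ∧
      D.F q = (∑ v, T.eps L v ^ 2 * (actC T v T0 (fun s => fgfF (gbA T g T0 a v s) (G v s)) +
        (Nat.card (T.Γ v) : ℝ)⁻¹ * (Real.exp (2 * T0) * en v)) : ℝ) := by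
  have C0 := D.C0
  obtain ⟨u, βc, βp, en, hk⟩ := exists_nk h hq hp hx
  obtain ⟨μ, a, hz⟩ := exists_zr h hq hp hx hk
  choose w w1 w2 using fun v => D.reg v _ (hx v).1
  have f1 : ∀ v, (D.st v).Φ (D.z q v) = q.2.1 v := fun v => congrFun (congrArg Prod.fst hf) v
  choose G G1 G2 using fun v => (D.st v).fix _ (memz h hq v) _ _ _ (hz v) (f1 v) _ (w v)
    (sec_bF hk v).1 (by
      change Lf T 0 _ (toS _ (D.bM q v)).1
      rw [toS_val (bM_mem h hq v)]
      exact (sec_bF hk v).2) (bF_zero hk v) (w1 v) (w2 v)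
  have ea : ∀ v, (q.2.2 v).1 = cm (a v) := fun v => ((hz v).ha v).2
  have na' : ∀ v, ‖cm (a v)‖ ≤ m := fun v =>
    ea v ▸ ((norm_le_pi_norm q.2.2 v).trans (na hq).le : ‖(q.2.2 v).1‖ ≤ m)
  have nW' : ∀ v, C * ‖(q.2.1 v).1‖ ≤ C * m := fun v =>
    mul_le_mul_of_nonneg_left ((norm_fst_le _).trans (nW hq v).le) C0.le
  refine ⟨a, fun j => -(μ j.1 j.2 / 2), G, u, en, fun v => ((hz v).ha v).1, fun v p r => ?_,
    fun v => cos_mono (G1 v).cos (le_trans (mul_le_mul_of_nonneg_left ?_ D.K0) h1),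
    fun v => asol_mono (hk v).sol h2, fun v x hx => ?_, fun v hv x hx => ?_,
    fun x hx j hj p r => ((hk _).dec rfl x hx j hj p r).trans
      (mul_le_mul_of_nonneg_right h2 (by positivity)), ?_⟩
  · simpa [cm] using (norm_entry (cm (a v)) p r).trans (na' v)
  · linarith [nz h hq v]
  · obtain ⟨e, e1, e2⟩ := (hk v).co
    obtain ⟨a1, a2, a3⟩ := D.hA v _ _ (w1 v) (w2 v)
    rw [(G1 v).outG x hx, e2.unq _ ⟨a2.sm, a2.symm, fun γ hγ => a2.eqv γ (bot_le (a := T.Γ v) hγ)⟩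
      (b2_mono a3 ((nW' v).trans e1)) a1 (G1 v).outP ?_ x hx]
    rw [← unit_self (T0 := T0) D.ok βc βp v]
    exact (G1 v).outE
  · have kd : T.kid (T.par v) v := ⟨hv, rfl⟩
    obtain ⟨a1, a2, c', -, a3, a4, a5⟩ := D.hAi v hv _ _ (w1 _) (w2 _)
    have e1 : cA (a v) = -c' := by
      have e2 := congrArg Subtype.val (congrFun (congrArg Prod.snd hf) v)
      change (-(1 / 2) : ℂ) • ((D.c v ((D.st _).Φ _).1).1 + sqC (q.2.2 v).1) = _ at e2
      rw [f1, a3, ea, sqC_cm] at e2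
      ext p r
      have e3 := congrArg Complex.re (congrFun (congrFun e2 p) r)
      simp [cm] at e3
      simp only [cA, two_smul, Matrix.add_apply, Matrix.neg_apply]
      linarith
    have e4 : ∀ p r, |cA (a v) p r| ≤ 6 * m := fun p r => by
      have := (norm_entry (cAc (cm (a v))) p r).trans (norm_cAc ((na' v).trans hm))
      rw [cAc_cm] at this
      simp only [cm, Complex.norm_real, Real.norm_eq_abs] at this
      linarith [na' v]
    rw [(G1 _).innG v kd x hx, ((hk v).ci hv).1.unq _ (inv_bot a1 ((hz v).ha v).1.cA.symm)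
      (b2_mono (b2_add a2 (by linarith [h.m0]) e4) (by linarith [nW' (T.par v), h.hX])) (a5 _).1
      (fun p r k => ((a5 _).2 p r k).trans ((G1 _).innQ v kd p r k))
      (by simpa only [e1, sub_eq_add_neg] using a4) ?_ x hx]
    rw [← unit_kid (T0 := T0) D.ok βc βp kd]
    exact (G1 _).innE v kd
  · rw [F, Complex.ofReal_sum]
    refine Finset.sum_congr rfl fun v _ => ?_
    rw [G2, (hk v).en, Ep_real hp, Ep_real hp]
    split_ifs with hv
    · have : T.eps L v = 1 := by simp [TD.eps, hv, D.ok.dep_root]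
      rw [this]; push_cast; ring
    · rw [eps_par D.ok L hv, show Real.exp (2 * T0) = Real.exp (-2 * (L v - 2 * T0)) *
        Real.exp (-(2 * T0)) * Real.exp (L v) ^ 2 by
          rw [← Real.exp_nat_mul, ← Real.exp_add, ← Real.exp_add]; congr 1; push_cast; ring,
        Real.exp_neg (L v)]
      have := Complex.ofReal_ne_zero.2 (Real.exp_pos (L v)).ne'
      simp only [Complex.ofReal_mul, Complex.ofReal_add, Complex.ofReal_pow, Complex.ofReal_inv,
        Complex.ofReal_natCast]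
      field_simp

end GD

end Crest.Agent.N207.CB.Gl

end
end

-- ▼ part N207/CB/Gl4

/-!
# Row 207, block L (helper77): `GLB`
-/

set_option autoImplicit false
set_option linter.unusedSectionVars false

open scoped ContDiff
open Metric Set Filter Topology MeasureTheory
open Crest.GeometryTopology.CoordMetric
open Crest.Agent.NLib.Ell Crest.Agent.N207.I Crest.Agent.N207.Lg Crest.Agent.N207.J

noncomputable section

namespace Crest.Agent.N207.CB

namespace Gl

/-- the constants -/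
structure Cst (n C c2 c : ℝ) : Prop where
  h0 : 0 ≤ c2
  h1 : (n + 1) * C ^ 2 * (25 * C ^ 2 + 1) ≤ c2
  h2 : 5 + c2 + (6 + c2) ^ 2 ≤ c
  h3 : 5 * (C + 6) ≤ c
  h4 : C * (5 * C + 1) ≤ c
  h5 : 64 ≤ c
  h6 : 7 + c2 ≤ c

theorem exists_cst {n C : ℝ} (hn : 0 ≤ n) (hC : 0 ≤ C) : ∃ c2 c, Cst n C c2 c := by
  obtain ⟨c2, h⟩ : ∃ c2, c2 = (n + 1) * C ^ 2 * (25 * C ^ 2 + 1) := ⟨_, rfl⟩
  have h0 : 0 ≤ c2 := by rw [h]; positivity
  have h1 : 0 ≤ C * (5 * C + 1) := by positivity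
  have h2 := sq_nonneg (6 + c2)
  exact ⟨c2, 5 + c2 + (6 + c2) ^ 2 + 5 * (C + 6) + C * (5 * C + 1) + 64, h0, h.ge, by linarith,
    by linarith, by linarith, by linarith, by linarith⟩

variable {M : Type*} {T : TD M} {g : T.V → Fam T} {κ : T.V → Type} [∀ v, Fintype (κ v)]
  {ψ : ∀ v, κ v → Fam T} {T0 ε K η C : ℝ}

set_option maxHeartbeats 1600000 in
theorem GD.solve (D : GD T g κ ψ T0 ε K η C) {ρ c2 c e : ℝ} (hρ : 0 < ρ) (hη : 0 ≤ η) (hK : 1 ≤ K)
    (hc : Cst (Fintype.card T.V) C c2 c)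
    (ht : c * (((c * K) ^ (2 * Fintype.card T.V)) ^ 2 * (ρ + η)) ≤ e) (e1 : e < ε)
    (e2 : e ≤ D.X.ε) (e3 : e ≤ D.Y.ε) (e4 : e ≤ 1) :
    ∃ m, D.Sm ρ m ∧ m ≤ e ∧ K * (η + (m + D.bb ρ m + ρ)) ≤ e ∧ C * (C * m + ρ) ≤ e ∧
      ∃ x : GP T κ D.X.E → GX T κ, DifferentiableOn ℂ x (ball D.p0 ρ) ∧ ∀ p ∈ ball D.p0 ρ,
        (p, x p) ∈ D.Ω ρ m ∧ D.Tm (p, x p) = x p ∧ ∀ θ L, D.RP θ L p → x p ∈ RS T κ := by
  obtain ⟨h0, h1, h2, h3, h4, h5, h6⟩ := hc
  have C1 := D.C1
  obtain ⟨A, hA⟩ : ∃ A, A = c * K := ⟨_, rfl⟩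
  obtain ⟨s, hs⟩ : ∃ s, s = ρ + η := ⟨_, rfl⟩
  rw [← hA, ← hs] at ht
  have s0 : 0 < s := by linarith
  have Ac : c ≤ A := by nlinarith
  have A1 : 1 ≤ A := by linarith
  have pw : ∀ j, j ≤ 2 * Fintype.card T.V → A ^ j * s ≤ A ^ (2 * Fintype.card T.V) * s :=
    fun j hj => mul_le_mul_of_nonneg_right (pow_le_pow_right₀ A1 hj) s0.le
  have pw1 : ∀ j, s ≤ A ^ j * s := fun j => le_mul_of_one_le_left s0.le (one_le_pow₀ A1)
  have AP : A ≤ A ^ (2 * Fintype.card T.V) :=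
    le_self_pow₀ A1 (by have := dep_lt D.ok T.root; omega)
  obtain ⟨P, hP⟩ : ∃ P, P = A ^ (2 * Fintype.card T.V) := ⟨_, rfl⟩
  rw [← hP] at ht pw AP
  have P1 : 1 ≤ P := A1.trans AP
  obtain ⟨u, hu⟩ : ∃ u, u = P * s := ⟨_, rfl⟩
  have su : s ≤ u := by nlinarith
  obtain ⟨t, ht'⟩ : ∃ t, t = P ^ 2 * s := ⟨_, rfl⟩
  rw [← ht'] at ht
  have ut : u ≤ t := by rw [hu, ht']; gcongr; nlinarith
  have Aut : A * u ≤ t := by rw [hu, ht', ← mul_assoc, pow_two]; gcongr
  have t1 : 64 * t ≤ 1 := by nlinarith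
  have uu : u ^ 2 ≤ s := by
    rw [show u ^ 2 = t * s by rw [hu, ht']; ring]; nlinarith
  have cu : ∀ a, a ≤ c → a * u ≤ e := fun a ha =>
    (mul_le_mul ha ut (by linarith) (by linarith)).trans ht
  have hb : D.bb ρ (5 * u) ≤ c2 * s := by
    refine le_trans ?_ (mul_le_mul_of_nonneg_right h1 s0.le)
    have : (C * (5 * u)) ^ 2 + ρ ≤ (25 * C ^ 2 + 1) * s := by nlinarith [sq_nonneg C]
    calc D.bb ρ (5 * u) = (Fintype.card T.V + 1) * C ^ 2 * ((C * (5 * u)) ^ 2 + ρ) := by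
          rw [GD.bb]; ring
      _ ≤ _ := by rw [mul_assoc _ (25 * C ^ 2 + 1)]; gcongr
  have b0 : 0 ≤ D.bb ρ (5 * u) := by rw [GD.bb]; positivity
  have hz : 5 * u + D.bb ρ (5 * u) + ρ ≤ (6 + c2) * u := by nlinarith
  have hz2 : (5 * u + D.bb ρ (5 * u) + ρ) ^ 2 ≤ (6 + c2) ^ 2 * s := by
    refine (pow_le_pow_left₀ (by linarith) hz 2).trans ?_
    rw [mul_pow]; gcongr
  have hS : D.Sm ρ (5 * u) := ⟨hρ, by linarith [cu 1 (by linarith)], by linarith,
    by linarith [cu 1 (by linarith)], by linarith [cu _ h3],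
    by linarith [cu (5 * C) (by linarith)], by linarith [cu (6 + c2) (by linarith)]⟩
  have hΩ : ∀ p ∈ ball D.p0 ρ, ∀ a ≤ (4 : ℝ), ∀ x ∈ Bx (fun v => A ^ (2 * T.dep v + 1) * s)
      (fun v => A ^ (2 * T.dep v) * s) a, ((p, x) : D.Q) ∈ D.Ω ρ (5 * u) := fun p hp a ha x hx =>
    ⟨hp, mem_ball_zero_iff.2 (Bx_norm hS.m0 (fun v => by
      have := dep_lt D.ok v
      have a1 := pw (2 * T.dep v + 1) (by omega)
      have a2 := pw (2 * T.dep v) (by omega)
      have a3 := pw1 (2 * T.dep v + 1)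
      have a4 := pw1 (2 * T.dep v)
      constructor <;> nlinarith) hx)⟩
  have : ∀ v, CompleteSpace (XC T v 8 0) := fun v => (D.cl v).completeSpace_coe
  have : ∀ v, CompleteSpace (SC T v) := fun v => (SC_closed v).completeSpace_coe
  obtain ⟨x, x1, x2⟩ := fpw (T := fun p x => D.Tm (p, x)) (U := ball D.p0 ρ)
    (R := fun v => A ^ (2 * T.dep v + 1) * s) (r := fun v => A ^ (2 * T.dep v) * s)
    (fun v => by positivity) (fun v => by positivity) isOpen_ball
    ((GD.diff_Tm hS).mono fun q hq => hΩ _ hq.1 4 le_rfl _ hq.2) fun p hp x hx => by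
      have k1 : ∀ v, ‖(D.Tm (p, x)).1 v‖ ≤ A ^ (2 * T.dep v + 1) * s := fun v => by
        refine (GD.nΦ hS (hΩ p hp 4 le_rfl x hx) v).trans ?_
        have a1 := (hx v).2
        have a2 := pw1 (2 * T.dep v)
        have a3 : η + ρ + ‖x.2 v‖ + D.bb ρ (5 * u) + (5 * u + D.bb ρ (5 * u) + ρ) ^ 2 ≤
            c * (A ^ (2 * T.dep v) * s) := by
          have a4 := mul_le_mul_of_nonneg_left a2 (add_nonneg h0 (sq_nonneg (6 + c2)))
          have a5 := mul_le_mul_of_nonneg_right h2 (s0.le.trans a2)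
          simp only at a1
          linarith
        refine (mul_le_mul_of_nonneg_left a3 D.K0).trans_eq ?_
        rw [pow_succ, hA]; ring
      refine fun v => ⟨by simpa using k1 v, ?_⟩
      by_cases hv : v = T.root
      · subst hv
        rw [SC_root ((D.Tm (p, x)).2 T.root), norm_zero]; positivity
      refine (GD.nT2 _ v).trans ?_
      have a1 := (hx v).2
      have a2 := k1 (T.par v)
      have a3 : A * (A ^ (2 * T.dep (T.par v) + 1) * s) = A ^ (2 * T.dep v) * s := by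
        rw [D.ok.dep_par v hv]; ring
      have a4 := pw (2 * T.dep v) (by have := dep_lt D.ok v; omega)
      have a5 := pw1 (2 * T.dep v)
      have a6 := mul_le_mul (show C ≤ A by linarith) a2 (norm_nonneg _) (by linarith)
      have a7 := pow_le_pow_left₀ (norm_nonneg _) a1 2
      simp only at a7 ⊢
      nlinarith
  refine ⟨5 * u, hS, cu 5 (by linarith), ?_, ?_, x, x1, fun p hp => ⟨hΩ p hp 1 (by norm_num) _
    (x2 p hp).1, (x2 p hp).2.1, fun θ L hL => (x2 p hp).2.2 _ RS_closed RS_zero fun y hy hy' =>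
      GD.Tm_real hS (hΩ p hp 1 (by norm_num) y hy') hL hy⟩⟩
  · have a1 : η + (5 * u + D.bb ρ (5 * u) + ρ) ≤ c * u := by nlinarith
    refine (mul_le_mul_of_nonneg_left a1 D.K0).trans ?_
    rw [← mul_assoc, mul_comm K, ← hA]
    nlinarith
  · refine le_trans ?_ (cu _ h4)
    rw [mul_assoc C]
    gcongr; linarith

theorem ev_small {n : ℕ} (hn : 0 < n) {γ : ℝ} (hγ : 0 < γ) (c B : ℝ) {e : ℝ} (he : 0 < e) :
    ∀ᶠ T0 : ℝ in atTop, c * (((c * (B * Real.exp (2 * (min γ 1 / (16 * n)) * T0))) ^ (2 * n)) ^ 2 *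
      (2 * Real.exp (-(3 / 4 * min γ 1 * T0)) + Real.exp (-(γ * T0)))) ≤ e := by
  have h0 : 0 < min γ 1 := lt_min hγ one_pos
  have h1 := (tendsto_exp_neg (κ := min γ 1 / 4) (by positivity)).const_mul
    (|c| * ((c * B) ^ (2 * n)) ^ 2 * 3)
  rw [mul_zero] at h1
  filter_upwards [h1.eventually (ge_mem_nhds he), eventually_ge_atTop 0] with T0 h2 h3
  refine le_trans ((mul_le_mul_of_nonneg_right (le_abs_self c) (by positivity)).trans ?_) h2
  have e1 : ((c * (B * Real.exp (2 * (min γ 1 / (16 * n)) * T0))) ^ (2 * n)) ^ 2 =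
      ((c * B) ^ (2 * n)) ^ 2 * Real.exp (min γ 1 / 2 * T0) := by
    rw [← mul_assoc, mul_pow, mul_pow, ← Real.exp_nat_mul, ← Real.exp_nat_mul]
    congr 2
    have : (n : ℝ) ≠ 0 := by positivity
    push_cast; field_simp; ring
  have e2 : Real.exp (-(γ * T0)) ≤ Real.exp (-(3 / 4 * min γ 1 * T0)) :=
    Real.exp_le_exp.2 (by nlinarith [min_le_left γ 1])
  have e3 : Real.exp (-(min γ 1 / 4) * T0) =
      Real.exp (min γ 1 / 2 * T0) * Real.exp (-(3 / 4 * min γ 1 * T0)) := by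
    rw [← Real.exp_add]; congr 1; ring
  rw [e1, e3]
  calc _ ≤ |c| * (((c * B) ^ (2 * n)) ^ 2 * Real.exp (min γ 1 / 2 * T0) *
        (3 * Real.exp (-(3 / 4 * min γ 1 * T0)))) := by gcongr; linarith
    _ = _ := by ring

end Gl

open Gl

variable {M : Type*} (T : TD M)

/-- **GLB** -/
theorem glb : GLB T := by
  intro hC hX hY hA hT hR hG hP hD g γ hγ ok lim κ _ ψ hK δ hδ
  have hn : 0 < Fintype.card T.V := Fintype.card_pos_iff.2 ⟨T.root⟩
  have hn' : (1 : ℝ) ≤ Fintype.card T.V := by exact_mod_cast hn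
  have h0 : 0 < min γ 1 := lt_min hγ one_pos
  have σ0 : 0 < sig T γ := by unfold sig; positivity
  obtain ⟨ε, B, T1, ε0, B1, hψ, hst⟩ := hC g γ _ hγ σ0 (by
    rw [sig, div_lt_one (by positivity)]; linarith [min_le_right γ 1]) ok lim κ ψ hK
  obtain ⟨X⟩ := hX 8
  obtain ⟨Y⟩ := hY 8
  obtain ⟨CA, TA, CA0, hA⟩ := hA ok
  obtain ⟨CT, TT, CT0, hT⟩ := hT ok 8
  obtain ⟨TG, hG⟩ := hG g γ hγ ok lim κ ψ T1 hψ
  obtain ⟨δ', TP, δ0, hP⟩ := hP g γ hγ ok lim κ ψ T1 hψ δ hδ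
  obtain ⟨C, C1, C2, C3, C4, C5⟩ : ∃ C : ℝ, 1 ≤ C ∧ X.C ≤ C ∧ Y.C ≤ C ∧ CA ≤ C ∧ CT ≤ C :=
    ⟨max (max 1 X.C) (max Y.C (max CA CT)), by simp, by simp, by simp, by simp, by simp⟩
  obtain ⟨c2, c, hc⟩ := exists_cst (n := Fintype.card T.V) (C := C) (by positivity) (by linarith)
  obtain ⟨e, e0, e1, e2, e3, e4, e5⟩ :
      ∃ e : ℝ, 0 < e ∧ e < ε ∧ e ≤ X.ε ∧ e ≤ Y.ε ∧ e ≤ 1 / 100 ∧ e ≤ δ' / 2 :=
    ⟨min (min (ε / 2) X.ε) (min Y.ε (min (1 / 100) (δ' / 2))), by
      have := X.ε_pos; have := Y.ε_pos; positivity,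
      ((min_le_left _ _).trans (min_le_left _ _)).trans_lt (half_lt_self ε0), by simp, by simp,
      by simp, by simp⟩
  obtain ⟨T2, hT2⟩ := eventually_atTop.1 ((ev_small hn hγ c B e0).and ((eventually_ge_atTop T1).and
    ((eventually_ge_atTop TA).and ((eventually_ge_atTop TT).and ((eventually_ge_atTop TG).and
    ((eventually_ge_atTop TP).and (eventually_ge_atTop 0)))))))
  refine ⟨T2, fun T0 hT0 => ?_⟩
  obtain ⟨t0, t1, t2, t3, t4, t5, t6⟩ := hT2 T0 hT0
  obtain ⟨h3, h4⟩ := hA T0 t2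
  choose A nA hA using h3
  choose Θ nΘ cpx hΘ using fun v u => hT v u T0 t3
  choose A' c' nA' nc hA' using fun (u : T.V) (hu : u ≠ T.root) => h4 (T.par u) u ⟨hu, rfl⟩
  have K1 : 1 ≤ B * Real.exp (2 * sig T γ * T0) :=
    one_le_mul_of_one_le_of_one_le B1 (Real.one_le_exp (by positivity))
  let D : GD T g κ ψ T0 ε (B * Real.exp (2 * sig T γ * T0)) (Real.exp (-(γ * T0))) C :=
    { ok := ok, cl := fun v => Cx.closed_XC, K0 := by linarith, C1 := C1, X := X, Y := Y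
      cX := C2, cY := C3, st := fun v => (hst T0 t1 v).some, A := A
      Ai := fun u => if hu : u = T.root then 0 else A' u hu
      c := fun u => if hu : u = T.root then 0 else c' u hu
      Θ := Θ, nA := fun v => (nA v).trans C4
      nAi := fun u => by
        split_ifs with hu
        exacts [ContinuousLinearMap.opNorm_zero.trans_le (by linarith), (nA' u hu).trans C4]
      nc := fun u => by
        split_ifs with hu
        exacts [ContinuousLinearMap.opNorm_zero.trans_le (by linarith), (nc u hu).trans C4]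
      nΘ := fun v u => (nΘ v u).trans C5
      hA := fun v W w h1 h2 => ⟨(hA v W w h1 h2).1, (hA v W w h1 h2).2.1,
        b2_mono (hA v W w h1 h2).2.2 (by gcongr)⟩
      hAi := fun u hu W w h1 h2 => by
        rw [dif_neg hu, dif_neg hu]
        exact ⟨(hA' u hu W w h1 h2).1, b2_mono (hA' u hu W w h1 h2).2.1 (by gcongr),
          (hA' u hu W w h1 h2).2.2⟩
      hΘ := cpx, hΘ' := hΘ, reg := fun v => (hR ok v 8).1 }
  have r0 := Real.exp_pos (-(3 / 4 * min γ 1 * T0))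
  obtain ⟨m, hS, m1, m2, m3, x, x1, x2⟩ := D.solve (ρ := 2 * Real.exp (-(3 / 4 * min γ 1 * T0)))
    (by positivity) (Real.exp_pos _).le K1 hc t0 e1 e2 e3 (by linarith)
  obtain ⟨C', co', d1, d2, d3⟩ := hD X.E X.Cd X.N X.co X.dul (2 * T0) (by linarith)
  obtain ⟨B', hB'⟩ := GD.bd_F hS
  have ep : ((0 : (Σ v, κ v) → ℂ), fun _ : T.V => co' 0 0) = D.p0 := by rw [d2]; rfl
  have l1 : ∀ᶠ L : ℝ in atTop, ‖X.N ((L - 2 * T0 : ℝ) : ℂ) - X.co 0 0‖ < 2 * Real.exp
      (-(3 / 4 * min γ 1 * T0)) := (tendsto_iff_norm_sub_tendsto_zero.1 (d3.comp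
        (tendsto_atTop_add_const_right atTop (-(2 * T0)) tendsto_id))).eventually
      (gt_mem_nhds (by positivity))
  obtain ⟨l0, hl0⟩ := eventually_atTop.1 (l1.and (((tendsto_exp_neg (κ := 2) two_pos).eventually
    (gt_mem_nhds (show 0 < 2 * Real.exp (-(3 / 4 * min γ 1 * T0)) by positivity))).and
    ((eventually_ge_atTop (X.ℓ0 + 2 * T0)).and (eventually_ge_atTop (2 * T0 + 10)))))
  refine ⟨{ E := X.E × ℂ, C := C', N := fun _ L => (X.N (L - (2 * T0 : ℝ)), Complex.exp (-2 * L))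
            co := fun _ => co', dul := fun _ => d1, F := fun p => D.F (p, x p), ρ := _
            ρ_pos := hS.ρ0, B := B'
            hol := by
              rw [ep]
              exact (GD.diff_F hS).comp (differentiableOn_id.prodMk x1) fun p hp => (x2 p hp).1
            bd := by rw [ep]; exact fun p hp => hB' _ (x2 p hp).1 },
    _, l0, le_rfl, by change _ < 2 * _; linarith, fun θ L hθ hL => ?_⟩
  have hp : D.RP θ L (cv θ, fun w => (X.N (L w - (2 * T0 : ℝ)), Complex.exp (-2 * L w))) :=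
    ⟨rfl, fun w => by rw [Complex.ofReal_sub], fun w => by
      change X.ℓ0 ≤ _; linarith [(hl0 _ (hL w)).2.2.1]⟩
  obtain ⟨y1, y2, y3⟩ := x2 (cv θ, fun w => (X.N (L w - (2 * T0 : ℝ)), Complex.exp (-2 * L w))) (by
    rw [mem_ball_iff_norm]
    refine max_lt (by
      change ‖cv θ - 0‖ < _
      rw [sub_zero, norm_cv]; linarith) ((pi_norm_lt_iff hS.ρ0).2 fun w => max_lt ?_ ?_)
    · have := (hl0 _ (hL w)).1
      rwa [Complex.ofReal_sub] at this
    · change ‖Complex.exp (-2 * L w) - 0‖ < _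
      rw [sub_zero, Complex.norm_exp]
      simpa using (hl0 _ (hL w)).2.1)
  obtain ⟨a, μ, G, u, en, a1, a2, a3, a4, a5, a6, a7, a8⟩ := GD.real_fix hS y1 hp (y3 θ L hp) y2
    (δ := δ' / 2) (by linarith) (m2.trans e5) (m3.trans e5)
  have hL' := fun w => (hl0 _ (hL w)).2.2.2
  obtain ⟨G', g1, g2⟩ := hG T0 t4 L hL' a a1 (fun w p q => (a2 w p q).trans (m1.trans e4)) _ θ μ G
    u en a3 a4 a5 a6 a7
  rw [mul_div_cancel₀ _ two_ne_zero] at g1
  obtain ⟨G'', g3, g4⟩ := hP T0 t5 L hL' a a1 (fun w p q => (a2 w p q).trans (by linarith)) θ μ G' g1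
  exact ⟨μ, G'', g3, by rw [g4, g2]; exact a8⟩

end Crest.Agent.N207.CB

end
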