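import Crest.Agent.N207.CB.St2
import Crest.Agent.N207.J.Re6
import Crest.Agent.N207.L.Br2
import Crest.Agent.N207.L.Inv2
import Crest.Agent.N207.L.Br4_Mg
import Crest.Agent.N207.CB.Nl1
import Crest.Agent.N207.CB.Nl2
import Crest.Agent.N207.CB.Boot
import Crest.Agent.N207.CB.Anx1
import Crest.Agent.N207.K.Pop1
import Crest.Agent.N207.CB.Cut
import Crest.Agent.N207.Lg.Alg4

-- ▼ part N207/CB/Ana
section

/-! # Row 207, block L (helper72): the leaf `ANA` -/

set_option autoImplicit false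
open Set Filter Topology
open Crest.Agent.N207.J

noncomputable section

namespace Crest.Agent.N207.CB

theorem amp_clm {Z : Type} [NormedAddCommGroup Z] [NormedSpace ℂ Z] (g : Z → ℕ → H) {C : ℝ}
    (hC : 0 ≤ C) (hP : ∀ z k, P k (g z k) = g z k)
    (ha : ∀ z z' k, g (z + z') k = g z k + g z' k) (hs : ∀ (c : ℂ) z k, g (c • z) k = c • g z k)
    (hb : ∀ z (k : ℕ), ((k : ℝ) + 1) ^ 8 * ‖g z k‖ ≤ C * ‖z‖) :
    ∃ A : Z →L[ℂ] L.D, ‖A‖ ≤ 2 * C ∧ ∀ z k, L.trD 1 (A z) k = g z k ∧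
      A z k = ((wt (6 : ℕ) k : ℝ) : ℂ) • g z k := by
  have h1 : ∀ z (s : Finset ℕ), ∑ k ∈ s, ‖((wt (6 : ℕ) k : ℝ) : ℂ) • g z k‖ ^ 2
      ≤ (2 * C * ‖z‖) ^ 2 := fun z s => by
    refine (Finset.sum_le_sum (g := fun k : ℕ => (C * ‖z‖) ^ 2 * (1 / ((k : ℝ) + 1) ^ 2))
      fun k _ => ?_).trans ?_
    · rw [norm_smul, Complex.norm_real, Real.norm_of_nonneg (wt_pos _ _).le, wt_nat, mul_one_div,
        ← div_pow]
      refine pow_le_pow_left₀ (by positivity) ?_ 2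
      rw [le_div_iff₀ (by positivity)]
      refine le_trans ?_ (hb z k)
      rw [mul_right_comm, ← pow_succ]
      exact mul_le_mul_of_nonneg_right (pow_le_pow_right₀ (by simp) (by norm_num)) (norm_nonneg _)
    · rw [← Finset.mul_sum]
      nlinarith [mul_le_mul_of_nonneg_left (sum_inv_sq_le s) (sq_nonneg (C * ‖z‖)),
        sq_nonneg (C * ‖z‖)]
  let A0 : Z →ₗ[ℂ] L.D :=
    { toFun := fun z => ⟨fun k => ((wt (6 : ℕ) k : ℝ) : ℂ) • g z k, memlp_of_le (h1 z)⟩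
      map_add' := fun z z' => lp.ext (funext fun k => (congrArg _ (ha z z' k)).trans (smul_add ..))
      map_smul' := fun c z => lp.ext (funext fun k =>
        (congrArg _ (hs c z k)).trans (smul_comm _ c _)) }
  have hA : ∀ z, ‖A0 z‖ ≤ 2 * C * ‖z‖ := fun z => lp_norm_le (by positivity) (h1 z)
  refine ⟨A0.mkContinuous _ hA, A0.mkContinuous_norm_le (by positivity) hA, fun z k => ⟨?_, rfl⟩⟩
  change _ • P k (((wt (6 : ℕ) k : ℝ) : ℂ) • g z k) = _
  rw [map_smul, hP, smul_smul, ← Complex.ofReal_mul, one_pow, one_div,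
    inv_mul_cancel₀ (wt_pos _ _).ne', Complex.ofReal_one, one_smul]

theorem ana : ANA := by
  have c0 := cM_pos 9
  refine ⟨2 * cM 9, by positivity, fun Z _ _ f t hb ha hs => ?_⟩
  have ht : t ∈ Ioo (t - 1 / 10) (t + 1 / 10) := ⟨by linarith, by linarith⟩
  have l1 := fun z z' k => pm_qm_lin (n := 7) 1 1 (fun o => (hb z o).1) (fun o => (hb z' o).1)
    (W := f (z + z')) (ev_An isOpen_Ioo ht fun x hx => by simpa using ha z z' x hx) k
  have l2 := fun (c : ℂ) z k => pm_qm_lin (n := 7) c 0 (fun o => (hb z o).1) (fun o => (hb z o).1)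
    (W := f (c • z)) (ev_An isOpen_Ioo ht fun x hx => by simpa using hs c z x hx) k
  obtain ⟨AQ, nq, hq⟩ := amp_clm (fun z k => qm (f z) k t) c0.le (fun z k => P_qm k t)
    (fun z z' k => by simpa using (l1 z z' k).2) (fun c z k => by simpa using (l2 c z k).2)
    fun z k => (pm_le (n := 7) (hb z) k).2
  obtain ⟨AP, np, hp⟩ := amp_clm (fun z k => pm (f z) k t) c0.le (fun z k => P_pm k t)
    (fun z z' k => by simpa using (l1 z z' k).1) (fun c z k => by simpa using (l2 c z k).1)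
    fun z k => (pm_le (n := 7) (hb z) k).1
  have e0 : ∀ z, AP z 0 = pm (f z) 0 t := fun z => by rw [(hp z 0).2, wt_nat]; simp
  refine ⟨AQ, AP, (ContinuousMap.evalCLM ℂ (prj 0)) ∘L Pc 0 ∘L
    lp.evalCLM ℂ (fun _ : ℕ => H) 2 0 ∘L AP, nq, np, ?_, fun z => ⟨fun k => (hq z k).1, fun k => (hp z k).1, ?_⟩⟩
  · refine ContinuousLinearMap.opNorm_le_bound _ (by positivity) fun z => ?_
    change ‖Pc 0 (AP z 0) (prj 0)‖ ≤ _
    refine ((Pc 0 (AP z 0)).norm_coe_le_norm _).trans ((norm_Pc_le 0 _).trans ?_)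
    have := (pm_le (n := 7) (hb z) 0).1
    rw [e0, P_pm]
    simp only [Nat.cast_zero, zero_add, one_pow, one_mul] at this ⊢
    nlinarith [norm_nonneg z]
  · change _ = toH (Pc 0 (AP z 0) (prj 0) • 1)
    obtain ⟨c, hc⟩ := E_zero (Pc_mem 0 (pm (f z) 0 t))
    rw [e0, hc, ← P_pm, ← toH_Pc, hc]
    simp

end Crest.Agent.N207.CB

end
end

-- ▼ part N207/L/As1
section

/-! # N207/L/As1 (helper71): an invariant mode solution is a solution `ASol` on an annulus -/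

set_option autoImplicit false
set_option linter.unusedSectionVars false
open scoped ContDiff
open Set Filter Topology MeasureTheory
open Crest.GeometryTopology.CoordMetric

noncomputable section

namespace Crest.Agent.N207.L
open J I CB Lg

theorem pd_small {A : Matrix (Fin 4) (Fin 4) ℝ} (hs : A.IsSymm) (h : ∀ a b, |A a b| ≤ 1 / 8) :
    (1 + A).PosDef := by
  refine Matrix.PosDef.of_dotProduct_mulVec_pos ?_ fun v hv => ?_
  · exact Matrix.isHermitian_one.add (by simpa [Matrix.IsHermitian] using hs.eq)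
  · have h1 : ∀ a b, -((v a ^ 2 + v b ^ 2) / 16) ≤ v a * (A a b * v b) := fun a b => by
      have := abs_le.1 (h a b)
      nlinarith [sq_nonneg (v a + v b), sq_nonneg (v a - v b),
        mul_nonneg (sub_nonneg.2 this.2) (sq_nonneg (v a - v b)),
        mul_nonneg (sub_nonneg.2 this.1) (sq_nonneg (v a + v b))]
    have h2 : 0 < ∑ a, v a ^ 2 := by
      obtain ⟨a, ha⟩ := Function.ne_iff.1 hv
      exact Finset.sum_pos' (fun _ _ => sq_nonneg _) ⟨a, Finset.mem_univ _, pow_pos_of_ne ha⟩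
    have h3 : ∑ a, ∑ b, -((v a ^ 2 + v b ^ 2) / 16) ≤ ∑ a, ∑ b, v a * (A a b * v b) :=
      Finset.sum_le_sum fun a _ => Finset.sum_le_sum fun b _ => h1 a b
    rw [Matrix.add_mulVec, Matrix.one_mulVec, dotProduct_add]
    simp only [dotProduct, Matrix.mulVec, star_trivial, Fin.sum_univ_four] at h2 h3 ⊢
    nlinarith
where pow_pos_of_ne {x : ℝ} (h : x ≠ 0) : 0 < x ^ 2 := by positivity

/-- the real matrix field of a mode solution -/
def uS (c : ℝ) (p q : IX → Md) : MetricField 4 := reM fun i => fn c (p i) (q i)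

/-- constant of the `C²` bound -/
def cS : ℝ := 12 * (cB 0 0 + cB 1 0 + cB 2 0)

theorem cB_le_cS {j : ℕ} (hj : j ≤ 2) : cB j 0 * 12 ≤ cS := by
  have h0 := cB_pos 0 0
  have h1 := cB_pos 1 0
  have h2 := cB_pos 2 0
  unfold cS
  interval_cases j <;> linarith

theorem one_le_cS : 1 ≤ cS := by
  have := cB_le_cS (Nat.zero_le 2)
  rw [cB] at this
  linarith

variable {Γ : Subgroup Iso4} {τ : ℝ → ℂ} {w om : ℝ → ℝ} {η G c : ℝ} {p q F : IX → Md}
  {I J : Set ℝ}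

theorem Sol.eta_nn {ι : Type} [Fintype ι] [Nonempty ι] {N : NL ι} {p q F : ι → Md}
    (h : Sol N τ w om η p q F) : 0 ≤ η := (h.bp (Classical.arbitrary ι)).nn

section
variable (h : Sol NQ τ w om η p q F) (hI : IsOpen I) (hτ : ∀ x ∈ I, τ x = 1)
  (hJ : ∀ t, t ∈ J ↔ t - c ∈ I) (ho : ∀ x ∈ I, |om x| ≤ 1)
include h hI hτ hJ ho

/-- `C²` and the weighted bound -/
theorem Sol.uS_bd (hG : 0 ≤ G) (hG1 : G ≤ 1) (hw : ∀ x ∈ I, |w x| ≤ G) :
    (∀ a b, ContDiffOn ℝ 2 (fun x => uS c p q x a b) (An J)) ∧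
      B2 (An J) (cS * (η * G)) (uS c p q) := by
  obtain rfl : J = (· - c) ⁻¹' I := Set.ext hJ
  have hI' : IsOpen ((· - c) ⁻¹' I) := hI.preimage (by fun_prop)
  obtain ⟨-, h2, h3⟩ := h.real hI hτ hG hG1 hw ho c
  refine ⟨fun a b => Complex.reCLM.contDiff.comp_contDiffOn (h2 (.inl (a, b))),
    fun x hx j hj a b => ?_⟩
  have e := Complex.reCLM.norm_iteratedFDeriv_comp_left
    ((h2 (.inl (a, b))).contDiffAt ((isOpen_An hI').mem_nhds hx)) (n := j) (by exact_mod_cast hj)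
  rw [Complex.reCLM_norm, one_mul] at e
  refine (mul_le_mul_of_nonneg_left e (by positivity)).trans (((h3 x hx).1 _ j hj).trans ?_)
  have := mul_le_mul_of_nonneg_right (cB_le_cS hj) (mul_nonneg h.eta_nn hG)
  linarith

variable (hw : ∀ x ∈ I, |w x| ≤ 1) (hp : ∀ t ∈ I, InvM Γ fun i k => p i k t)
  (hq : ∀ t ∈ I, InvM Γ fun i k => q i k t)
include hw hp hq

theorem Sol.uS_inv {x : E4} (hx : x ∈ An J) :
    (∀ a b, fn c (p (.inl (a, b))) (q (.inl (a, b))) x = cf (uS c p q) a b x) ∧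
    (uS c p q x).IsSymm ∧ ∀ γ ∈ Γ, uS c p q x = pullM γ (uS c p q) x := by
  obtain rfl : J = (· - c) ⁻¹' I := Set.ext hJ
  have hm := h.mb zero_le_one le_rfl hw ho
  have := finv (Γ := Γ) (f := fun i k x => p i k x + q i k x) (n := 3) c
    (fun t ht => (hp t ht).add (hq t ht)) (fun i => (hm i).1.add (hm i).2.1) hx
  exact ⟨this.1, this.2.1, this.2.2.1⟩

theorem Sol.uS_ev {x : E4} (hx : x ∈ An J) (a b : Fin 4) :
    fn c (p (.inl (a, b))) (q (.inl (a, b))) =ᶠ[𝓝 x] cf (uS c p q) a b := by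
  have hJ' : IsOpen J := by rw [(Set.ext hJ : J = (· - c) ⁻¹' I)]; exact hI.preimage (by fun_prop)
  filter_upwards [(isOpen_An hJ').mem_nhds hx] with y hy
  exact (h.uS_inv hI hτ hJ ho hw hp hq hy).1 a b


variable (hη : cS * η ≤ 1 / 8)
include hη

theorem Sol.uS_pos {x : E4} (hx : x ∈ An J) : ((fl1 + uS c p q) x).PosDef := by
  refine pd_small (h.uS_inv hI hτ hJ ho hw hp hq hx).2.1 fun a b => ?_
  have := (h.uS_bd hI hτ hJ ho zero_le_one le_rfl hw).2 x hx 0 (Nat.zero_le 2) a b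
  rw [pow_zero, one_mul, norm_iteratedFDeriv_zero, mul_one] at this
  exact this.trans hη

theorem Sol.uS_c2 {x : E4} (hx : x ∈ An J) : C2 (fl1 + uS c p q) x := by
  have hJ' : IsOpen J := by rw [(Set.ext hJ : J = (· - c) ⁻¹' I)]; exact hI.preimage (by fun_prop)
  have hn := (isOpen_An hJ').mem_nhds hx
  refine ⟨fun a b => contDiffAt_const.add
    (((h.uS_bd hI hτ hJ ho zero_le_one le_rfl hw).1 a b).contDiffAt hn), ?_,
    (h.uS_pos hI hτ hJ ho hw hp hq hη hx).det_pos⟩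
  filter_upwards [hn] with y hy a b
  exact (h.uS_pos hI hτ hJ ho hw hp hq hη hy).isHermitian.apply b a

theorem Sol.uS_eq {x : E4} (hx : x ∈ An J) : redM fl1 (fl1 + uS c p q) x = 0 ∧
    annw 2 (fun t => val (F (.inr ())) (t - c)) x = (fgfF fl1 (fl1 + uS c p q) x : ℝ) := by
  have hx' : x ∈ An ((· - c) ⁻¹' I) := ⟨hx.1, (hJ _).1 hx.2⟩
  obtain ⟨-, -, e1, e2⟩ := (h.real hI hτ zero_le_one le_rfl hw ho c).2.2 x hx'
  have hU := h.uS_ev hI hτ hJ ho hw hp hq hx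
  have hC := h.uS_c2 hI hτ hJ ho hw hp hq hη hx
  have hn : ((‖x‖ : ℝ) : ℂ) ≠ 0 := by exact_mod_cast norm_ne_zero_iff.2 hx.1
  constructor
  · ext a b
    have e := NQ_red (U := fun i => fn c (p i) (q i)) hU hC a b
    have e3 : Lp2 (cf (uS c p q) a b) x = Lp2 (fn c (p (.inl (a, b))) (q (.inl (a, b)))) x := by
      simp only [Lp2]
      congr 1
      refine Finset.sum_congr rfl fun i _ => ?_
      have e4 : (fun y => fderiv ℝ (cf (uS c p q) a b) y (ee i)) =ᶠ[𝓝 x]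
          fun y => fderiv ℝ (fn c (p (.inl (a, b))) (q (.inl (a, b)))) y (ee i) :=
        ((hU a b).fderiv (𝕜 := ℝ)).mono fun y hy => by simp only [hy]
      rw [e4.fderiv_eq]
    rw [← e2, e3, sub_self, mul_zero] at e
    exact_mod_cast (mul_eq_zero.1 e).resolve_left (pow_ne_zero _ hn)
  · have e := NQ_en (U := fun i => fn c (p i) (q i)) hU hC ()
    rw [← e2] at e
    beta_reduce at e
    rw [annw, ann, ← e1, e]
    push_cast
    field_simp

theorem Sol.uS_sm : Inv Γ ∞ (An J) (uS c p q) := by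
  have hJ' : IsOpen J := by rw [(Set.ext hJ : J = (· - c) ⁻¹' I)]; exact hI.preimage (by fun_prop)
  refine ⟨fun a b => ?_, fun x hx => (h.uS_inv hI hτ hJ ho hw hp hq hx).2.1,
    fun γ hγ x hx => (h.uS_inv hI hτ hJ ho hw hp hq hx).2.2 γ hγ⟩
  have := boot (An J) fl1 (fl1 + uS c p q) Empty (fun _ => 0) (fun _ => 0) (isOpen_An hJ')
    (riem_one (isOpen_An hJ')) (fun j => j.elim)
    (fun a b => contDiffOn_const.add ((h.uS_bd hI hτ hJ ho zero_le_one le_rfl hw).1 a b))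
    (fun x hx => h.uS_pos hI hτ hJ ho hw hp hq hη hx)
    (fun x hx => by simpa using (h.uS_eq hI hτ hJ ho hw hp hq hη hx).1) a b
  refine (this.sub (contDiffOn_const (c := (1 : Matrix (Fin 4) (Fin 4) ℝ) a b))).congr
    fun x _ => ?_
  simp

/-- **`ASol` from `Sol`** -/
theorem Sol.asol (hi : IntegrableOn (annw 2 fun t => val (F (.inr ())) (t - c)) (An J)) :
    ∃ en : ℝ, ASol Γ J (cS * η) en (uS c p q) ∧
      (en : ℂ) = ∫ x in An J, annw 2 (fun t => val (F (.inr ())) (t - c)) x := by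
  have hJ' : IsOpen J := by rw [(Set.ext hJ : J = (· - c) ⁻¹' I)]; exact hI.preimage (by fun_prop)
  have hm := (isOpen_An hJ').measurableSet
  have e := fun x hx => (h.uS_eq hI hτ hJ ho hw hp hq hη (x := x) hx).2
  refine ⟨_, ⟨h.uS_sm hI hτ hJ ho hw hp hq hη, fun x hx => h.uS_pos hI hτ hJ ho hw hp hq hη hx,
    fun x hx => (h.uS_eq hI hτ hJ ho hw hp hq hη hx).1, ?_, ?_, rfl⟩, ?_⟩
  · simpa using (h.uS_bd hI hτ hJ ho zero_le_one le_rfl hw).2
  · exact IntegrableOn.congr_fun hi.re (fun x hx => by simp [e x hx]) hm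
  · rw [← integral_complex_ofReal]
    exact setIntegral_congr_fun hm fun x hx => (e x hx).symm

end

/-- decay on the half line -/
theorem Sol.uS_dec (h : Sol NQ τ w om η p q F) (hτ : ∀ x ∈ Ioi (1 : ℝ), τ x = 1)
    (ho : ∀ x ∈ Ioi (1 : ℝ), |om x| ≤ 1)
    (hw : ∀ x ∈ Ioi (1 : ℝ), |w x| ≤ Real.exp (-(3 / 2) * (x - 1))) {x : E4}
    (hx : x ∈ An (Ioi 1)) {j : ℕ} (hj : j ≤ 2) (a b : Fin 4) :
    ‖x‖ ^ j * ‖iteratedFDeriv ℝ j (fun z => uS 0 p q z a b) x‖ ≤
      cS * η * (Real.exp 4 / ‖x‖) ^ (3 / 2 : ℝ) := by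
  have hn := norm_pos_iff.2 hx.1
  have h1 : (1 : ℝ) < Real.log ‖x‖ := hx.2
  set m := max 1 (Real.log ‖x‖ - 1) with hm
  have hs : Ioi m ⊆ Ioi (1 : ℝ) := Ioi_subset_Ioi (le_max_left _ _)
  have := (h.uS_bd (c := 0) (I := Ioi m) (J := Ioi m) isOpen_Ioi (fun x hx => hτ x (hs hx))
    (fun t => by rw [sub_zero]) (fun x hx => ho x (hs hx))
    (G := Real.exp (-(3 / 2) * (m - 1))) (Real.exp_pos _).le
    (Real.exp_le_one_iff.2 (by nlinarith [le_max_left 1 (Real.log ‖x‖ - 1)]))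
    (fun t ht => (hw t (hs ht)).trans (Real.exp_le_exp.2 (by
      have : m < t := ht
      nlinarith)))).2 x ⟨hx.1, max_lt h1 (by linarith)⟩ j hj a b
  refine this.trans ?_
  rw [← mul_assoc]
  refine mul_le_mul_of_nonneg_left ?_ (mul_nonneg (zero_le_one.trans one_le_cS) h.eta_nn)
  rw [Real.rpow_def_of_pos (div_pos (Real.exp_pos _) hn), Real.log_div (Real.exp_pos _).ne' hn.ne',
    Real.log_exp]
  exact Real.exp_le_exp.2 (by nlinarith [le_max_right 1 (Real.log ‖x‖ - 1)])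


end Crest.Agent.N207.L

end
end

-- ▼ part N207/CB/Unq1
section

/-! # Row 207, block L (helper72): the pointwise estimate behind `ColO.unq`, `ColI.unq` -/

set_option autoImplicit false
open scoped ContDiff
open Set Filter Topology
open Crest.GeometryTopology.CoordMetric
open Crest.Agent.N207.Lg Crest.Agent.N207.J Crest.Agent.N207.L

noncomputable section

namespace Crest.Agent.N207.CB.Uq

variable {x : E4} {η η' : ℝ} {h h' : MetricField 4}

theorem cd_cf {n : WithTop ℕ∞} {a b : Fin 4} (hs : ContDiffAt ℝ n (fun y => h y a b) x) :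
    ContDiffAt ℝ n (cf h a b) x := Complex.ofRealCLM.contDiff.contDiffAt.comp x hs

/-- **`Pop` at the flat metric** -/
theorem pop_flat (hw : ∀ a b, ContDiffAt ℝ 2 (fun y => h y a b) x)
    (hs : ∀ᶠ y in 𝓝 x, Sy2 (h y)) (a b : Fin 4) :
    ((‖x‖ : ℝ) : ℂ) ^ 2 * (Pop fl1 h x a b : ℝ) = -Lp2 (cf h a b) x := by
  have e2 : ∀ c, fderiv ℝ (fun y => fderiv ℝ (cf h a b) y (ee c)) x (ee c) =
      (jet2 h x c c a b : ℝ) := fun c => by
    rw [Filter.EventuallyEq.fderiv_eq (f₁ := fun y => fderiv ℝ (cf h a b) y (ee c))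
      ((ev_d hw).mono fun y hy => fderiv_cf (hy a b) c)]
    exact fderiv_cf (f := fun y => fderiv ℝ (fun z => h z a b) y (ee c))
      ((((hw a b).fderiv_right (m := 1) (by norm_num)).clm_apply
        contDiffAt_const).differentiableAt one_ne_zero) c
  rw [K.pop_eq (c2_one x) hw hs, ← lapJ_TTG, TTG_const, riemann_const]
  simp [Lp2, e2, lapJ, cvJ, iv, Matrix.one_apply]

/-- small, symmetric and `C²` near `x` -/
structure PS (x : E4) (η : ℝ) (h : MetricField 4) : Prop where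
  sm : ∀ a b, ContDiffAt ℝ 2 (fun y => h y a b) x
  sy : ∀ᶠ y in 𝓝 x, Sy2 (h y)
  pb : ∀ a b, J.PB 2 (cf h a b) x η

theorem cf_add (h h' : MetricField 4) (a b : Fin 4) :
    cf (h + h') a b = fun y => cf h a b y + cf h' a b y := by
  funext y; simp [cf]

theorem PS.add (p : PS x η h) (p' : PS x η' h') : PS x (η + η') (h + h') where
  sm a b := (p.sm a b).add (p'.sm a b)
  sy := (p.sy.and p'.sy).mono fun y hy a b => by
    simp only [Pi.add_apply, Matrix.add_apply, hy.1 a b, hy.2 a b]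
  pb a b := cf_add h h' a b ▸ (p.pb a b).add (p'.pb a b)

theorem PS.mono (p : PS x η h) (e : η ≤ η') : PS x η' h :=
  ⟨p.sm, p.sy, fun a b => (p.pb a b).mono le_rfl e⟩

theorem exists_c2 : ∃ δ : ℝ, 0 < δ ∧ ∀ x h, PS x δ h → C2 (fl1 + h) x := by
  have hc : Continuous fun A : Fin 4 → Fin 4 → ℝ => (1 + Matrix.of A).det :=
    (continuous_const.add continuous_id).matrix_det
  obtain ⟨δ, h0, hδ⟩ := Metric.nhds_basis_closedBall.eventually_iff.1
    (hc.continuousAt.eventually (lt_mem_nhds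
      (show (0 : ℝ) < (1 + Matrix.of (0 : Fin 4 → Fin 4 → ℝ)).det by simp)))
  refine ⟨δ, h0, fun x h p => ⟨fun a b => contDiffAt_const.add (p.sm a b),
    p.sy.mono fun y hy a b => ?_, hδ (x := fun a b => h x a b) ?_⟩⟩
  · simp only [Pi.add_apply, Matrix.add_apply, hy a b, Matrix.one_apply, eq_comm (a := a)]
  · rw [mem_closedBall_zero_iff]
    exact (pi_norm_le_iff_of_nonneg h0.le).2 fun a => (pi_norm_le_iff_of_nonneg h0.le).2 fun b => by
      simpa [cf] using (p.pb a b).norm_le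

theorem exists_lip {ι : Type} [Fintype ι] (N : NL ι) (hη : 0 < η) : ∃ δ : ℝ, 0 < δ ∧
    ∀ z z', ‖z‖ ≤ δ → ‖z'‖ ≤ δ → ‖N.Q z - N.Q z'‖ ≤ η * ‖z - z'‖ := by
  have h1 := N.an.hasStrictFDerivAt
  rw [N.q1.fderiv] at h1
  obtain ⟨δ, h0, hδ⟩ := Metric.nhds_basis_closedBall.eventually_iff.1 (h1.isLittleO.def hη)
  refine ⟨δ, h0, fun z z' hz hz' => by
    simpa using hδ (x := (z, z')) (mem_closedBall_zero_iff.2 (max_le hz hz'))⟩

/-- the entries as a family on `IX` -/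
def UX (h : MetricField 4) : IX → E4 → ℂ := Sum.elim (fun e => cf h e.1 e.2) fun _ _ => 0

theorem cj1_zero (x : E4) (j : Jx) : cj1 (fun _ => 0) x j = 0 :=
  norm_le_zero_iff.1 (norm_cj1_le (PB.zero 2 x) j)

theorem PS.cjet (p : PS x η h) : ‖cjet (UX h) x‖ ≤ η := by
  have h0 := (p.pb 0 0).nonneg
  refine (pi_norm_le_iff_of_nonneg h0).2 ?_
  rintro ⟨e | _, j⟩
  · exact norm_cj1_le (p.pb _ _) j
  · exact (congrArg norm (cj1_zero x j)).trans_le (by simpa using h0)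

theorem pt_est (hη : 0 < η) : ∃ ε : ℝ, 0 < ε ∧ ∀ (x : E4) (w u β : MetricField 4)
    (d : Fin 4 × Fin 4 → E4 → ℂ) (ρ : ℝ), 0 ≤ ρ → ρ ≤ 1 → PS x ε w →
    (1 - ρ) • Pop fl1 w x + (2 * ρ) • redM fl1 (fl1 + β + w) x = 0 →
    (ρ ≠ 0 → PS x ε u ∧ PS x ε β ∧ redM fl1 (fl1 + u) x = 0 ∧
      ∀ i, d i =ᶠ[𝓝 x] fun y => cf (β + w) i.1 i.2 y - cf u i.1 i.2 y) →
    (ρ ≠ 1 → ∀ i, Lp2 (d i) x = Lp2 (cf w i.1 i.2) x) →
    ∀ i, ‖Lp2 (d i) x‖ ≤ η * ‖cjet d x‖ := by
  obtain ⟨δ, h0, hδ⟩ := exists_c2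
  obtain ⟨δ', h0', hδ'⟩ := exists_lip NQ hη
  refine ⟨min δ δ' / 2, by positivity, fun x w u β d ρ r0 r1 pw he hu hl i => ?_⟩
  have e0 := congrArg (fun A : Mt => ((‖x‖ : ℝ) : ℂ) ^ 2 * (A i.1 i.2 : ℝ)) he
  have e1 := pop_flat pw.sm pw.sy i.1 i.2
  simp only [Matrix.add_apply, Matrix.smul_apply, smul_eq_mul, Matrix.zero_apply] at e0
  push_cast at e0
  by_cases hρ : ρ = 0
  · subst hρ
    rw [hl zero_ne_one, show Lp2 (cf w i.1 i.2) x = 0 by
      push_cast at e0; linear_combination e1 - e0, norm_zero]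
    positivity
  obtain ⟨pu, pβ, hu, hd⟩ := hu hρ
  have pv := pβ.add pw
  rw [add_halves] at pv
  have pu' := pu.mono (half_le_self (by positivity))
  have e2 := NQ_red (U := UX u) (fun _ _ => EventuallyEq.rfl)
    (hδ x u (pu'.mono (min_le_left _ _))) i.1 i.2
  have e3 := NQ_red (U := UX (β + w)) (fun _ _ => EventuallyEq.rfl)
    (hδ x _ (pv.mono (min_le_left _ _))) i.1 i.2
  have hd' : ∀ i, d i =ᶠ[𝓝 x] fun y => 1 * cf (β + w) i.1 i.2 y + -1 * cf u i.1 i.2 y :=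
    fun i => by simpa [sub_eq_add_neg] using hd i
  have e4 := Lp2_lin _ _ (pv.pb i.1 i.2).1 (pu.pb i.1 i.2).1 (hd' i)
  have e5 : (1 - (ρ : ℂ)) * (Lp2 (d i) x - Lp2 (cf w i.1 i.2) x) = 0 := by
    by_cases h1 : ρ = 1
    · simp [h1]
    · simp [hl h1]
  rw [hu, Matrix.zero_apply] at e2
  rw [← add_assoc] at e3
  push_cast at e2
  have e6 : Lp2 (d i) x = ρ * (NQ.Q (cjet (UX (β + w)) x) - NQ.Q (cjet (UX u) x)) (.inl i) := by
    rw [Pi.sub_apply]
    linear_combination e5 + ρ * e4 - e0 + (1 - ρ) * e1 + 2 * ρ * e3 - 2 * ρ * e2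
  rw [e6, norm_mul, Complex.norm_real, Real.norm_of_nonneg r0]
  refine (mul_le_of_le_one_left (norm_nonneg _) r1).trans ((norm_le_pi_norm _ _).trans
    ((hδ' _ _ (pv.cjet.trans (min_le_right _ _)) (pu'.cjet.trans (min_le_right _ _))).trans
      (mul_le_mul_of_nonneg_left ((pi_norm_le_iff_of_nonneg (norm_nonneg _)).2 ?_) hη.le)))
  rintro ⟨e | _, j⟩
  · refine le_trans (le_of_eq (congrArg norm ?_)) (norm_le_pi_norm (cjet d x) (e, j))
    have := cj1_lin _ _ (pv.pb e.1 e.2).1 (pu.pb e.1 e.2).1 (hd' e) j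
    simp only [Pi.sub_apply, L.cjet, UX, Sum.elim_inl, this]
    ring
  · simp [L.cjet, UX]

end Crest.Agent.N207.CB.Uq

end
end

-- ▼ part N207/CB/Unq
section

/-! # Row 207, block L (helper72): `ColO`, `ColI` -/

set_option autoImplicit false
open scoped ContDiff
open Set Filter Topology
open Crest.GeometryTopology.CoordMetric
open Crest.Agent.N207.Lg Crest.Agent.N207.J Crest.Agent.N207.L Crest.Agent.N207.I

noncomputable section

namespace Crest.Agent.N207.CB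
open Cu Uq

/-- `C²`, symmetric and small on `S` -/
structure SB (S : Set E4) (η : ℝ) (h : MetricField 4) : Prop where
  sm : ∀ a b, ContDiffOn ℝ 2 (fun x => h x a b) S
  symm : ∀ x ∈ S, (h x).IsSymm
  bd : B2 S η h

theorem SB.ps {S : Set E4} {η : ℝ} {h : MetricField 4} (p : SB S η h) {x : E4} (hx : S ∈ 𝓝 x) :
    PS x η h := by
  have h1 := fun a b => (p.sm a b).contDiffAt hx
  refine ⟨h1, eventually_of_mem hx fun y hy a b => (p.symm y hy).apply b a, fun a b =>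
    ⟨cd_cf (h1 a b), fun j hj => le_trans (le_of_eq ?_) (p.bd x (mem_of_mem_nhds hx) j hj a b)⟩⟩
  exact congrArg _ (Complex.ofRealLI.norm_iteratedFDeriv_comp_left (h1 a b) (by exact_mod_cast hj))

namespace Uq

/-- the cut-off -/
def chi (e : ℝ) (x : E4) : ℂ := (stp (22 / 10) (24 / 10) (e * Real.log ‖x‖) : ℝ)

/-- the difference of the two solutions -/
def dd (e : ℝ) (w u : MetricField 4) (l : Fin 4 → Fin 4 → E4 → ℂ) (i : Fin 4 × Fin 4) (x : E4) :
    ℂ := cf w i.1 i.2 x - cf u i.1 i.2 x + chi e x * (cf u i.1 i.2 x - l i.1 i.2 x)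

variable {e c t : ℝ} {x : E4} {w u : MetricField 4} {l : Fin 4 → Fin 4 → E4 → ℂ}

theorem ev_lt (hx : x ≠ 0) (h : e * Real.log ‖x‖ < c) : ∀ᶠ y in 𝓝 x, e * Real.log ‖y‖ < c :=
  ((hasFDerivAt_logn hx).continuousAt.const_mul e).eventually (gt_mem_nhds h)

theorem ev_gt (hx : x ≠ 0) (h : c < e * Real.log ‖x‖) : ∀ᶠ y in 𝓝 x, c < e * Real.log ‖y‖ :=
  ((hasFDerivAt_logn hx).continuousAt.const_mul e).eventually (lt_mem_nhds h)

theorem chi_lo (hx : x ≠ 0) (h : e * Real.log ‖x‖ < 22 / 10) : ∀ᶠ y in 𝓝 x, chi e y = 0 :=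
  (ev_lt hx h).mono fun y hy => by rw [chi, stp_zero' (by norm_num) hy.le, Complex.ofReal_zero]

theorem dd_lo (hx : x ≠ 0) (h : e * Real.log ‖x‖ < 22 / 10) (i : Fin 4 × Fin 4) :
    dd e w u l i =ᶠ[𝓝 x] fun y => cf w i.1 i.2 y - cf u i.1 i.2 y :=
  (chi_lo hx h).mono fun y hy => by simp [dd, hy]

theorem dd_hi (hx : x ≠ 0) (h : 24 / 10 < e * Real.log ‖x‖) (i : Fin 4 × Fin 4) :
    dd e w u l i =ᶠ[𝓝 x] fun y => cf w i.1 i.2 y - l i.1 i.2 y :=
  (ev_gt hx h).mono fun y hy => by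
    simp only [dd, chi]; rw [stp_one' (by norm_num) hy.le]; simp

theorem exists_chi : ∃ K : ℝ, 0 < K ∧ ∀ e : ℝ, e = 1 ∨ e = -1 → ∀ x ∈ An (Icc (-3) 3),
    J.PB 2 (chi e) x K := by
  have h := fun e : ℝ => exists_PB (U := chi e) 2 (fun x hx =>
    Complex.ofRealCLM.contDiff.contDiffAt.comp x (((stp_sm _ _).of_le (by norm_cast)).contDiffAt.comp
      x (contDiffAt_const.mul ((contDiffAt_norm ℝ hx).log (norm_ne_zero_iff.2 hx))))) (-3) 3
  obtain ⟨K, h0, hK⟩ := h 1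
  obtain ⟨K', -, hK'⟩ := h (-1)
  refine ⟨max K K', by positivity, ?_⟩
  rintro e (rfl | rfl) x hx
  · exact (hK x hx).mono le_rfl (le_max_left _ _)
  · exact (hK' x hx).mono le_rfl (le_max_right _ _)

theorem unq_mid : ∃ ε : ℝ, 0 < ε ∧ ∀ (e a b : ℝ) (w u β : MetricField 4)
    (l : Fin 4 → Fin 4 → E4 → ℂ) (Γ : Subgroup Iso4), e = 1 ∨ e = -1 → a < b → b - a ≤ 2 →
    Ioo a b ⊆ Icc (-3) 3 → Inv Γ ∞ {x | x ≠ 0} β →
    (∀ x ∈ An (Ioo a b), PS x ε w ∧ PS x ε u ∧ redM fl1 (fl1 + u) x = 0 ∧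
      (1 - rho (e * Real.log ‖x‖)) • Pop fl1 w x +
        (2 * rho (e * Real.log ‖x‖)) • redM fl1 (fl1 + β + w) x = 0 ∧
      (2 < e * Real.log ‖x‖ → ∀ a b, J.PB 2 (l a b) x ε ∧ Lp2 (l a b) x = 0) ∧
      (e * Real.log ‖x‖ < 285 / 100 → ∀ a b, cf β a b x = chi e x * (cf u a b x - l a b x))) →
    (∀ i k, Bc a b (dd e w u l i) k) →
    ∀ x ∈ An (Ioo a b), e * Real.log ‖x‖ < 2 → w x = u x := by
  obtain ⟨η, h0, hη⟩ := h2_unique (Fin 4 × Fin 4) 2
  obtain ⟨δ, h1, hδ⟩ := pt_est h0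
  obtain ⟨K, h2, hK⟩ := exists_chi
  refine ⟨δ / (8 * K + 1), by positivity, fun e a b w u β l Γ he hab hl hs hβ h hb x hx hx2 => ?_⟩
  set ε := δ / (8 * K + 1) with hε
  have k0 : ε * (8 * K + 1) = δ := div_mul_cancel₀ _ (by positivity)
  have ε0 : 0 < ε := by positivity
  have k1 : ε ≤ δ := by nlinarith
  have pm : ∀ x ∈ An (Ioo a b), ∀ p q,
      J.PB 2 (fun y => chi e y * (cf u p q y - l p q y)) x δ := fun x hx p q => by
    obtain ⟨-, pu, -, -, pl, -⟩ := h x hx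
    by_cases hc : e * Real.log ‖x‖ < 22 / 10
    · exact ((PB.zero 2 x).congr ((chi_lo hx.1 hc).mono fun y hy => by simp [hy])).mono le_rfl h1.le
    · exact ((hK e he x ⟨hx.1, hs hx.2⟩).mul ((pu.pb p q).sub (pl (by linarith) p q).1)).mono le_rfl
        (by nlinarith)
  have hz := hη a b (ε + ε + δ) (dd e w u l) hab hl (fun i x hx =>
    (((h x hx).1.pb _ _).sub ((h x hx).2.1.pb _ _)).add (pm x hx _ _)) hb fun x hx => by
    obtain ⟨pw, pu, eu, ew, pl, -⟩ := h x hx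
    refine hδ x w u β _ (rho (e * Real.log ‖x‖)) (sub_nonneg.2 (Real.smoothTransition.le_one _))
      (sub_le_self _ (Real.smoothTransition.nonneg _)) (pw.mono k1) ew (fun hρ => ?_) fun hρ i => ?_
    · have hc : e * Real.log ‖x‖ < 285 / 100 := by
        by_contra hc
        exact hρ (by rw [rho, stp_one' (by norm_num) (by linarith), sub_self])
      have ev : ∀ p q, cf β p q =ᶠ[𝓝 x] fun y => chi e y * (cf u p q y - l p q y) := fun p q => by
        filter_upwards [ev_lt hx.1 hc, An_mem_nhds isOpen_Ioo hx] with y hy hy'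
        exact (h y hy').2.2.2.2.2 hy p q
      have hn : {x : E4 | x ≠ 0} ∈ 𝓝 x := isOpen_ne.mem_nhds hx.1
      refine ⟨pu.mono k1, ⟨fun p q => ((hβ.sm p q).contDiffAt hn).of_le (by norm_cast),
        eventually_of_mem hn fun y hy p q => (hβ.symm y hy).apply q p,
        fun p q => (pm x hx p q).congr (ev p q)⟩, eu, fun i => (ev i.1 i.2).mono fun y hy => ?_⟩
      simp only [dd, cf_add, hy]; ring
    · have hc : 26 / 10 < e * Real.log ‖x‖ := by
        by_contra hc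
        exact hρ (by rw [rho, stp_zero' (by norm_num) (by linarith), sub_zero])
      obtain ⟨p1, p2⟩ := pl (by linarith) i.1 i.2
      rw [Lp2_lin 1 (-1) (pw.pb i.1 i.2).1 p1.1 (by
        simpa [sub_eq_add_neg] using dd_hi hx.1 (by linarith) i), p2]
      ring
  ext p q
  have := (dd_lo (e := e) (w := w) (u := u) (l := l) hx.1 (by linarith) (p, q)).eq_of_nhds
  rw [hz _ x hx, eq_comm, sub_eq_zero] at this
  exact Complex.ofReal_injective this

theorem log_polar (t : ℝ) (o : S3) : Real.log ‖Real.exp t • (o : E4)‖ = t := by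
  rw [norm_smul_S3 (Real.exp_pos t), Real.log_exp]

theorem cont_amp {I : Set ℝ} (hI : IsOpen I)
    (h : ∀ a b, ContDiffOn ℝ 2 (fun x => w x a b) (An I)) (ht : t ∈ I) (a b : Fin 4) (k : ℕ) :
    ContinuousAt (pm (cf w a b) k) t ∧ ContinuousAt (qm (cf w a b) k) t :=
  have h1 : ContDiffOn ℝ (2 : ℕ) (cf w a b) (An I) := fun _ hx =>
    (cd_cf ((h a b).contDiffAt (An_mem_nhds hI hx))).contDiffWithinAt
  ⟨(hasDerivAt_pm hI h1 k ht).continuousAt, (hasDerivAt_qm hI h1 k ht).continuousAt⟩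

theorem An_mono {I I' : Set ℝ} (h : I ⊆ I') : An I ⊆ An I' := fun _ hx => ⟨hx.1, h hx.2⟩

end Uq

/-- **the outer collar** -/
theorem colO : ∃ ε : ℝ, 0 < ε ∧ ∀ (Γ : Subgroup Iso4) (y : DD) (u β : MetricField 4)
    (l : Fin 4 → Fin 4 → E4 → ℂ), SB (An (Ioo 1 3)) ε u →
    (∀ x ∈ An (Ioo 1 3), redM fl1 (fl1 + u) x = 0) →
    (∀ a b k, Tendsto (qm (cf u a b) k) (𝓝[>] 1) (𝓝 (trD 1 (y (a, b)) k))) →
    (∀ a b, ∀ x ∈ An (Ioo 2 3), J.PB 2 (l a b) x ε ∧ Lp2 (l a b) x = 0) →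
    (∀ a b k, ∀ t ∈ Ioo (2 : ℝ) 3, pm (l a b) k t = 0) → Inv Γ ∞ {x | x ≠ 0} β →
    (∀ x : E4, Real.log ‖x‖ ≤ 22 / 10 ∨ 29 / 10 ≤ Real.log ‖x‖ → β x = 0) →
    (∀ x ∈ An (Ioo 1 (285 / 100)), ∀ a b, cf β a b x =
      (stp (22 / 10) (24 / 10) (Real.log ‖x‖) : ℝ) * (cf u a b x - l a b x)) →
    ∀ ε' ≤ ε, ColO Γ ε' y u β := by
  obtain ⟨ε, h0, h⟩ := unq_mid
  refine ⟨ε, h0, fun Γ y u β l hu eu lu hl pl hβ sβ eβ ε' hε => ⟨hβ, sβ,
    fun w iw bw dw pw ew x hx => ?_⟩⟩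
  have sw : ∀ x ∈ An (Ioo 1 3), PS x ε w := fun x hx => (SB.ps ⟨iw.sm, iw.symm, bw⟩ (An_mem_nhds
    isOpen_Ioo (An_mono (Ioo_subset_Ioo (by norm_num) (by norm_num)) hx))).mono hε
  have su := fun x hx => hu.ps (x := x) (An_mem_nhds isOpen_Ioo hx)
  refine h 1 1 3 w u β l Γ (Or.inl rfl) (by norm_num) (by norm_num)
    (Ioo_subset_Icc_self.trans (Icc_subset_Icc (by norm_num) le_rfl)) hβ (fun x hx => ?_)
    (fun i k => ⟨?_, Or.inl ?_⟩) x (An_mono (Ioo_subset_Ioo le_rfl (by norm_num)) hx)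
    (by simpa using hx.2.2)
  · simp only [chi, one_mul]
    exact ⟨sw x hx, su x hx, eu x hx, ew x hx, fun hc a b => hl a b x ⟨hx.1, hc, hx.2.2⟩,
      fun hc => eβ x ⟨hx.1, hx.2.1, hc⟩⟩
  · have := ((cont_amp isOpen_Ioo iw.sm (t := 1) (by norm_num) i.1 i.2 k).2.tendsto.mono_left
      nhdsWithin_le_nhds).sub (lu i.1 i.2 k)
    rw [dw, sub_self] at this
    refine this.congr' ?_
    filter_upwards [Ioo_mem_nhdsGT (show (1 : ℝ) < 2 by norm_num)] with t ht
    have ht' : t ∈ Ioo (1 : ℝ) 3 := ⟨ht.1, by linarith [ht.2]⟩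
    exact (pm_qm_sub (n := 1) (fun o => ((sw _ (polar_mem_An ht' o)).pb _ _).1)
      (fun o => ((su _ (polar_mem_An ht' o)).pb _ _).1) (fun o => dd_lo (polar_mem_An ht' o).1
        (by rw [log_polar]; linarith [ht.2]) i) k).2.symm
  · have := (cont_amp isOpen_Ioo iw.sm (t := 3) (by norm_num) i.1 i.2 k).1.tendsto.mono_left
      (nhdsWithin_le_nhds (s := Iio 3))
    rw [pw] at this
    refine this.congr' ?_
    filter_upwards [Ioo_mem_nhdsLT (show (5 / 2 : ℝ) < 3 by norm_num)] with t ht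
    have ht' : t ∈ Ioo (1 : ℝ) 3 := ⟨by linarith [ht.1], ht.2⟩
    have ht'' : t ∈ Ioo (2 : ℝ) 3 := ⟨by linarith [ht.1], ht.2⟩
    rw [(pm_qm_sub (n := 1) (fun o => ((sw _ (polar_mem_An ht' o)).pb _ _).1)
      (fun o => (hl _ _ _ (polar_mem_An ht'' o)).1.1) (fun o => dd_hi (polar_mem_An ht' o).1
        (by rw [log_polar]; linarith [ht.1]) i) k).1, pl _ _ _ _ ht'', sub_zero]

/-- **the collar at a puncture** -/
theorem colI : ∃ ε : ℝ, 0 < ε ∧ ∀ (Γ : Subgroup Iso4) (y : DD) (u β : MetricField 4)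
    (l : Fin 4 → Fin 4 → E4 → ℂ), SB (An (Ioo (-3) (-1))) ε u →
    (∀ x ∈ An (Ioo (-3) (-1)), redM fl1 (fl1 + u) x = 0) →
    (∀ a b k, k ≠ 0 → Tendsto (pm (cf u a b) k) (𝓝[<] (-1)) (𝓝 (trD 1 (y (a, b)) k))) →
    (∀ a b, ∀ x ∈ An (Ioo (-3) (-2)), J.PB 2 (l a b) x ε ∧ Lp2 (l a b) x = 0) →
    (∀ a b, ∀ t ∈ Ioo (-3 : ℝ) (-2), pm (l a b) 0 t = 0 ∧ ∀ k, qm (l a b) k t = 0) →
    Inv Γ ∞ {x | x ≠ 0} β →
    (∀ x : E4, -Real.log ‖x‖ ≤ 22 / 10 ∨ 29 / 10 ≤ -Real.log ‖x‖ → β x = 0) →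
    (∀ x ∈ An (Ioo (-(285 / 100)) (-1)), ∀ a b, cf β a b x =
      (stp (22 / 10) (24 / 10) (-Real.log ‖x‖) : ℝ) * (cf u a b x - l a b x)) →
    ∀ ε' ≤ ε, ColI Γ ε' y u β := by
  obtain ⟨ε, h0, h⟩ := unq_mid
  refine ⟨ε, h0, fun Γ y u β l hu eu lu hl pl hβ sβ eβ ε' hε => ⟨hβ, sβ,
    fun w iw bw dw qw pw ew x hx => ?_⟩⟩
  have sw : ∀ x ∈ An (Ioo (-3) (-1)), PS x ε w := fun x hx => (SB.ps ⟨iw.sm, iw.symm, bw⟩
    (An_mem_nhds isOpen_Ioo (An_mono (Ioo_subset_Ioo (by norm_num) (by norm_num)) hx))).mono hε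
  have su := fun x hx => hu.ps (x := x) (An_mem_nhds isOpen_Ioo hx)
  have cw := fun (i : Fin 4 × Fin 4) k =>
    cont_amp isOpen_Ioo iw.sm (t := -3) (by norm_num) i.1 i.2 k
  have ev : ∀ (i : Fin 4 × Fin 4) k, ∀ᶠ t in 𝓝[>] (-3 : ℝ),
      pm (dd (-1) w u l i) k t = pm (cf w i.1 i.2) k t - pm (l i.1 i.2) k t ∧
      qm (cf w i.1 i.2) k t = qm (dd (-1) w u l i) k t ∧ pm (l i.1 i.2) 0 t = 0 := fun i k => by
    filter_upwards [Ioo_mem_nhdsGT (show (-3 : ℝ) < -(5 / 2) by norm_num)] with t ht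
    have ht' : t ∈ Ioo (-3 : ℝ) (-1) := ⟨ht.1, by linarith [ht.2]⟩
    have ht'' : t ∈ Ioo (-3 : ℝ) (-2) := ⟨ht.1, by linarith [ht.2]⟩
    have := pm_qm_sub (n := 1) (fun o => ((sw _ (polar_mem_An ht' o)).pb _ _).1)
      (fun o => (hl _ _ _ (polar_mem_An ht'' o)).1.1) (fun o => dd_hi (e := -1) (u := u)
        (polar_mem_An ht' o).1 (by rw [log_polar]; linarith [ht.2]) i) k
    exact ⟨this.1, by rw [this.2, (pl _ _ _ ht'').2, sub_zero], (pl _ _ _ ht'').1⟩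
  refine h (-1) (-3) (-1) w u β l Γ (Or.inr rfl) (by norm_num) (by norm_num)
    (Ioo_subset_Icc_self.trans (Icc_subset_Icc le_rfl (by norm_num))) hβ (fun x hx => ?_)
    (fun i k => ⟨?_, ?_⟩) x (An_mono (Ioo_subset_Ioo (by norm_num) le_rfl) hx)
    (by linarith [hx.2.1])
  · simp only [chi, neg_one_mul]
    exact ⟨sw x hx, su x hx, eu x hx, ew x hx,
      fun hc a b => hl a b x ⟨hx.1, hx.2.1, by linarith⟩,
      fun hc => eβ x ⟨hx.1, by linarith, hx.2.2⟩⟩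
  · have := (cw i k).2.tendsto.mono_left (nhdsWithin_le_nhds (s := Ioi (-3)))
    rw [qw] at this
    exact this.congr' ((ev i k).mono fun t ht => ht.2.1)
  · rcases eq_or_ne k 0 with rfl | hk
    · have := (cw i 0).1.tendsto.mono_left (nhdsWithin_le_nhds (s := Ioi (-3)))
      rw [pw] at this
      exact Or.inr ⟨rfl, this.congr' ((ev i 0).mono fun t ht => by rw [ht.1, ht.2.2, sub_zero])⟩
    have := ((cont_amp isOpen_Ioo iw.sm (t := -1) (by norm_num) i.1 i.2 k).1.tendsto.mono_left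
      nhdsWithin_le_nhds).sub (lu i.1 i.2 k hk)
    rw [← dw _ _ _ hk, sub_self] at this
    refine Or.inl (this.congr' ?_)
    filter_upwards [Ioo_mem_nhdsLT (show (-2 : ℝ) < -1 by norm_num)] with t ht
    have ht' : t ∈ Ioo (-3 : ℝ) (-1) := ⟨by linarith [ht.1], ht.2⟩
    exact (pm_qm_sub (n := 1) (fun o => ((sw _ (polar_mem_An ht' o)).pb _ _).1)
      (fun o => ((su _ (polar_mem_An ht' o)).pb _ _).1) (fun o => dd_lo (polar_mem_An ht' o).1
        (by rw [log_polar]; linarith [ht.1]) i) k).1.symm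

end Crest.Agent.N207.CB

end
end

-- ▼ part N207/CB/Nl3

/-! # Row 207, block L (helper87): `NQ` commutes with orthogonal changes of the frame -/

set_option autoImplicit false

open Crest.Agent.N207.Lg Crest.Agent.N207.J Crest.Agent.N207.L

noncomputable section

namespace Crest.Agent.N207.CB.Ro

variable {ι 𝕜 : Type*} [Fintype ι] [Field 𝕜] (A : M2 ι 𝕜)

def r1 (u : ι → 𝕜) : ι → 𝕜 := fun a => ∑ c, A c a * u c
def r2 (X : M2 ι 𝕜) : M2 ι 𝕜 := fun a b => r1 A (fun c => r1 A (X c) b) a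
def r3 (T : M3 ι 𝕜) : M3 ι 𝕜 := fun a b c => r1 A (fun x => r2 A (T x) b c) a
def r4 (Q : M4 ι 𝕜) : M4 ι 𝕜 := fun a b c d => r1 A (fun x => r3 A (Q x) b c d) a

variable (u v : ι → 𝕜) (t : 𝕜) (a : ι) (H X Y : M2 ι 𝕜) (T S : M3 ι 𝕜) (Q : M4 ι 𝕜)

theorem r1_add : r1 A (fun c => u c + v c) a = r1 A u a + r1 A v a := by
  simp only [r1, mul_add, Finset.sum_add_distrib]
theorem r1_sub : r1 A (fun c => u c - v c) a = r1 A u a - r1 A v a := by
  simp only [r1, mul_sub, Finset.sum_sub_distrib]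
theorem r1_neg : r1 A (fun c => -u c) a = -r1 A u a := by
  simp only [r1, mul_neg, Finset.sum_neg_distrib]
theorem r1_cm : r1 A (fun c => t * u c) a = t * r1 A u a := by
  simp only [r1, Finset.mul_sum, mul_left_comm]
theorem r1_mc : r1 A (fun c => u c * t) a = r1 A u a * t := by
  simp only [r1, Finset.sum_mul, mul_assoc]
theorem r1_sum (f : ι → ι → 𝕜) : r1 A (fun c => ∑ l, f c l) a = ∑ l, r1 A (fun c => f c l) a := by
  simp only [r1, Finset.mul_sum]; exact Finset.sum_comm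

theorem r2_snd (a b : ι) : r2 A X a b = r2 A (fun y x => X x y) b a := by
  simp only [r2, r1, Finset.mul_sum]
  rw [Finset.sum_comm]
  simp only [mul_left_comm]

theorem r3_snd (a b c : ι) : r3 A T a b c = r3 A (fun y x z => T x y z) b a c :=
  r2_snd A (fun x y => r1 A (T x y) c) a b

theorem r3_sw (a b c : ι) : r3 A T a b c = r3 A (fun x z y => T x y z) a c b := by
  simp only [r3, r2_snd A _ b c]

theorem r3_trd (a b c : ι) : r3 A T a b c = r3 A (fun z x y => T x y z) c a b := by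
  rw [r3_sw, r3_snd]

theorem low_r : low (r3 A T) = r3 A (low T) := by
  funext m i j
  have e1 := r3_trd A T i j m
  have e2 := (r3_trd A T j i m).trans (r3_sw A _ _ _ _)
  simp only [low, e1, e2]
  delta low
  simp only [r3, r2, r1_add, r1_sub, r1_cm]

theorem up_r1 (k : ι) : up H (r3 A T k) = fun i j => r1 A (fun c => up H (r2 A (T c)) i j) k := by
  funext i j; simp only [up, r3, r1_sum, r1_cm, r1_mc]

theorem chr_r1 (k : ι) (K : M3 ι 𝕜) : chr (fun i j => r1 A (fun c => K c i j) k) T =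
    fun m i j => r1 A (fun c => chr (K c) T m i j) k := by
  funext m i j; simp only [chr, r1_sum, r1_mc]

theorem gv_r1 (k : ι) (K : M3 ι 𝕜) : gv (fun i j => r1 A (fun c => K c i j) k) T =
    fun j => r1 A (fun c => gv (K c) T j) k := by
  funext j; simp only [gv, uT, vT, tr2, r1_sum, r1_mc, r1_cm, r1_sub]

variable [DecidableEq ι] {A} (h : ∀ c d, ∑ k, A c k * A d k = if c = d then 1 else 0)
include h

theorem ctr : ∑ k, r1 A u k * r1 A v k = ∑ k, u k * v k := by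
  have : ∀ k, r1 A u k * r1 A v k = ∑ c, ∑ d, u c * v d * (A c k * A d k) := fun k => by
    simp only [r1, Finset.sum_mul_sum]
    exact Finset.sum_congr rfl fun _ _ => Finset.sum_congr rfl fun _ _ => by ring
  simp only [this]
  rw [Finset.sum_comm]
  refine Finset.sum_congr rfl fun c _ => ?_
  rw [Finset.sum_comm]
  simp only [← Finset.mul_sum, h, mul_ite, mul_one, mul_zero, Finset.sum_ite_eq, Finset.mem_univ,
    if_true]

theorem trc : ∑ k, r2 A X k k = ∑ k, X k k := by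
  have : ∀ k, r2 A X k k = ∑ c, ∑ d, X c d * (A c k * A d k) := fun k => by
    simp only [r2, r1, Finset.mul_sum]
    exact Finset.sum_congr rfl fun _ _ => Finset.sum_congr rfl fun _ _ => by ring
  simp only [this]
  rw [Finset.sum_comm]
  refine Finset.sum_congr rfl fun c _ => ?_
  rw [Finset.sum_comm]
  simp only [← Finset.mul_sum, h, mul_ite, mul_one, mul_zero, Finset.sum_ite_eq, Finset.mem_univ,
    if_true]

theorem tr2_r : tr2 (r2 A X) (r2 A Y) = tr2 X Y := by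
  unfold tr2
  rw [Finset.sum_comm]
  simp only [r2, ctr _ _ h]
  rw [Finset.sum_comm]
  simp only [ctr _ _ h]

theorem mm_r (i j : ι) : ∑ a, r2 A X i a * r2 A Y a j =
    r2 A (fun i j => ∑ a, X i a * Y a j) i j := by
  simp only [r2_snd A X i]
  simp only [r2, ctr _ _ h, r1_sum, r1_cm, r1_mc]

theorem up_r : up (r2 A H) (r2 A X) = r2 A (up H X) := by
  have e : ∀ H X : M2 ι 𝕜, up H X = fun i j => ∑ b, (∑ a, H i a * X a b) * H b j := fun H X => by
    funext i j; simp only [up, Finset.sum_mul]; exact Finset.sum_comm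
  funext i j
  simp only [e, mm_r _ _ h]

theorem chr_r : chr (r2 A H) (r3 A T) = r3 A (chr H T) := by
  funext k i j
  simp only [chr, low_r, r2_snd A H k]
  delta chr
  simp only [r3, r2, ctr _ _ h, r1_sum, r1_cm, r1_mc]

theorem vT_r : vT (r2 A H) (r3 A T) = r1 A (vT H T) := by
  funext c
  have : vT (r2 A H) (r3 A T) c = r1 A (fun x => tr2 (r2 A H) (r2 A (T x))) c := by
    simp only [vT, tr2, r3, r1_sum, r1_cm]
  simp only [this, tr2_r _ _ h]; rfl

theorem uT_r : uT (r2 A H) (r3 A T) = r1 A (uT H T) := by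
  funext b
  have := congrFun (vT_r H (fun z x y => T x y z) h) b
  simp only [uT, r3_trd A T _ _ b]
  exact this

theorem gv_r : gv (r2 A H) (r3 A T) = r1 A (gv H T) := by
  funext j
  simp only [gv, uT_r _ _ h, vT_r _ _ h]
  exact ((r1_sub A _ _ j).trans (by rw [r1_cm])).symm

theorem ip1_r : ip1 (r2 A H) (r1 A u) (r1 A v) = ip1 H u v := by
  have := tr2_r H (fun i j => u i * v j) h
  simp only [tr2, r2, r1_cm, r1_mc] at this
  exact this

theorem tr3 (l : ι) : ∑ k, r3 A T k k l = r1 A (fun l => ∑ k, T k k l) l := by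
  simp only [r3_trd A T _ _ l]
  simp only [r3, ← r1_sum, trc _ h]

theorem cc_r : cc (r3 A T) (r3 A S) = r2 A (cc T S) := by
  funext i j
  have e1 : ∑ k, ∑ l, r3 A T k j l * r3 A S l k i =
      r2 A (fun i j => tr2 (r2 A fun k l => T k j l) (r2 A fun k l => S l k i)) i j := by
    have a1 : ∀ k l, r3 A S l k i = r3 A (fun z y x => S x y z) i k l := fun k l =>
      (r3_trd A S l k i).trans (r3_sw A _ _ _ _)
    simp only [a1, r3_snd A T _ j]
    simp only [tr2, r3, r2, r1_sum, r1_cm, r1_mc]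
  have e2 : ∑ k, ∑ l, r3 A T k k l * r3 A S l i j =
      r2 A (fun i j => ∑ k, ∑ l, T k k l * S l i j) i j := by
    rw [Finset.sum_comm]
    simp only [← Finset.sum_mul, tr3 _ h]
    simp only [r3, ctr _ _ h]
    simp only [r2, r1_sum, r1_cm, Finset.sum_mul]
    exact Finset.sum_comm
  simp only [cc, e1, e2, tr2_r _ _ h]
  delta Lg.cc
  simp only [r2, r1_sub, tr2]

theorem lapJ_r : lapJ (r2 A H) (r4 A Q) = r2 A (lapJ H Q) := by
  funext i j
  have := tr2_r H (fun a b => r2 A (Q a b) i j) h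
  refine this.trans ?_
  delta lapJ
  simp only [tr2, r2, r1_sum, r1_cm]

theorem fgf_r (s : 𝕜) : fgf s (r2 A H) (r3 A T) 0 = fgf s H T 0 := by
  simp only [fgf, lag, gau, ell, tr2_zero, chr_r _ _ h, cc_r _ _ h, tr2_r _ _ h, gv_r _ _ h,
    ip1_r _ _ _ h]

theorem qd_r : qd (r2 A H) (r3 A T) = r2 A (qd H T) := by
  have e : ∀ H X : M2 ι 𝕜, up2 H X H = up H X := fun _ _ => rfl
  have w : ∀ k, chr (up (r2 A H) (r3 A T k)) (r3 A T) = r4 A (fun c => chr (up H (T c)) T) k :=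
    fun k => by rw [up_r1, chr_r1]; simp only [up_r _ _ h, chr_r _ _ h]; rfl
  have g : ∀ k, gv (up (r2 A H) (r3 A T k)) (r3 A T) = r2 A (fun c => gv (up H (T c)) T) k :=
    fun k => by rw [up_r1, gv_r1]; simp only [up_r _ _ h, gv_r _ _ h]; rfl
  funext i j
  have t1 : ∀ W : M4 ι 𝕜, ∑ k, r4 A W k k i j = r2 A (fun i j => ∑ k, W k k i j) i j := fun W =>
    (trc (fun a b => r2 A (W a b) i j) h).trans (by simp only [r2, r1_sum])
  have t2 : ∀ W : M4 ι 𝕜, ∑ k, r4 A W j k k i = r2 A (fun i j => ∑ k, W j k k i) i j := fun W => by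
    rw [r2_snd]
    simp only [r4, ← r1_sum, tr3 _ h]; rfl
  simp only [qd_eq, qd4, e, w, g, t1, t2, chr_r _ _ h, cc_r _ _ h, gv_r _ _ h]
  rw [r2_snd A (fun c => gv (up H (T c)) T) j i]
  delta qd4
  simp only [r2, e, r1_add, r1_sub, r1_neg, r1_cm, r1_mc]

omit h [DecidableEq ι] in
theorem r2_eq (A X : Matrix ι ι 𝕜) : r2 A X = (A.transpose * X * A : Matrix ι ι 𝕜) := by
  funext a b
  rw [r2_snd]
  simp only [r2, r1, Matrix.mul_apply, Matrix.transpose_apply, mul_comm]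

end Ro

open Ro

/-- **equivariance** -/
theorem NQ_rot {A : Matrix (Fin 4) (Fin 4) ℂ} (hA : A.transpose * A = 1) {z z' : ZX}
    (h0 : ∀ a b, z' (.inl (a, b), none) = r2 A (fun c d => z (.inl (c, d), none)) a b)
    (h1 : ∀ e a b, z' (.inl (a, b), some (.inl e)) =
      r3 A (fun l c d => z (.inl (c, d), some (.inl l))) e a b)
    (h2 : ∀ e f a b, z' (.inl (a, b), some (.inr (e, f))) =
      r4 A (fun l m c d => z (.inl (c, d), some (.inr (l, m)))) e f a b) :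
    (∀ a b, NQ.Q z' (.inl (a, b)) = r2 A (fun c d => NQ.Q z (.inl (c, d))) a b) ∧
      NQ.Q z' (.inr ()) = NQ.Q z (.inr ()) := by
  have hA' : A * A.transpose = 1 := mul_eq_one_comm.1 hA
  have h : ∀ c d, ∑ k, A c k * A d k = if c = d then 1 else 0 := fun c d => by
    have := congrFun (congrFun hA' c) d
    simpa only [Matrix.mul_apply, Matrix.transpose_apply, Matrix.one_apply] using this
  have s : ∀ j a b, r2 A (sy z j) a b = (1 / 2) * (r2 A (fun c d => z (.inl (c, d), j)) a b +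
      r2 A (fun c d => z (.inl (c, d), j)) b a) := fun j a b => by
    rw [r2_snd A _ b a]; delta sy; simp only [r2, r1_add, r1_cm]
  have g0 : gM z' = A.transpose * gM z * A := by
    have : sy z' none = r2 A (sy z none) := by funext a b; simp only [s, sy, h0]
    rw [gM, gM, mul_add, add_mul, mul_one, hA, this]
    exact congrArg (1 + ·) (r2_eq A (Matrix.of (sy z none)))
  have g1 : hM z' = r2 A (hM z) := by
    have : (gM z')⁻¹ = A.transpose * (gM z)⁻¹ * A := by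
      rw [g0, Matrix.mul_inv_rev, Matrix.mul_inv_rev, Matrix.inv_eq_left_inv hA,
        Matrix.inv_eq_left_inv hA', mul_assoc]
    exact this.trans (r2_eq A (gM z)⁻¹).symm
  have g2 : pJ z' = r3 A (pJ z) := by
    funext e a b; simp only [pJ, sy, h1, r3, s, r1_add, r1_cm]
  have g3 : qJ z' = r4 A (qJ z) := by
    funext e f a b; simp only [qJ, sy, h2, r4, r3, s, r1_add, r1_cm]
  have g4 : (gM z').det = (gM z).det := by
    have := congrArg Matrix.det hA
    rw [Matrix.det_mul, Matrix.det_one] at this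
    rw [g0, Matrix.det_mul, Matrix.det_mul, mul_right_comm, this, one_mul]
  have g5 : on2 - hM z' = r2 A (on2 - hM z) := by
    have : r2 A on2 = on2 := (r2_eq A 1).trans (by rw [mul_one, hA]; rfl)
    funext a b
    rw [Pi.sub_apply, Pi.sub_apply, g1, ← this]
    simp only [this]
    conv_lhs => rw [← this]
    simp only [r2, Pi.sub_def, r1_sub]
  refine ⟨fun a b => ?_, ?_⟩
  · simp only [NQ, QQ]
    rw [g5, g1, g2, g3, lapJ_r _ _ h, qd_r _ _ h]
    simp only [r2, r1_add, r1_cm]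
  · simp only [NQ, QQ]
    rw [g1, g2, g4, fgf_r _ _ h]

end Crest.Agent.N207.CB

end
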