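import Crest.Agent.N207.CB.St
import Crest.Agent.N207.U.Cmp
import Crest.Agent.N207.Lg.Fun2
import Crest.Agent.N207.I.Car3
import Crest.Agent.N207.I.Cal5

-- ▼ part N207/CB/Pb1
section

/-!
# Row 207, leaf `CB.PB` (helper58), file 1: the diffeomorphisms `PsiA`
-/

set_option autoImplicit false

open scoped ContDiff
open Metric Set Filter Topology
open Crest.GeometryTopology.CoordMetric
open Crest.Agent.N207.U

noncomputable section

namespace Crest.Agent.N207.CB.Pb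

section Gen

variable {n : ℕ}

theorem norm_le_sum_abs (u : En n) : ‖u‖ ≤ ∑ a, |u a| := by
  conv_lhs => rw [show u = ∑ j, u j • EuclideanSpace.single j (1 : ℝ) from by
    ext k; simp [Pi.single_apply]]
  refine (norm_sum_le _ _).trans (le_of_eq (Finset.sum_congr rfl fun a _ => ?_))
  simp [norm_smul]

theorem opn_le (L : En n →L[ℝ] En n) {c : ℝ} (hc : 0 ≤ c)
    (h : ∀ a j, |L (EuclideanSpace.single j 1) a| ≤ c) : ‖L‖ ≤ n * (n * c) := by
  refine ContinuousLinearMap.opNorm_le_bound _ (by positivity) fun v => ?_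
  refine (norm_le_sum_abs _).trans ((Finset.sum_le_sum (g := fun _ => n * c * ‖v‖)
    fun a _ => ?_).trans_eq (by simp; ring))
  have := clm_eq_sum ((EuclideanSpace.proj a : En n →L[ℝ] ℝ).comp L) v
  have e : L v a = ∑ j, L (EuclideanSpace.single j 1) a * v j := this
  rw [e]
  refine (Finset.abs_sum_le_sum_abs _ _).trans ((Finset.sum_le_sum (g := fun _ => c * ‖v‖)
    fun j _ => ?_).trans_eq (by simp; ring))
  rw [abs_mul]
  exact mul_le_mul (h a j) (PiLp.norm_apply_le v j) (abs_nonneg _) hc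

/-- a small perturbation of the identity is a diffeomorphism -/
theorem exists_diffeo {Ψ : En n → En n} (hΨ : ContDiff ℝ ∞ Ψ)
    (h : ∀ y, ‖fderiv ℝ Ψ y - ContinuousLinearMap.id ℝ (En n)‖ ≤ 1 / 2) :
    ∃ Φ : En n → En n, ContDiff ℝ ∞ Φ ∧ (∀ y, Ψ (Φ y) = y) ∧ ∀ y, Φ (Ψ y) = y := by
  have hd := hΨ.differentiable (by simp)
  have h1 : ApproximatesLinearOn Ψ
      ((ContinuousLinearEquiv.refl ℝ (En n) : En n ≃L[ℝ] En n) : En n →L[ℝ] En n) univ
      (1 / 2 : NNReal) := fun x _ y _ => by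
    simpa using Convex.norm_image_sub_le_of_norm_fderiv_le' (𝕜 := ℝ) (fun z _ => hd z)
      (fun z _ => h z) convex_univ (mem_univ y) (mem_univ x)
  have h2 : Subsingleton (En n) ∨ (1 / 2 : NNReal) <
      ‖((ContinuousLinearEquiv.refl ℝ (En n)).symm : En n →L[ℝ] En n)‖₊⁻¹ := by
    rcases subsingleton_or_nontrivial (En n) with h | h
    · exact Or.inl h
    · refine Or.inr ?_
      have : ‖((ContinuousLinearEquiv.refl ℝ (En n)).symm : En n →L[ℝ] En n)‖₊ = 1 :=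
        ContinuousLinearMap.nnnorm_id
      rw [this, inv_one]
      norm_num
  have hi : ∀ y, Function.Injective (fderiv ℝ Ψ y) := fun y => by
    refine (injective_iff_map_eq_zero _).2 fun v hv => ?_
    have h3 := ((fderiv ℝ Ψ y - ContinuousLinearMap.id ℝ (En n)).le_opNorm v).trans
      (mul_le_mul_of_nonneg_right (h y) (norm_nonneg v))
    simp only [sub_apply, hv, ContinuousLinearMap.id_apply, zero_sub, norm_neg] at h3
    exact norm_le_zero_iff.1 (by linarith)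
  refine ⟨(h1.toHomeomorph Ψ h2).symm, Homeomorph.contDiff_symm (h1.toHomeomorph Ψ h2)
    (f₀' := fun y => (LinearEquiv.ofInjectiveEndo (fderiv ℝ Ψ y : En n →ₗ[ℝ] En n)
      (hi y)).toContinuousLinearEquiv) (fun y => (hd y).hasFDerivAt) hΨ,
    (h1.toHomeomorph Ψ h2).apply_symm_apply, (h1.toHomeomorph Ψ h2).symm_apply_apply⟩

end Gen

/-- the cut-off of the neck of length `L` -/
def eta (T0 L : ℝ) (y : E4) : ℝ :=
  stp (1 / 5) (4 / 5) (1 * Real.log ‖y‖ + -T0) * stp (1 / 5) (4 / 5) (-1 * Real.log ‖y‖ + (L - T0))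

/-- the support of `eta` -/
def An (T0 L : ℝ) : Set E4 :=
  {y | Real.exp (T0 + 1 / 5) ≤ ‖y‖ ∧ ‖y‖ ≤ Real.exp (L - T0 - 1 / 5)}

theorem isClosed_An (T0 L : ℝ) : IsClosed (An T0 L) :=
  (isClosed_le continuous_const continuous_norm).inter (isClosed_le continuous_norm continuous_const)

theorem stp_zero {a b t : ℝ} (hab : a < b) (h : t ≤ a) : stp a b t = 0 :=
  Real.smoothTransition.zero_of_nonpos
    (div_nonpos_of_nonpos_of_nonneg (sub_nonpos.2 h) (sub_pos.2 hab).le)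

theorem stp_one {a b t : ℝ} (hab : a < b) (h : b ≤ t) : stp a b t = 1 :=
  Real.smoothTransition.one_of_one_le ((one_le_div (sub_pos.2 hab)).2 (sub_le_sub_right h _))

theorem An.ne {T0 L : ℝ} {y : E4} (h : y ∈ An T0 L) : y ≠ 0 :=
  norm_pos_iff.1 ((Real.exp_pos _).trans_le h.1)

theorem mem_An {T0 L : ℝ} {y : E4} (hy : y ≠ 0) :
    y ∈ An T0 L ↔ T0 + 1 / 5 ≤ Real.log ‖y‖ ∧ Real.log ‖y‖ ≤ L - T0 - 1 / 5 := by
  have h := norm_pos_iff.2 hy
  rw [Real.le_log_iff_exp_le h, Real.log_le_iff_le_exp h]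
  rfl

theorem eta_zero {T0 L : ℝ} (h0 : 0 ≤ T0) {y : E4} (h : y ∉ An T0 L) : eta T0 L y = 0 := by
  rcases eq_or_ne y 0 with rfl | hy
  · rw [eta, stp_zero (by norm_num) (by simp; linarith), zero_mul]
  · rcases not_and_or.1 (mt (mem_An hy).2 h) with h | h
    · rw [eta, stp_zero (by norm_num) (by linarith), zero_mul]
    · rw [eta, stp_zero (t := -1 * _ + _) (by norm_num) (by linarith), mul_zero]

theorem pb_eta {ι : Type} {x : ι → E4} (hx : ∀ i, x i ≠ 0) (T0 L : ι → ℝ) (m : ℕ) :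
    U.PB x (fun i => ‖x i‖) m (fun _ => 1) fun i => eta (T0 i) (L i) :=
  (PB.bs_log hx 1 (fun i => -T0 i) (bs_trans (1 / 5) (4 / 5) (by norm_num))).bmul
    (PB.bs_log hx (-1) (fun i => L i - T0 i) (bs_trans (1 / 5) (4 / 5) (by norm_num)))

theorem psi_off {T0 L : ℝ} (h0 : 0 ≤ T0) (a : Mt) {y : E4} (h : y ∉ An T0 L) :
    PsiA (eta T0 L) a y = y := by rw [PsiA, eta_zero h0 h, zero_smul, add_zero]

theorem psi_ev {T0 L : ℝ} (h0 : 0 ≤ T0) (a : Mt) {y : E4} (h : y ∉ An T0 L) :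
    PsiA (eta T0 L) a =ᶠ[𝓝 y] fun z => z := by
  filter_upwards [(isClosed_An T0 L).isOpen_compl.mem_nhds h] with z hz using psi_off h0 a hz

theorem contDiff_lin (a : Mt) : ContDiff ℝ ∞ fun y : E4 => Matrix.toEuclideanLin a y :=
  (LinearMap.toContinuousLinearMap (Matrix.toEuclideanLin a)).contDiff

theorem contDiff_psi {T0 L : ℝ} (h0 : 0 ≤ T0) (a : Mt) : ContDiff ℝ ∞ (PsiA (eta T0 L) a) := by
  refine contDiff_iff_contDiffAt.2 fun y => ?_
  by_cases h : y ∈ An T0 L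
  · exact contDiffAt_id.add (((pb_eta (ι := Unit) (x := fun _ => y) (fun _ => An.ne h)
      (fun _ => T0) (fun _ => L) 0).sm ()).smul (contDiff_lin a).contDiffAt)
  · exact contDiffAt_id.congr_of_eventuallyEq (psi_ev h0 a h)

theorem psi_apply (η : E4 → ℝ) (a : Mt) (y : E4) (p : Fin 4) :
    PsiA η a y p = y p + η y * ∑ q, a p q * y q := by
  simp [PsiA, Matrix.toEuclideanLin, Matrix.mulVec, dotProduct]

theorem pb_jc {ι : Type} {x : ι → E4} (hx : ∀ i, x i ≠ 0) {T0 L δ : ι → ℝ} (h0 : ∀ i, 0 ≤ T0 i)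
    {a : ι → Mt} (ha : ∀ i p q, |a i p q| ≤ δ i) (m : ℕ) (p j : Fin 4) :
    U.PB x (fun i => ‖x i‖) m δ fun i y => jc (PsiA (eta (T0 i) (L i)) (a i)) y p j - (1 : Mt) p j := by
  have hs : ∀ i, 0 < ‖x i‖ := fun i => norm_pos_iff.2 (hx i)
  have h1 := (pb_eta hx T0 L (m + 1)).bmul (PB.sum Finset.univ fun q _ =>
    ((PB.cst fun i => a i p q).wt' fun i => ha i p q).mul
      (PB.coord hs (K := 1) (fun i => by simp) q))
  refine ((h1.pd hs j).wte fun i => by rw [mul_div_assoc, div_self (hs i).ne', mul_one]).congr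
    fun i => ?_
  filter_upwards [ev_diff (h1.sm i)] with y hy
  have hd : DifferentiableAt ℝ (fun z : E4 => z p) y :=
    (EuclideanSpace.proj p : E4 →L[ℝ] ℝ).differentiableAt
  rw [jc_eq_pd ((contDiff_psi (h0 i) (a i)).differentiable (by simp) y), ← jc_id y,
    jc_eq_pd (Φ := fun z => z) differentiableAt_id]
  simp only [psi_apply, pderiv, fderiv_fun_add hd hy, add_apply]
  ring

/-- the data of one map `PsiA` and one point -/
structure D0 where
  T0 : ℝ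
  L : ℝ
  δ : ℝ
  a : Mt
  x : E4
  h0 : 0 ≤ T0
  ha : ∀ p q, |a p q| ≤ δ
  hx : x ≠ 0

theorem exists_jc0 : ∃ C : ℝ, 0 < C ∧ ∀ (T0 L δ : ℝ) (a : Mt), 0 ≤ T0 → (∀ p q, |a p q| ≤ δ) →
    ∀ y p j, |jc (PsiA (eta T0 L) a) y p j - (1 : Mt) p j| ≤ C * δ := by
  choose C hC0 hC using fun p : Fin 4 × Fin 4 => (pb_jc (ι := D0) (fun d => d.hx) (L := fun d => d.L)
    (fun d => d.h0) (fun d => d.ha) 0 p.1 p.2).val
  have h1 : 0 ≤ ∑ p, C p := Finset.sum_nonneg fun p _ => hC0 p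
  refine ⟨∑ p, C p + 1, by linarith, fun T0 L δ a h0 ha y p j => ?_⟩
  have hδ : 0 ≤ δ := (abs_nonneg _).trans (ha 0 0)
  by_cases hy : y ∈ An T0 L
  · refine (hC (p, j) ⟨T0, L, δ, a, y, h0, ha, An.ne hy⟩).trans
      (mul_le_mul_of_nonneg_right ?_ hδ)
    linarith [Finset.single_le_sum (f := C) (fun p _ => hC0 p) (Finset.mem_univ (p, j))]
  · rw [jc_congr (psi_ev h0 a hy), jc_id, sub_self, abs_zero]
    positivity

/-- `Φ` is the inverse of `Ψ`, both are the identity off the closed set `A` -/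
structure Inv (Ψ Φ : E4 → E4) (A : Set E4) : Prop where
  cl : IsClosed A
  sΨ : ContDiff ℝ ∞ Ψ
  sΦ : ContDiff ℝ ∞ Φ
  r : ∀ y, Ψ (Φ y) = y
  l : ∀ y, Φ (Ψ y) = y
  off : ∀ y, y ∉ A → Ψ y = y
  jc : ∀ y p j, |jc Ψ y p j - (1 : Mt) p j| ≤ 1 / 32

theorem exists_inv : ∃ δ0 : ℝ, 0 < δ0 ∧ ∀ (T0 L : ℝ) (a : Mt), 0 ≤ T0 → (∀ p q, |a p q| ≤ δ0) →
    ∃ Φ, Inv (PsiA (eta T0 L) a) Φ (An T0 L) := by
  obtain ⟨C, hC, h⟩ := exists_jc0
  refine ⟨1 / (32 * C), by positivity, fun T0 L a h0 ha => ?_⟩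
  have h1 : ∀ y p j, |jc (PsiA (eta T0 L) a) y p j - (1 : Mt) p j| ≤ 1 / 32 := fun y p j =>
    (h T0 L _ a h0 ha y p j).trans_eq (by field_simp)
  obtain ⟨Φ, h2, h3, h4⟩ := exists_diffeo (contDiff_psi (L := L) h0 a) fun y => by
    refine (opn_le _ (c := 1 / 32) (by norm_num) fun p j => ?_).trans (by norm_num)
    refine le_trans (le_of_eq ?_) (h1 y p j)
    simp [jc, Matrix.one_apply]
  exact ⟨Φ, isClosed_An T0 L, contDiff_psi h0 a, h2, h3, h4, fun y => psi_off h0 a, h1⟩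

namespace Inv

variable {Ψ Φ : E4 → E4} {A : Set E4} (h : Inv Ψ Φ A)
include h

theorem off' {y : E4} (hy : y ∉ A) : Φ y = y := by
  conv_lhs => rw [← h.off y hy]
  exact h.l y

theorem mem {y : E4} (hy : y ∈ A) : Φ y ∈ A := by
  by_contra h1
  have := h.off _ h1
  rw [h.r] at this
  exact h1 (this ▸ hy)

theorem mem' {y : E4} (hy : y ∈ A) : Ψ y ∈ A := by
  by_contra h1
  have := h.off' h1
  rw [h.l] at this
  exact h1 (this ▸ hy)

theorem ev {y : E4} (hy : y ∉ A) : Φ =ᶠ[𝓝 y] fun z => z := by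
  filter_upwards [h.cl.isOpen_compl.mem_nhds hy] with z hz using h.off' hz

theorem ev' {y : E4} (hy : y ∉ A) : Ψ =ᶠ[𝓝 y] fun z => z := by
  filter_upwards [h.cl.isOpen_compl.mem_nhds hy] with z hz using h.off z hz

theorem maps {U : Set E4} (hU : A ⊆ U) {y : E4} (hy : y ∈ U) : Φ y ∈ U := by
  by_cases h1 : y ∈ A
  · exact hU (h.mem h1)
  · rwa [h.off' h1]

theorem maps' {U : Set E4} (hU : A ⊆ U) {y : E4} (hy : y ∈ U) : Ψ y ∈ U := by
  by_cases h1 : y ∈ A
  · exact hU (h.mem' h1)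
  · rwa [h.off y h1]

theorem image {U : Set E4} (hU : A ⊆ U) : Φ '' U = U :=
  Subset.antisymm (image_subset_iff.2 fun _ hy => h.maps hU hy)
    fun y hy => ⟨Ψ y, h.maps' hU hy, h.l y⟩

theorem dΦ (y : E4) : DifferentiableAt ℝ Φ y := h.sΦ.differentiable (by simp) y

theorem dΨ (y : E4) : DifferentiableAt ℝ Ψ y := h.sΨ.differentiable (by simp) y

theorem imm (y : E4) : Function.Injective (fderiv ℝ Φ y) := by
  have h1 : fderiv ℝ (fun z => Ψ (Φ z)) y = (fderiv ℝ Ψ (Φ y)).comp (fderiv ℝ Φ y) :=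
    fderiv_comp y (h.dΨ _) (h.dΦ _)
  simp only [h.r, fderiv_fun_id] at h1
  intro u v e
  have h2 := congrArg (fderiv ℝ Ψ (Φ y)) e
  rwa [← ContinuousLinearMap.comp_apply, ← ContinuousLinearMap.comp_apply, ← h1] at h2

theorem imm' (y : E4) : Function.Injective (fderiv ℝ Ψ y) := by
  have h1 : fderiv ℝ (fun z => Φ (Ψ z)) y = (fderiv ℝ Φ (Ψ y)).comp (fderiv ℝ Ψ y) :=
    fderiv_comp y (h.dΦ _) (h.dΨ _)
  simp only [h.l, fderiv_fun_id] at h1
  intro u v e
  have h2 := congrArg (fderiv ℝ Φ (Ψ y)) e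
  rwa [← ContinuousLinearMap.comp_apply, ← ContinuousLinearMap.comp_apply, ← h1] at h2

/-- `|Ψ y| ≤ 3/2 |y|` when `0 ∉ A` -/
theorem norm_le (h0 : (0 : E4) ∉ A) (y : E4) : ‖y‖ ≤ 2 * ‖Φ y‖ := by
  have h1 := Convex.norm_image_sub_le_of_norm_fderiv_le' (𝕜 := ℝ) (f := Ψ)
    (φ := ContinuousLinearMap.id ℝ E4) (C := 1 / 2) (fun z _ => h.dΨ z) (fun z _ => by
      refine (opn_le _ (c := 1 / 32) (by norm_num) fun p j => ?_).trans (by norm_num)
      refine le_trans (le_of_eq ?_) (h.jc z p j)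
      simp [U.jc, Matrix.one_apply]) convex_univ (mem_univ 0) (mem_univ (Φ y))
  rw [h.r, h.off 0 h0] at h1
  simp only [sub_zero, ContinuousLinearMap.id_apply] at h1
  linarith [norm_sub_norm_le y (Φ y), norm_nonneg (Φ y)]

end Inv

/-- the data for the jets of a pull-back -/
structure D1 (m : ℕ) where
  T0 : ℝ
  L : ℝ
  δ : ℝ
  a : Mt
  Φ : E4 → E4
  G : MetricField 4
  y : E4
  s : ℝ
  h0 : 0 ≤ T0
  ha : ∀ p q, |a p q| ≤ δ
  h1 : δ ≤ 1
  inv : Inv (PsiA (eta T0 L) a) Φ (An T0 L)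
  mem : y ∈ An T0 L
  pos : 0 < s
  hs : s ≤ 2 * ‖y‖
  sm : ∀ p q, ContDiffAt ℝ ∞ (fun z => G z p q) (Φ y)
  jet : ∀ k ≤ m, ∀ p q,
    ‖Φ y‖ ^ k * ‖iteratedFDeriv ℝ k (fun z => G z p q - (1 : Mt) p q) (Φ y)‖ ≤ δ

theorem pull_jets (m : ℕ) : ∃ C : ℝ, 0 < C ∧ ∀ d : D1 m, ∀ k ≤ m, ∀ p q, d.s ^ k *
    ‖iteratedFDeriv ℝ k (fun z => pullM d.Φ d.G z p q - (1 : Mt) p q) d.y‖ ≤ C * d.δ := by
  have hx : ∀ d : D1 m, d.Φ d.y ≠ 0 := fun d => An.ne (d.inv.mem d.mem)
  have hs : ∀ d : D1 m, 0 < ‖d.Φ d.y‖ := fun d => norm_pos_iff.2 (hx d)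
  have hδ : ∀ d : D1 m, 0 ≤ d.δ := fun d => (abs_nonneg _).trans (d.ha 0 0)
  have hΦ : ∀ d : D1 m, ContDiffAt ℝ ∞ d.Φ d.y := fun d => d.inv.sΦ.contDiffAt
  have hJ := PB.jc_inv_sub (ι := D1 m) (m := m) hΦ (fun d => d.inv.sΨ.contDiffAt)
    (fun d => Eventually.of_forall d.inv.r) (fun d => d.h1) (ε := 1 / 32) (by norm_num)
    (fun d => d.inv.jc _) (pb_jc hx (fun d => d.h0) (fun d => d.ha) m)
  have hG : ∀ p q, U.PB (fun d : D1 m => d.Φ d.y) (fun d => ‖d.Φ d.y‖) m (fun d => d.δ)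
      fun d z => d.G z p q - (1 : Mt) p q := fun p q =>
    PB.of_itd hs (fun d => (d.sm p q).sub contDiffAt_const) fun k hk =>
      ⟨1, zero_le_one, fun d => by rw [one_mul, mul_comm]; exact d.jet k hk p q⟩
  choose C hC0 hC using fun p : Fin 4 × Fin 4 =>
    ((PB.pull hΦ (fun d => d.h1) hJ hG p.1 p.2).scale (s' := fun d => d.s) hs (K := 4) fun d => by
      rw [abs_of_pos d.pos]
      linarith [d.hs, d.inv.norm_le (fun h => An.ne h rfl) d.y]).itd (fun d => d.pos) hδ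
  have h1 : 0 ≤ ∑ p, C p := Finset.sum_nonneg fun p _ => hC0 p
  refine ⟨∑ p, C p + 1, by linarith, fun d k hk p q => ?_⟩
  rw [mul_comm]
  refine (hC (p, q) k hk d).trans (mul_le_mul_of_nonneg_right ?_ (hδ d))
  linarith [Finset.single_le_sum (f := C) (fun p _ => hC0 p) (Finset.mem_univ (p, q))]

end Crest.Agent.N207.CB.Pb

end
end

-- ▼ part N207/CB/Pb2
section

/-!
# Row 207, leaf `CB.PB` (helper58), file 2: locality and covariance
-/

set_option autoImplicit false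

open scoped ContDiff
open Metric Set Filter Topology
open Crest.GeometryTopology.CoordMetric
open Crest.Agent.N207.U Crest.Agent.N207.Lg Crest.Agent.R202.Tens

noncomputable section

namespace Crest.Agent.N207.CB.Pb

/-- naturality of the reduced Ricci tensor and of the gauge fixed density -/
def NAT : Prop :=
  ∀ (G' G gb' gb : MetricField 4) (Φ : E4 → E4) (V W : Set E4) (y : E4), Pull G' G Φ V W →
    Pull gb' gb Φ V W → y ∈ V → redT gb' G' y = pullT Φ (redT gb G) y ∧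
      fgfF gb' G' y = |(fderiv ℝ Φ y).det| * fgfF gb G (Φ y)

variable {gb gb' G G' : MetricField 4} {y : E4} {Φ Ψ : E4 → E4}

theorem cov_mat_congr (hb : gb =ᶠ[𝓝 y] gb') (hG : G =ᶠ[𝓝 y] G') :
    cov gb (matT G) =ᶠ[𝓝 y] cov gb' (matT G') :=
  AI.cov_congr hb (hG.mono fun z hz => by funext I; simp only [matT, hz])

theorem gauT_congr' (hb : gb =ᶠ[𝓝 y] gb') (hG : G =ᶠ[𝓝 y] G') :
    gauT gb G =ᶠ[𝓝 y] gauT gb' G' := by
  filter_upwards [hG, cov_mat_congr hb hG] with z h1 h2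
  funext I
  have e : iv G z = iv G' z := by funext a b; simp only [iv, h1]
  simp only [gauT, TG, e, h2]

theorem redT_congr' (hb : gb =ᶠ[𝓝 y] gb') (hG : G =ᶠ[𝓝 y] G') : redT gb G y = redT gb' G' y := by
  funext I
  simp only [redT, (AI.ricci_congr hG).eq_of_nhds, (gauT_congr' hb hG).eq_of_nhds,
    (AI.cov_congr hb (gauT_congr' hb hG)).eq_of_nhds]

theorem fgfF_congr' (hb : gb =ᶠ[𝓝 y] gb') (hG : G =ᶠ[𝓝 y] G') : fgfF gb G y = fgfF gb' G' y := by
  have e : iv G y = iv G' y := by funext a b; simp only [iv, hG.eq_of_nhds]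
  simp only [fgfF, TG, Lg.sq, e, hG.eq_of_nhds, (cov_mat_congr hb hG).eq_of_nhds,
    (AI.ricci_congr hb).eq_of_nhds]

theorem two_eq (I : Fin 2 → Fin 4) : ![I 0, I 1] = I := by
  funext s; fin_cases s <;> rfl

theorem matT_pullM (Φ : E4 → E4) (G : MetricField 4) (y : E4) :
    matT (pullM Φ G) y = pullT Φ (matT G) y := by
  funext I
  show pullT Φ (matT G) y ![I 0, I 1] = _
  rw [two_eq]

theorem pullM_eq (Φ : E4 → E4) (G : MetricField 4) (y : E4) :
    pullM Φ G y = (jc Φ y).transpose * G (Φ y) * jc Φ y := by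
  ext a b
  simp only [pullM, Matrix.of_apply, pull_two, Matrix.mul_apply, Matrix.transpose_apply,
    Finset.sum_mul]
  rw [Finset.sum_comm]
  exact Finset.sum_congr rfl fun p _ => Finset.sum_congr rfl fun q _ => by ring

theorem pullM_of_ev (h : Φ =ᶠ[𝓝 y] fun z => z) (G : MetricField 4) : pullM Φ G y = G y := by
  rw [pullM_eq, jc_congr h, jc_id, h.eq_of_nhds]
  simp

theorem pullM_smul (Φ : E4 → E4) (c : ℝ) (G : MetricField 4) (y : E4) :
    pullM Φ (fun z => c • G z) y = c • pullM Φ G y := by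
  simp only [pullM_eq, Matrix.mul_smul, Matrix.smul_mul]

theorem pullM_comp (hΦ : DifferentiableAt ℝ Φ y) (hΨ : DifferentiableAt ℝ Ψ (Φ y))
    (G : MetricField 4) : pullM Φ (pullM Ψ G) y = pullM (fun z => Ψ (Φ z)) G y := by
  simp only [pullM_eq, jc_comp hΨ hΦ, Matrix.transpose_mul, Matrix.mul_assoc]

theorem mkPull {V W : Set E4} (hV : IsOpen V) (hG : IsRiemannianOn G W) (hm : ∀ y ∈ V, Φ y ∈ W)
    (hs : ContDiffOn ℝ ∞ Φ V) (hi : ∀ y ∈ V, Function.Injective (fderiv ℝ Φ y))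
    (e : ∀ y ∈ V, G' y = pullM Φ G y) : Pull G' G Φ V W := by
  refine ⟨hV, hG, hm, hs, fun y hy i j => ?_, hi⟩
  rw [e y hy, pullM, Matrix.of_apply, pull_two]
  exact Finset.sum_congr rfl fun p _ => Finset.sum_congr rfl fun q _ => by
    simp only [jc, Matrix.of_apply]; ring

theorem riem_smul {U : Set E4} {c : ℝ} (hc : 0 < c) (h : IsRiemannianOn G U) :
    IsRiemannianOn (fun y => c • G y) U :=
  ⟨h.isOpen, fun i j => contDiffOn_const.mul (h.contDiffOn i j),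
    fun y hy => (h.posDef y hy).smul hc⟩

theorem riem_of_smul {U : Set E4} {c : ℝ} (hc : 0 < c) (h : IsRiemannianOn (fun y => c • G y) U) :
    IsRiemannianOn G U := by
  have := riem_smul (inv_pos.2 hc) h
  simpa only [smul_smul, inv_mul_cancel₀ hc.ne', one_smul] using this

theorem riem_one (U : Set E4) (hU : IsOpen U) : IsRiemannianOn (fun _ => (1 : Mt)) U :=
  ⟨hU, fun _ _ => contDiffOn_const, fun _ _ => Matrix.PosDef.one⟩

theorem tr2_eq (A B : Mt) : tr2 A B = (A.transpose * B).trace := by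
  simp only [tr2, Matrix.trace, Matrix.diag, Matrix.mul_apply, Matrix.transpose_apply]
  exact Finset.sum_comm

theorem up_eq (H k : Mt) : up H k = H * k * H := by
  funext i j
  simp only [up, Matrix.mul_apply, Finset.sum_mul]
  exact Finset.sum_comm

theorem tr2_conj {J N : Mt} (h : J * N = 1) (A X : Mt) :
    tr2 (N * A * N.transpose) (J.transpose * X * J) = tr2 A X := by
  have h1 : N.transpose * J.transpose = 1 := by rw [← Matrix.transpose_mul, h, Matrix.transpose_one]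
  rw [tr2_eq, tr2_eq]
  calc ((N * A * N.transpose).transpose * (J.transpose * X * J)).trace
      = (N * (A.transpose * (N.transpose * J.transpose) * X * J)).trace := by
        simp only [Matrix.transpose_mul, Matrix.transpose_transpose, Matrix.mul_assoc]
    _ = (A.transpose * X * (J * N)).trace := by
        rw [Matrix.trace_mul_comm, h1]; simp only [Matrix.mul_assoc, Matrix.mul_one]
    _ = _ := by rw [h, Matrix.mul_one]

/-- covariance of the Euler-Lagrange equation -/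
theorem el_pull {J A X : Mt} {s s' : ℝ} (hJ : IsUnit J.det) (hs : s ≠ 0)
    (h : ∀ k : M2 (Fin 4) ℝ, (∀ a b, k a b = k b a) → tr2 (vG s (A⁻¹ : Mt) k) X = 0)
    (k : M2 (Fin 4) ℝ) (hk : ∀ a b, k a b = k b a) :
    tr2 (vG s' ((J.transpose * A * J)⁻¹ : Mt) k) (J.transpose * X * J) = 0 := by
  have h1 : J * J⁻¹ = 1 := Matrix.mul_nonsing_inv J hJ
  have h2 : J⁻¹ * J = 1 := Matrix.nonsing_inv_mul J hJ
  have h3 : J.transpose * J⁻¹.transpose = 1 := by
    rw [← Matrix.transpose_mul, h2, Matrix.transpose_one]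
  have e1 : (J.transpose * A * J)⁻¹ = J⁻¹ * A⁻¹ * J⁻¹.transpose := by
    rw [Matrix.mul_inv_rev, Matrix.mul_inv_rev, Matrix.transpose_nonsing_inv, Matrix.mul_assoc]
  set K : Mt := Matrix.of k with hK
  have hKs : K.transpose = K := by ext a b; exact hk b a
  set k' : Mt := J⁻¹.transpose * K * J⁻¹ with hk'
  have e2 : K = J.transpose * k' * J := by
    calc K = (J.transpose * J⁻¹.transpose) * K * (J⁻¹ * J) := by rw [h3, h2]; simp
      _ = _ := by simp only [hk', Matrix.mul_assoc]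
  have h4 := h k' fun a b => by
    have : k'.transpose = k' := by
      simp only [hk', Matrix.transpose_mul, Matrix.transpose_transpose, hKs, Matrix.mul_assoc]
    exact congrFun (congrFun this b) a
  have e3 : up (J⁻¹ * A⁻¹ * J⁻¹.transpose) K = J⁻¹ * (A⁻¹ * k' * A⁻¹) * J⁻¹.transpose := by
    rw [up_eq]; simp only [hk', Matrix.mul_assoc]
  rw [tr2_vG, up_eq, mul_eq_zero] at h4
  have h5 := h4.resolve_left hs
  show tr2 (vG s' _ K) _ = 0
  rw [tr2_vG, e1, e3, tr2_conj h1, tr2_conj h1, e2, tr2_conj h1, h5, mul_zero]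

theorem a2_pull (Φ : E4 → E4) (R : Tn 4 2) (y : E4) :
    a2 (pullT Φ R y) = (jc Φ y).transpose * Matrix.of (a2 (R (Φ y))) * jc Φ y := by
  have := pullM_eq Φ (fun z => Matrix.of (a2 (R z))) y
  rw [← this]
  have e : matT (fun z => Matrix.of (a2 (R z))) = R := by
    funext z I
    show R z ![I 0, I 1] = _
    rw [two_eq]
  funext a b
  simp only [pullM, Matrix.of_apply, e, a2]

namespace Inv

variable {A O : Set E4} (h : Inv Ψ Φ A)
include h

theorem unit (y : E4) : IsUnit (U.jc Φ y).det :=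
  Matrix.isUnit_det_of_left_inverse
    (jc_mul_ev h.sΦ.contDiffAt h.sΨ.contDiffAt (Eventually.of_forall h.r)).self_of_nhds

theorem pull (hO : IsOpen O) (hA : A ⊆ O) (hG : IsRiemannianOn G O) :
    Pull (pullM Φ G) G Φ O O :=
  mkPull hO hG (fun _ hy => h.maps hA hy) h.sΦ.contDiffOn (fun y _ => h.imm y) fun _ _ => rfl

/-- the two backgrounds on the flat part -/
theorem pull_bg (hO : IsOpen O) (hA : A ⊆ O) (h1 : ∀ y ∈ O, gb y = 1)
    (h2 : ∀ y ∈ O, gb' y = pullM Ψ (fun _ => 1) y) : Pull gb gb' Φ O O := by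
  have h3 : Pull gb' (fun _ => 1) Ψ O O := mkPull hO (riem_one O hO) (fun _ hy => h.maps' hA hy)
    h.sΨ.contDiffOn (fun y _ => h.imm' y) h2
  refine mkPull hO h3.riem' (fun _ hy => h.maps hA hy) h.sΦ.contDiffOn (fun y _ => h.imm y)
    fun y hy => ?_
  rw [h1 y hy, pullM_eq, h2 _ (h.maps hA hy), ← pullM_eq, pullM_comp (h.dΦ y) (h.dΨ _),
    pullM_of_ev (Eventually.of_forall h.r)]

end Inv

end Crest.Agent.N207.CB.Pb

end
end

-- ▼ part N207/CB/Pb3
section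

/-!
# Row 207, leaf `CB.PB` (helper58), file 3: the maps on `glob L`
-/

set_option autoImplicit false

open scoped ContDiff
open Metric Set Filter Topology MeasureTheory
open Crest.GeometryTopology.CoordMetric
open Crest.Agent.N207.U Crest.Agent.N207.Lg Crest.Agent.R202.Tens Crest.Agent.N207.I

noncomputable section

namespace Crest.Agent.N207.CB.Pb

variable {M : Type*} {T : TD M}

/-- the standing assumptions -/
structure Hyp (T : TD M) (T0 : ℝ) (L : T.V → ℝ) : Prop where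
  ok : T.Ok
  big : 16 ≤ T.r * Real.exp T0
  long : ∀ w, 2 * T0 + 10 ≤ L w

/-- the sets where the maps differ from the identity -/
def AS (T : TD M) (T0 : ℝ) (L : T.V → ℝ) : T.S → Set E4 :=
  Sum.elim (fun _ => ∅) fun w => {y | w ≠ T.root ∧ y ∈ An T0 (L w)}

/-- the maps -/
def PS (T : TD M) (T0 : ℝ) (L : T.V → ℝ) (a : T.V → Mt) : T.S → E4 → E4 :=
  Sum.elim (fun _ z => z) fun w => PsiA (etG T T0 L w) (a w)

/-- the flat part of a neck -/
def Fl (T0 L : ℝ) : Set E4 :=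
  {y | Real.exp (T0 + 1 / 10) < ‖y‖ ∧ ‖y‖ < Real.exp (L - T0 - 1 / 10)}

theorem isOpen_Fl (T0 L : ℝ) : IsOpen (Fl T0 L) :=
  (isOpen_lt continuous_const continuous_norm).inter (isOpen_lt continuous_norm continuous_const)

theorem An_sub (T0 L : ℝ) : An T0 L ⊆ Fl T0 L := fun _ hy =>
  ⟨(Real.exp_lt_exp.2 (by linarith)).trans_le hy.1, hy.2.trans_lt (Real.exp_lt_exp.2 (by linarith))⟩

theorem Fl.log {T0 L : ℝ} {y : E4} (h : y ∈ Fl T0 L) :
    y ≠ 0 ∧ T0 + 1 / 10 ≤ Real.log ‖y‖ ∧ Real.log ‖y‖ ≤ L - T0 - 1 / 10 := by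
  have h0 : 0 < ‖y‖ := (Real.exp_pos _).trans h.1
  exact ⟨norm_pos_iff.1 h0, (Real.le_log_iff_exp_le h0).2 h.1.le,
    (Real.log_le_iff_le_exp h0).2 h.2.le⟩

theorem log_exp_smul (t : ℝ) {y : E4} (hy : y ≠ 0) :
    Real.log ‖Real.exp t • y‖ = t + Real.log ‖y‖ := by
  rw [norm_smul, Real.norm_of_nonneg (Real.exp_pos t).le,
    Real.log_mul (Real.exp_pos t).ne' (norm_ne_zero_iff.2 hy), Real.log_exp]

theorem inv_id : Inv (fun z => z) (fun z => z) ∅ :=
  ⟨isClosed_empty, contDiff_id, contDiff_id, fun _ => rfl, fun _ => rfl, fun _ _ => rfl,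
    fun y p j => by rw [jc_id]; norm_num⟩

theorem mem_AS {T0 : ℝ} {L : T.V → ℝ} {s : T.S} {y : E4} (h : y ∈ AS T T0 L s) :
    ∃ w, s = Sum.inr w ∧ w ≠ T.root ∧ y ∈ An T0 (L w) := by
  rcases s with b | w
  · exact absurd h (notMem_empty y)
  · exact ⟨w, rfl, h⟩

theorem AS_inr {T0 : ℝ} {L : T.V → ℝ} {w : T.V} (hw : w ≠ T.root) :
    AS T T0 L (Sum.inr w) = An T0 (L w) := by
  ext y; exact and_iff_right hw

namespace Hyp

variable {T0 : ℝ} {L : T.V → ℝ} (h : Hyp T T0 L) {w : T.V} {y : E4}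
include h

theorem exp_ge : 16 ≤ Real.exp T0 :=
  h.big.trans (mul_le_of_le_one_left (Real.exp_pos _).le h.ok.r_lt.le)

theorem nonneg : 0 ≤ T0 := by
  by_contra h1
  linarith [Real.exp_le_one_iff.2 (not_le.1 h1).le, h.exp_ge]

theorem lng : T.Long L := fun w _ => h.big.trans (mul_le_mul_of_nonneg_left
  (Real.exp_le_exp.2 (by linarith [h.long w, h.nonneg])) h.ok.r_pos.le)

theorem fl_bd (hy : y ∈ Fl T0 (L w)) : 16 ≤ ‖y‖ ∧ 16 * ‖y‖ ≤ T.r * Real.exp (L w) := by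
  refine ⟨h.exp_ge.trans ((Real.exp_le_exp.2 (by linarith)).trans hy.1.le), ?_⟩
  have h1 : ‖y‖ ≤ Real.exp (L w - T0) := hy.2.le.trans (Real.exp_le_exp.2 (by linarith))
  calc 16 * ‖y‖ ≤ T.r * Real.exp T0 * Real.exp (L w - T0) :=
        mul_le_mul h.big h1 (norm_nonneg _) (by linarith [h.big])
    _ = _ := by rw [mul_assoc, ← Real.exp_add]; congr 2; ring

theorem fl_U (hy : y ∈ Fl T0 (L w)) : y ∈ (T.glob L).U (Sum.inr w) := by
  obtain ⟨h1, h2⟩ := h.fl_bd hy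
  exact ⟨by linarith, fun _ => by linarith⟩

theorem fl_gK (hy : y ∈ Fl T0 (L w)) : y ∈ T.gK L (Sum.inr w) := by
  obtain ⟨h1, h2⟩ := h.fl_bd hy
  exact ⟨by linarith, fun _ => by linarith⟩

theorem fl_c (hy : y ∈ Fl T0 (L w)) :
    (T.glob L).c (Sum.inr w) y = Sum.inr (w, T.orb w y) := by
  obtain ⟨h1, h2⟩ := h.fl_bd hy
  rw [TD.glob_c_inr, if_neg (by linarith), if_neg fun h3 => by
    linarith [TD.lt_nrm_exp.1 h3.2]]

theorem fl_χ (hy : y ∈ Fl T0 (L w)) : T.χ (Sum.inr w) ((T.glob L).c (Sum.inr w) y) = 1 := by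
  rw [h.fl_c hy]; simp [TD.χ]

theorem AS_sub (s : T.S) : AS T T0 L s ⊆ (T.glob L).U s := fun y hy => by
  obtain ⟨w, rfl, -, h1⟩ := mem_AS hy
  exact h.fl_U (An_sub _ _ h1)

theorem tau_inn (hw : w ≠ T.root) (hy : y ≠ 0) (t : ℝ) :
    tau T (T.par w) w t (Real.exp (-L w) • y) = L w - Real.log ‖y‖ - t := by
  rw [tau, if_neg (h.ok.par_ne hw), log_exp_smul _ hy]; ring

theorem fl_gb (g : T.V → Fam T) (hw : w ≠ T.root) (hy : y ∈ Fl T0 (L w)) :
    gbL T g T0 L (Sum.inr w) y = 1 := by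
  obtain ⟨h0, h1, h2⟩ := Fl.log hy
  have e1 : stp 0 (1 / 10) (tau T w w T0 y) = 1 :=
    stp_one (by norm_num) (by rw [tau, if_pos rfl]; linarith)
  have e2 : stp 0 (1 / 10) (tau T (T.par w) w T0 (Real.exp (-L w) • y)) = 1 :=
    stp_one (by norm_num) (by rw [h.tau_inn hw h0]; linarith)
  simp only [gbL, gb, Sum.elim_inr, e1, e2, if_neg hw, sub_self, zero_smul, add_zero]

theorem etG_eq (hw : w ≠ T.root) : etG T T0 L w = eta T0 (L w) := by
  funext y
  have e1 : tau T w w T0 y = 1 * Real.log ‖y‖ + -T0 := by rw [tau, if_pos rfl]; ring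
  rcases eq_or_ne y 0 with rfl | hy
  · rw [etG, eta, etC, e1, stp_zero (by norm_num) (by simp; linarith [h.nonneg]), zero_mul,
      zero_mul]
  · rw [etG, eta, etC, etC, e1, h.tau_inn hw hy]
    congr 2; ring

theorem PS_inr (a : T.V → Mt) (hw : w ≠ T.root) :
    PS T T0 L a (Sum.inr w) = PsiA (eta T0 (L w)) (a w) := by
  rw [← h.etG_eq hw]; rfl

theorem exists_u {δ0 : ℝ} (h0 : ∀ (T0 L : ℝ) (a : Mt), 0 ≤ T0 → (∀ p q, |a p q| ≤ δ0) →
    ∃ Φ, Inv (PsiA (eta T0 L) a) Φ (An T0 L)) {a : T.V → Mt} (ha : ∀ w, Adm T w (a w))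
    (hδ : ∀ w p q, |a w p q| ≤ δ0) : ∃ u : T.S → E4 → E4,
      ∀ s, Inv (PS T T0 L a s) (u s) (AS T T0 L s) := by
  refine Classical.skolem (p := fun s Φ => Inv (PS T T0 L a s) Φ (AS T T0 L s)).1 fun s => ?_
  rcases s with b | w
  · exact ⟨_, inv_id⟩
  · by_cases hw : w = T.root
    · have e1 : PS T T0 L a (Sum.inr w) = fun z => z := by
        funext z; simp [PS, PsiA, (ha w).root hw]
      have e2 : AS T T0 L (Sum.inr w) = ∅ := by ext y; simp [AS, hw]
      rw [e1, e2]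
      exact ⟨_, inv_id⟩
    · rw [h.PS_inr a hw, AS_inr hw]
      exact h0 T0 (L w) (a w) h.nonneg (hδ w)

theorem toL_zero {κ : T.V → Type} {ψ : ∀ v, κ v → Fam T} {T1 : ℝ} (hψ : Psi T κ ψ T1)
    (h1 : T1 ≤ T0) (hw : w ≠ T.root) (hy : y ∈ Fl T0 (L w)) (v : T.V) (j : κ v) :
    toL T L v (ψ v j) (Sum.inr w) y = 0 := by
  obtain ⟨h0, h2, h3⟩ := Fl.log hy
  simp only [toL, Sum.elim_inr]
  split_ifs with e1 e2
  · subst e1
    exact hψ.supp w j w y (TD.mem_core_out.2 (h.fl_U hy).1) (by rw [tau, if_pos rfl]; linarith)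
  · refine hψ.supp v j w _ ((TD.mem_core_inn e1).2 ⟨e2.1, norm_pos_iff.2
      (smul_ne_zero (Real.exp_pos _).ne' h0), e2.2⟩) ?_
    rw [← e2.1.2, h.tau_inn hw h0]
    linarith
  · rfl

theorem chart_eq {s s' : T.S} {x : E4} (hx : x ∈ AS T T0 L s)
    (e : (T.glob L).c s x = (T.glob L).c s' y) : s' = s := by
  obtain ⟨w, rfl, -, h1⟩ := mem_AS hx
  rw [h.fl_c (An_sub _ _ h1)] at e
  rcases s' with b | w'
  · exact absurd e Sum.inr_ne_inl
  · rw [TD.glob_c_inr] at e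
    split_ifs at e
    rw [(Prod.mk.inj (Sum.inr.inj e)).1]

end Hyp

theorem PS_eqv {T0 : ℝ} {L : T.V → ℝ} {a : T.V → Mt} (ha : ∀ w, Adm T w (a w)) (s : T.S) :
    ∀ γ ∈ T.grp s, ∀ y, PS T T0 L a s (γ y) = γ (PS T T0 L a s y) := by
  intro γ hγ y
  rcases s with b | w
  · rfl
  · have e : etG T T0 L w (γ y) = etG T T0 L w y := by
      simp only [etG, etC, tau, norm_smul, γ.norm_map]
    simp only [PS, Sum.elim_inr, PsiA, e, (ha w).comm γ hγ, map_add, map_smul]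

section U

variable {T0 : ℝ} {L : T.V → ℝ} {a : T.V → Mt} {u : T.S → E4 → E4}
  (hu : ∀ s, Inv (PS T T0 L a s) (u s) (AS T T0 L s))
include hu

theorem mor (h : Hyp T T0 L) (ha : ∀ w, Adm T w (a w)) :
    Atl.Mor (T.glob L) (T.glob L) id u := by
  have hO := h.ok.glob_ok h.lng
  have key : ∀ s, ∀ x ∈ (T.glob L).U s, ∀ y ∈ (T.glob L).U s,
      (T.glob L).c s x = (T.glob L).c s y → (T.glob L).c s (u s x) = (T.glob L).c s (u s y) := by
    intro s x hx y hy e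
    obtain ⟨γ, hγ, rfl⟩ := (hO.fib s x hx y hy).1 e
    refine (hO.fib s _ ((hu s).maps (h.AS_sub s) hx) _ ((hu s).maps (h.AS_sub s) hy)).2
      ⟨γ, hγ, ?_⟩
    conv_rhs => rw [← (hu s).r x, ← PS_eqv ha s γ hγ, (hu s).l]
  refine ⟨fun s x hx => (hu s).maps (h.AS_sub s) hx, fun s => (hu s).sΦ.contDiffOn,
    fun s x _ => (hu s).imm x, fun s s' x hx y hy e => ?_⟩
  by_cases h1 : x ∈ AS T T0 L s
  · obtain rfl := h.chart_eq h1 e
    exact key _ x hx y hy e
  · by_cases h2 : y ∈ AS T T0 L s'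
    · obtain rfl := h.chart_eq h2 e.symm
      exact key _ x hx y hy e
    · rwa [(hu s).off' h1, (hu s').off' h2]

theorem G_off (G : Fam T) {s : T.S} {y : E4} (hy : y ∉ AS T T0 L s) :
    pullM (u s) (G s) y = G s y := pullM_of_ev ((hu s).ev hy) _

theorem G_ev (G : Fam T) {s : T.S} {y : E4} (hy : y ∉ AS T T0 L s) :
    pullM (u s) (G s) =ᶠ[𝓝 y] G s := by
  filter_upwards [(hu s).cl.isOpen_compl.mem_nhds hy] with z hz using G_off hu G hz

theorem H_off (g : T.V → Fam T) {s : T.S} {y : E4} (hy : y ∉ AS T T0 L s) :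
    gbL T g T0 L s y = gbLA T g T0 L a s y := by
  rcases s with b | w
  · rfl
  · have : pullM (PsiA (etG T T0 L w) (a w)) (fun _ => 1) y = 1 := pullM_of_ev ((hu _).ev' hy) _
    simp only [gbLA, Sum.elim_inr, this, sub_self, add_zero]

theorem H_ev (g : T.V → Fam T) {s : T.S} {y : E4} (hy : y ∉ AS T T0 L s) :
    gbL T g T0 L s =ᶠ[𝓝 y] gbLA T g T0 L a s := by
  filter_upwards [(hu s).cl.isOpen_compl.mem_nhds hy] with z hz using H_off hu g hz

theorem nat_An (hN : NAT) (h : Hyp T T0 L) (g : T.V → Fam T) {G : Fam T} {w : T.V}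
    (hw : w ≠ T.root) (hG : IsRiemannianOn (G (Sum.inr w)) ((T.glob L).U (Sum.inr w))) {y : E4}
    (hy : y ∈ An T0 (L w)) :
    redT (gbL T g T0 L (Sum.inr w)) (pullM (u (Sum.inr w)) (G (Sum.inr w))) y =
      pullT (u (Sum.inr w)) (redT (gbLA T g T0 L a (Sum.inr w)) (G (Sum.inr w))) y ∧
    fgfF (gbL T g T0 L (Sum.inr w)) (pullM (u (Sum.inr w)) (G (Sum.inr w))) y =
      |(fderiv ℝ (u (Sum.inr w)) y).det| *
        fgfF (gbLA T g T0 L a (Sum.inr w)) (G (Sum.inr w)) (u (Sum.inr w) y) := by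
  have hA : AS T T0 L (Sum.inr w) ⊆ Fl T0 (L w) := AS_inr hw ▸ An_sub _ _
  refine hN _ _ _ _ _ _ _ y ((hu _).pull (isOpen_Fl _ _) hA
    (riemOn_mono hG (isOpen_Fl _ _) fun z hz => h.fl_U hz))
    ((hu _).pull_bg (isOpen_Fl _ _) hA (fun z hz => h.fl_gb g hw hz) fun z hz => ?_) (An_sub _ _ hy)
  simp only [gbLA, Sum.elim_inr, h.fl_gb g hw hz, add_sub_cancel]
  rfl

end U

end Crest.Agent.N207.CB.Pb

end
end

-- ▼ part N207/CB/Pb4

/-!
# Row 207, leaf `CB.PB` (helper58), file 4: assembly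
-/

set_option autoImplicit false

open scoped ContDiff
open Metric Set Filter Topology MeasureTheory
open Crest.GeometryTopology.CoordMetric
open Crest.Agent.N207.U Crest.Agent.N207.Lg Crest.Agent.R202.Tens Crest.Agent.N207.I

noncomputable section

namespace Crest.Agent.N207.CB.Pb

variable {M : Type*} {T : TD M} {T0 : ℝ} {L : T.V → ℝ} {a : T.V → Mt} {u : T.S → E4 → E4}
  {g : T.V → Fam T} {κ : T.V → Type} [∀ v, Fintype (κ v)] {ψ : ∀ v, κ v → Fam T} {δ δ' T1 : ℝ}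
  {θ μ : (Σ v, κ v) → ℝ} {G : Fam T}

theorem ls_riem (hS : LSb T g T0 κ ψ δ' L θ μ (gbLA T g T0 L a) G) (s : T.S) :
    IsRiemannianOn (G s) ((T.glob L).U s) :=
  riem_of_smul (pow_pos (TD.eps_pos L _) 2) (hS.met.riem s)

variable (hu : ∀ s, Inv (PS T T0 L a s) (u s) (AS T T0 L s)) (h : Hyp T T0 L)
  (hS : LSb T g T0 κ ψ δ' L θ μ (gbLA T g T0 L a) G)
include hu h hS

theorem ls_met (ha : ∀ w, Adm T w (a w)) :
    (T.glob L).IsMet fun s x => T.eps L (T.un s) ^ 2 • pullM (u s) (G s) x := by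
  have hO := h.ok.glob_ok h.lng
  refine (mor hu h ha).isMet hO hO hS.met fun s x _ => ?_
  rw [← matT_pullM]
  funext I
  simp only [matT, id, pullM_smul]

theorem ls_el (hN : NAT) (hψ : Psi T κ ψ T1) (h1 : T1 ≤ T0) (s : T.S) (x : E4)
    (hx : x ∈ (T.glob L).U s) (k : M2 (Fin 4) ℝ) (hk : ∀ a b, k a b = k b a) :
    tr2 (vG (Lg.sq (pullM (u s) (G s)) x) (iv (pullM (u s) (G s)) x) k)
      (a2 (redT (gbL T g T0 L s) (pullM (u s) (G s)) x)) =
      ∑ j : Σ v, κ v, μ j * ((T.eps L (T.un s) / T.eps L j.1) ^ 2 * (Lg.sq (gbL T g T0 L s) x *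
        tr2 (up (iv (gbL T g T0 L s) x) fun a b => toL T L j.1 (ψ j.1 j.2) s x a b) k)) := by
  by_cases hA : x ∈ AS T T0 L s
  · obtain ⟨w, rfl, hw, h2⟩ := mem_AS hA
    have h3 : u (Sum.inr w) x ∈ An T0 (L w) := ((hu _).mem hA).2
    have hU := h.fl_U (An_sub _ _ h3)
    have h4 := hS.el _ _ hU
    simp only [h.toL_zero hψ h1 hw (An_sub _ _ h2), h.toL_zero hψ h1 hw (An_sub _ _ h3),
      Matrix.zero_apply, up, tr2, mul_zero, zero_mul, Finset.sum_const_zero] at h4 ⊢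
    have h5 := el_pull (s' := Lg.sq (pullM (u (Sum.inr w)) (G (Sum.inr w))) x)
      ((hu (Sum.inr w)).unit x)
      (Real.sqrt_pos.2 ((ls_riem hS _).posDef _ hU).det_pos).ne'
      (X := Matrix.of (a2 (redT (gbLA T g T0 L a (Sum.inr w)) (G (Sum.inr w))
        (u (Sum.inr w) x)))) h4 k hk
    rw [← a2_pull, ← (nat_An hu hN h g hw (ls_riem hS _) h2).1, ← pullM_eq] at h5
    exact h5
  · have e1 : Lg.sq (pullM (u s) (G s)) x = Lg.sq (G s) x := by simp only [Lg.sq, G_off hu G hA]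
    have e2 : iv (pullM (u s) (G s)) x = iv (G s) x := by
      funext p q; simp only [iv, G_off hu G hA]
    have e3 : Lg.sq (gbL T g T0 L s) x = Lg.sq (gbLA T g T0 L a s) x := by
      simp only [Lg.sq, H_off hu g hA]
    have e4 : iv (gbL T g T0 L s) x = iv (gbLA T g T0 L a s) x := by
      funext p q; simp only [iv, H_off hu g hA]
    rw [e1, e2, e3, e4, redT_congr' (H_ev hu g hA) (G_ev hu G hA)]
    exact hS.el s x hx k hk

theorem ls_con (hψ : Psi T κ ψ T1) (h1 : T1 ≤ T0) (j : Σ v, κ v) :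
    pair T g j.1 (ψ j.1 j.2) (loc T L j.1 ((fun s => pullM (u s) (G s)) - gbL T g T0 L)) = θ j := by
  rw [← hS.con j]
  obtain ⟨v, j⟩ := j
  refine Finset.sum_congr rfl fun s _ => setIntegral_congr_fun
    ((h.ok.core_ok v).isOpen s).measurableSet fun x hx => ?_
  have key : ψ v j s x = 0 ∨ loc T L v ((fun s => pullM (u s) (G s)) - gbL T g T0 L) s x =
      loc T L v (G - gbLA T g T0 L a) s x := by
    have e : ∀ s y, y ∉ AS T T0 L s → ((fun s => pullM (u s) (G s)) - gbL T g T0 L) s y =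
        (G - gbLA T g T0 L a) s y := fun s y hy => by
      simp only [Pi.sub_apply, G_off hu G hy, H_off hu g hy]
    rcases s with b | w
    · exact Or.inr (e _ x (notMem_empty x))
    · simp only [loc, Sum.elim_inr]
      split_ifs with hw
      · by_cases hA : x ∈ AS T T0 L (Sum.inr w)
        · refine Or.inl (hψ.supp v j w x hx ?_)
          rw [tau, if_pos hw]
          linarith [((mem_An (An.ne hA.2)).1 hA.2).1]
        · exact Or.inr (e _ x hA)
      · by_cases hA : Real.exp (L w) • x ∈ AS T T0 L (Sum.inr w)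
        · refine Or.inl (hψ.supp v j w x hx ?_)
          have h2 := ((mem_An (An.ne hA.2)).1 hA.2).2
          rw [log_exp_smul _ (norm_pos_iff.1 ((TD.mem_core_inn hw).1 hx).2.1)] at h2
          rw [tau, if_neg hw]
          linarith
        · exact Or.inr (e _ _ hA)
  rcases key with e | e
  · simp [ip, ipA, matT, e]
  · simp only [ip, ipA, matT, e]

theorem ls_small {C : ℝ} (hC : ∀ d : D1 2, ∀ k ≤ 2, ∀ p q, d.s ^ k *
      ‖iteratedFDeriv ℝ k (fun z => pullM d.Φ d.G z p q - (1 : Mt) p q) d.y‖ ≤ C * d.δ)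
    (hδ : ∀ w p q, |a w p q| ≤ δ') (h1 : δ' ≤ 1) (h2 : δ' ≤ δ) (h3 : C * δ' ≤ δ) (s : T.S) (x : E4)
    (hx : x ∈ T.gK L s) (y : E4) (hy : y ∈ ball x (rad T s x)) (k : ℕ) (hk : k ≤ 2) (p q : Fin 4) :
    scl T s x ^ k * ‖iteratedFDeriv ℝ k
      (fun y => (pullM (u s) (G s) y - gbL T g T0 L s y) p q) y‖ ≤ δ := by
  by_cases hA : y ∈ AS T T0 L s
  · obtain ⟨w, rfl, hw, h4⟩ := mem_AS hA
    have h5 : u (Sum.inr w) y ∈ An T0 (L w) := ((hu _).mem hA).2
    have hU := h.fl_U (An_sub _ _ h5)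
    have ev : ∀ (K : MetricField 4) (z : E4) (p q : Fin 4), z ∈ An T0 (L w) →
        (fun y => (K y - gbL T g T0 L (Sum.inr w) y) p q) =ᶠ[𝓝 z]
          fun y => K y p q - (1 : Mt) p q := fun K z p q hz => by
      filter_upwards [(isOpen_Fl _ _).mem_nhds (An_sub _ _ hz)] with y hy
      rw [h.fl_gb g hw hy, Matrix.sub_apply]
    have hi := hu (Sum.inr w)
    rw [h.PS_inr a hw, AS_inr hw] at hi
    have h6 : ‖x‖ ≤ 2 * ‖y‖ := by
      have : ‖y - x‖ < ‖x‖ / 8 := mem_ball_iff_norm.1 hy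
      linarith [norm_sub_norm_le x y, norm_sub_rev x y, norm_nonneg y]
    rw [((ev _ y p q h4).iteratedFDeriv ℝ k).eq_of_nhds]
    refine le_trans (hC ⟨T0, L w, δ', a w, u (Sum.inr w), G (Sum.inr w), y, ‖x‖, h.nonneg, hδ w, h1,
      hi, h4, by linarith [hx.1], h6, fun p q => ((ls_riem hS _).contDiffOn p q).contDiffAt
        ((ls_riem hS _).isOpen.mem_nhds hU), fun k hk p q => ?_⟩ k hk p q) h3
    rw [← ((ev _ _ p q h5).iteratedFDeriv ℝ k).eq_of_nhds]
    exact hS.small (Sum.inr w) _ (h.fl_gK (An_sub _ _ h5)) _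
      (mem_ball_self (div_pos (norm_pos_iff.2 (An.ne h5)) (by norm_num))) k hk p q
  · have e : (fun y => (pullM (u s) (G s) y - gbL T g T0 L s y) p q) =ᶠ[𝓝 y]
        fun y => (G s y - gbL T g T0 L s y) p q :=
      (G_ev hu G hA).mono fun z hz => by simp only [hz]
    rw [(e.iteratedFDeriv ℝ k).eq_of_nhds]
    exact (hS.small s x hx y hy k hk p q).trans h2

theorem ls_den (hN : NAT) (s : T.S) (x : E4) :
    T.χ s ((T.glob L).c s x) * fgfF (gbL T g T0 L s) (pullM (u s) (G s)) x =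
      |(fderiv ℝ (u s) x).det| •
        (T.χ s ((T.glob L).c s (u s x)) * fgfF (gbLA T g T0 L a s) (G s) (u s x)) := by
  by_cases hA : x ∈ AS T T0 L s
  · obtain ⟨w, rfl, hw, h4⟩ := mem_AS hA
    rw [h.fl_χ (An_sub _ _ h4), h.fl_χ (An_sub _ _ ((hu _).mem hA).2), one_mul, one_mul,
      (nat_An hu hN h g hw (ls_riem hS _) h4).2, smul_eq_mul]
  · rw [((hu s).ev hA).fderiv_eq, (hu s).off' hA, fgfF_congr' (H_ev hu g hA) (G_ev hu G hA)]
    simp [ContinuousLinearMap.det]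

theorem ls_int (hN : NAT) (s : T.S) :
    IntegrableOn (fun x => T.χ s ((T.glob L).c s x) *
      fgfF (gbL T g T0 L s) (pullM (u s) (G s)) x) ((T.glob L).U s) ∧
    ∫ x in (T.glob L).U s, T.χ s ((T.glob L).c s x) *
      fgfF (gbL T g T0 L s) (pullM (u s) (G s)) x =
    ∫ x in (T.glob L).U s, T.χ s ((T.glob L).c s x) * fgfF (gbLA T g T0 L a s) (G s) x := by
  have hm := ((h.ok.glob_ok h.lng).isOpen s).measurableSet
  have hd : ∀ x ∈ (T.glob L).U s,
      HasFDerivWithinAt (u s) (fderiv ℝ (u s) x) ((T.glob L).U s) x := fun x _ =>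
    ((hu s).dΦ x).hasFDerivAt.hasFDerivWithinAt
  have hi : InjOn (u s) ((T.glob L).U s) := (Function.LeftInverse.injective (hu s).r).injOn
  have h1 := integrableOn_image_iff_integrableOn_abs_det_fderiv_smul volume hm hd hi
    fun x => T.χ s ((T.glob L).c s x) * fgfF (gbLA T g T0 L a s) (G s) x
  have h2 := integral_image_eq_integral_abs_det_fderiv_smul volume hm hd hi
    fun x => T.χ s ((T.glob L).c s x) * fgfF (gbLA T g T0 L a s) (G s) x
  rw [(hu s).image (h.AS_sub s)] at h1 h2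
  simp only [ls_den hu h hS hN]
  exact ⟨h1.1 (hS.int s), h2.symm⟩

omit hu h hS in
theorem pb_of (hN : NAT) (T : TD M) : PB T := by
  intro g γ _ hT _ κ _ ψ T1 hψ δ hδ
  obtain ⟨δ0, h0, hinv⟩ := exists_inv
  obtain ⟨C, hC, hj⟩ := pull_jets 2
  have hr := hT.r_pos
  refine ⟨min (min δ0 1) (min δ (δ / C)), max T1 (Real.log (16 / T.r)), by positivity,
    fun T0 hT0 L hL a ha hδ' θ μ G hS => ?_⟩
  have h : Hyp T T0 L := ⟨hT, by
    have := (Real.log_le_iff_le_exp (by positivity)).1 ((le_max_right _ _).trans hT0)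
    rwa [div_le_iff₀' hr] at this, hL⟩
  have h1 : T1 ≤ T0 := (le_max_left _ _).trans hT0
  have h2 : min (min δ0 1) (min δ (δ / C)) ≤ δ := (min_le_right _ _).trans (min_le_left _ _)
  obtain ⟨u, hu⟩ := h.exists_u hinv ha fun w p q =>
    (hδ' w p q).trans ((min_le_left _ _).trans (min_le_left _ _))
  refine ⟨fun s => pullM (u s) (G s), ⟨ls_met hu h hS ha, ls_el hu h hS hN hψ h1,
    ls_con hu h hS hψ h1, ls_small hu h hS hj hδ' ((min_le_left _ _).trans (min_le_right _ _)) h2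
      ((le_div_iff₀' hC).1 ((min_le_right _ _).trans (min_le_right _ _))), hS.mu.trans h2,
    fun x hx k hk p q => ?_, fun s => (ls_int hu h hS hN s).1⟩, ?_⟩
  · have e : pullM (u (Sum.inr T.root)) (G (Sum.inr T.root)) = G (Sum.inr T.root) :=
      funext fun y => G_off hu G fun hy => hy.1 rfl
    rw [e]
    exact (hS.dec x hx k hk p q).trans (mul_le_mul_of_nonneg_right h2 (by positivity))
  · exact Finset.sum_congr rfl fun s _ => by rw [(ls_int hu h hS hN s).2]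

end Crest.Agent.N207.CB.Pb

end
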